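import Mathlib

/-!
Finite Bernoulli product expectation `Ex E p F` over the random subset of a finite set `E`.
-/

open Finset

namespace Vale.Agent.P151

open Classical in
/-- weight of the configuration `ω ⊆ E` -/
noncomputable def wt {ι : Type*} (E : Finset ι) (p : ℝ) (ω : Finset ι) : ℝ :=
  ∏ e ∈ E, if e ∈ ω then p else 1 - p

/-- expectation of `F` under Bernoulli(`p`) percolation on `E` -/
noncomputable def Ex {ι : Type*} (E : Finset ι) (p : ℝ) (F : Set ι → ℝ) : ℝ :=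
  ∑ ω ∈ E.powerset, wt E p ω * F (ω : Set ι)

open Classical in
/-- indicator of a proposition -/
noncomputable def ind (P : Prop) : ℝ := if P then 1 else 0

/-- probability of the event `A` -/
noncomputable def Pr {ι : Type*} (E : Finset ι) (p : ℝ) (A : Set ι → Prop) : ℝ :=
  Ex E p fun ω => ind (A ω)

lemma ind_of {P : Prop} (h : P) : ind P = 1 := by simp [ind, h]
lemma ind_of_not {P : Prop} (h : ¬ P) : ind P = 0 := by simp [ind, h]
lemma ind_nonneg (P : Prop) : 0 ≤ ind P := by unfold ind; split_ifs <;> norm_num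
lemma ind_le_one (P : Prop) : ind P ≤ 1 := by unfold ind; split_ifs <;> norm_num
lemma ind_congr {P Q : Prop} (h : P ↔ Q) : ind P = ind Q := by rw [propext h]
lemma ind_mono {P Q : Prop} (h : P → Q) : ind P ≤ ind Q := by
  by_cases hP : P
  · rw [ind_of hP, ind_of (h hP)]
  · rw [ind_of_not hP]; exact ind_nonneg Q
lemma ind_and (P Q : Prop) : ind (P ∧ Q) = ind P * ind Q := by
  by_cases hP : P <;> by_cases hQ : Q <;> simp [ind, hP, hQ]
lemma ind_not (P : Prop) : ind (¬ P) = 1 - ind P := by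
  by_cases hP : P <;> simp [ind, hP]
lemma ind_or_le (P Q : Prop) : ind (P ∨ Q) ≤ ind P + ind Q := by
  by_cases hP : P <;> by_cases hQ : Q <;> simp [ind, hP, hQ]

variable {ι : Type*} {E : Finset ι} {p : ℝ}

lemma wt_nonneg (h0 : 0 ≤ p) (h1 : p ≤ 1) (E ω : Finset ι) : 0 ≤ wt E p ω := by
  unfold wt
  refine Finset.prod_nonneg fun e _ => ?_
  split_ifs <;> linarith

lemma wt_empty (E : Finset ι) : wt E p ∅ = (1 - p) ^ E.card := by
  simp [wt]

@[simp] lemma Ex_empty (F : Set ι → ℝ) : Ex ∅ p F = F ∅ := by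
  simp [Ex, wt]

lemma Ex_insert [DecidableEq ι] {e : ι} (he : e ∉ E) (F : Set ι → ℝ) :
    Ex (insert e E) p F = p * Ex E p (fun ω => F (insert e ω)) + (1 - p) * Ex E p F := by
  unfold Ex
  rw [Finset.sum_powerset_insert he, add_comm, Finset.mul_sum, Finset.mul_sum]
  congr 1
  · refine Finset.sum_congr rfl fun ω hω => ?_
    have h1 : wt (insert e E) p (insert e ω) = p * wt E p ω := by
      unfold wt
      rw [Finset.prod_insert he]
      simp only [Finset.mem_insert_self, if_true]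
      congr 1
      refine Finset.prod_congr rfl fun x hx => ?_
      have : x ≠ e := fun h => he (h ▸ hx)
      simp [this]
    rw [h1, Finset.coe_insert]; ring
  · refine Finset.sum_congr rfl fun ω hω => ?_
    have h1 : wt (insert e E) p ω = (1 - p) * wt E p ω := by
      unfold wt
      rw [Finset.prod_insert he]
      have : e ∉ ω := fun h => he (Finset.mem_powerset.1 hω h)
      simp [this]
    rw [h1]; ring

lemma Ex_congr {F G : Set ι → ℝ} (h : ∀ ω : Set ι, ω ⊆ E → F ω = G ω) : Ex E p F = Ex E p G := by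
  unfold Ex
  refine Finset.sum_congr rfl fun ω hω => ?_
  rw [h _ (by exact_mod_cast Finset.mem_powerset.1 hω)]

lemma Ex_add (F G : Set ι → ℝ) : Ex E p (fun ω => F ω + G ω) = Ex E p F + Ex E p G := by
  simp only [Ex, mul_add, Finset.sum_add_distrib]

lemma Ex_sub (F G : Set ι → ℝ) : Ex E p (fun ω => F ω - G ω) = Ex E p F - Ex E p G := by
  simp only [Ex, mul_sub, Finset.sum_sub_distrib]

lemma Ex_neg (F : Set ι → ℝ) : Ex E p (fun ω => - F ω) = - Ex E p F := by
  simp only [Ex, mul_neg, Finset.sum_neg_distrib]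

lemma Ex_mul_left (c : ℝ) (F : Set ι → ℝ) : Ex E p (fun ω => c * F ω) = c * Ex E p F := by
  simp only [Ex, Finset.mul_sum]
  refine Finset.sum_congr rfl fun ω _ => by ring

lemma Ex_mul_right (c : ℝ) (F : Set ι → ℝ) : Ex E p (fun ω => F ω * c) = Ex E p F * c := by
  simp only [Ex, Finset.sum_mul]
  refine Finset.sum_congr rfl fun ω _ => by ring

lemma Ex_sum {κ : Type*} (s : Finset κ) (F : κ → Set ι → ℝ) :
    Ex E p (fun ω => ∑ k ∈ s, F k ω) = ∑ k ∈ s, Ex E p (F k) := by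
  simp only [Ex, Finset.mul_sum]
  exact Finset.sum_comm

@[simp] lemma Ex_const (c : ℝ) : Ex E p (fun _ => c) = c := by
  classical
  induction E using Finset.induction_on with
  | empty => simp
  | insert e E he ih => rw [Ex_insert he, ih]; ring

lemma Ex_mono (h0 : 0 ≤ p) (h1 : p ≤ 1) {F G : Set ι → ℝ} (h : ∀ ω : Set ι, ω ⊆ E → F ω ≤ G ω) :
    Ex E p F ≤ Ex E p G := by
  unfold Ex
  refine Finset.sum_le_sum fun ω hω => ?_
  exact mul_le_mul_of_nonneg_left (h _ (by exact_mod_cast Finset.mem_powerset.1 hω))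
    (wt_nonneg h0 h1 _ _)

lemma Ex_nonneg (h0 : 0 ≤ p) (h1 : p ≤ 1) {F : Set ι → ℝ} (h : ∀ ω : Set ι, ω ⊆ E → 0 ≤ F ω) :
    0 ≤ Ex E p F := by
  have := Ex_mono (E := E) h0 h1 (F := fun _ => 0) h
  simpa using this

lemma Ex_le_const (h0 : 0 ≤ p) (h1 : p ≤ 1) {F : Set ι → ℝ} {c : ℝ}
    (h : ∀ ω : Set ι, ω ⊆ E → F ω ≤ c) : Ex E p F ≤ c := by
  have := Ex_mono (E := E) h0 h1 (G := fun _ => c) h
  simpa using this

lemma const_le_Ex (h0 : 0 ≤ p) (h1 : p ≤ 1) {F : Set ι → ℝ} {c : ℝ}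
    (h : ∀ ω : Set ι, ω ⊆ E → c ≤ F ω) : c ≤ Ex E p F := by
  have := Ex_mono (E := E) h0 h1 (F := fun _ => c) h
  simpa using this

/-- the empty configuration has weight `(1-p)^|E|` -/
lemma Ex_ge_empty (h0 : 0 ≤ p) (h1 : p ≤ 1) {F : Set ι → ℝ} (h : ∀ ω : Set ι, ω ⊆ E → 0 ≤ F ω) :
    (1 - p) ^ E.card * F ∅ ≤ Ex E p F := by
  unfold Ex
  have := Finset.single_le_sum (f := fun ω : Finset ι => wt E p ω * F (ω : Set ι))
    (fun ω hω => mul_nonneg (wt_nonneg h0 h1 _ _)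
      (h _ (by exact_mod_cast Finset.mem_powerset.1 hω))) (Finset.empty_mem_powerset E)
  simpa [wt_empty] using this

lemma Ex_comm {κ : Type*} (E' : Finset κ) (p' : ℝ) (F : Set ι → Set κ → ℝ) :
    Ex E p (fun ω => Ex E' p' (fun η => F ω η)) = Ex E' p' (fun η => Ex E p (fun ω => F ω η)) := by
  simp only [Ex, Finset.mul_sum]
  rw [Finset.sum_comm]
  refine Finset.sum_congr rfl fun _ _ => Finset.sum_congr rfl fun _ _ => by ring

/-- Fubini for disjoint edge sets. -/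
lemma Ex_union [DecidableEq ι] {E₁ E₂ : Finset ι} (h : Disjoint E₁ E₂) (F : Set ι → ℝ) :
    Ex (E₁ ∪ E₂) p F = Ex E₁ p (fun ξ => Ex E₂ p (fun η => F (ξ ∪ η))) := by
  induction E₁ using Finset.induction_on generalizing F with
  | empty => simp
  | insert e E he ih =>
    rw [Finset.disjoint_insert_left] at h
    have he' : e ∉ E ∪ E₂ := by simp [he, h.1]
    rw [Finset.insert_union, Ex_insert he', Ex_insert he, ih h.2, ih h.2]
    simp only [Set.insert_union]

/-- A function of the coordinates in `E'` only has the same expectation on `E' ⊆ E`. -/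
lemma Ex_restrict {E E' : Finset ι} (h : E' ⊆ E) (F : Set ι → ℝ)
    (hF : ∀ ω : Set ι, ω ⊆ E → F ω = F (ω ∩ E')) : Ex E p F = Ex E' p F := by
  classical
  have e1 : E = E' ∪ (E \ E') := (Finset.union_sdiff_of_subset h).symm
  rw [Ex_congr hF]
  conv_lhs => rw [e1]
  rw [Ex_union Finset.disjoint_sdiff]
  refine Ex_congr fun ξ hξ => ?_
  rw [Ex_congr (G := fun _ => F ξ), Ex_const]
  intro η hη
  congr 1
  ext x
  constructor
  · rintro ⟨hx | hx, hx'⟩
    · exact hx
    · have := hη hx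
      simp only [Finset.coe_sdiff, Set.mem_sdiff] at this
      exact absurd hx' this.2
  · intro hx
    exact ⟨Or.inl hx, hξ hx⟩

/-- Resampling outside a stopping set `T ω`. -/
lemma Ex_resample (T : Set ι → Set ι)
    (hT : ∀ ω ω' : Set ι, ω' ∩ T ω = ω ∩ T ω → T ω' = T ω) (F : Set ι → ℝ) :
    Ex E p F = Ex E p (fun ω => Ex E p (fun η => F ((ω ∩ T ω) ∪ (η \ T ω)))) := by
  classical
  let mix : Finset ι → Finset ι → Finset ι → Finset ι := fun z ω η =>
    ω.filter (· ∈ T z) ∪ η.filter (· ∉ T z)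
  have hmix : ∀ z ω η : Finset ι, ((mix z ω η : Finset ι) : Set ι) =
      ((ω : Set ι) ∩ T z) ∪ ((η : Set ι) \ T z) := by
    intro z ω η
    ext x
    simp [mix]
  have hmem : ∀ z ω η x, x ∈ mix z ω η ↔ if x ∈ T z then x ∈ ω else x ∈ η := by
    intro z ω η x
    by_cases hx : x ∈ T z <;> simp [mix, hx]
  have hTm : ∀ ω η : Finset ι, T (mix ω ω η) = T ω := by
    intro ω η
    apply hT
    rw [hmix]
    ext x
    simp only [Set.mem_inter_iff, Set.mem_union, Set.mem_sdiff]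
    tauto
  have hmm : ∀ ω η : Finset ι, mix (mix ω ω η) (mix ω ω η) (mix ω η ω) = ω := by
    intro ω η
    ext x
    rw [hmem, hTm, hmem, hmem]
    split_ifs <;> rfl
  have hmm' : ∀ ω η : Finset ι, mix (mix ω ω η) (mix ω η ω) (mix ω ω η) = η := by
    intro ω η
    ext x
    rw [hmem, hTm, hmem, hmem]
    split_ifs <;> rfl
  have hsub : ∀ z ω η, ω ⊆ E → η ⊆ E → mix z ω η ⊆ E := by
    intro z ω η h1 h2 x hx
    rw [hmem] at hx
    split_ifs at hx
    exacts [h1 hx, h2 hx]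
  have hw : ∀ z ω η, wt E p (mix z ω η) * wt E p (mix z η ω) = wt E p ω * wt E p η := by
    intro z ω η
    unfold wt
    rw [← Finset.prod_mul_distrib, ← Finset.prod_mul_distrib]
    refine Finset.prod_congr rfl fun x _ => ?_
    simp only [hmem]
    by_cases hx : x ∈ T z
    · simp [hx]
    · simp [hx, mul_comm]
  have e0 : Ex E p F = ∑ x ∈ E.powerset ×ˢ E.powerset, wt E p x.1 * wt E p x.2 * F x.1 := by
    rw [Finset.sum_product]
    have : Ex E p F = Ex E p (fun ω => Ex E p (fun _ => F ω)) := by simp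
    rw [this]
    simp only [Ex, Finset.mul_sum, mul_assoc]
  have e1 : Ex E p (fun ω => Ex E p (fun η => F ((ω ∩ T ω) ∪ (η \ T ω)))) =
      ∑ x ∈ E.powerset ×ˢ E.powerset, wt E p x.1 * wt E p x.2 * F (mix x.1 x.1 x.2) := by
    rw [Finset.sum_product]
    simp only [Ex, Finset.mul_sum, mul_assoc, hmix]
  rw [e0, e1]
  symm
  refine Finset.sum_nbij' (fun x => (mix x.1 x.1 x.2, mix x.1 x.2 x.1))
    (fun x => (mix x.1 x.1 x.2, mix x.1 x.2 x.1)) ?_ ?_ ?_ ?_ ?_
  · intro x hx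
    simp only [Finset.mem_product, Finset.mem_powerset] at hx ⊢
    exact ⟨hsub _ _ _ hx.1 hx.2, hsub _ _ _ hx.2 hx.1⟩
  · intro x hx
    simp only [Finset.mem_product, Finset.mem_powerset] at hx ⊢
    exact ⟨hsub _ _ _ hx.1 hx.2, hsub _ _ _ hx.2 hx.1⟩
  · intro x _
    simp only [hmm, hmm']
  · intro x _
    simp only [hmm, hmm']
  · intro x _
    simp only [hw]

/-- Resampling outside a fixed set. -/
lemma Ex_resample_const (T : Set ι) (F : Set ι → ℝ) :
    Ex E p F = Ex E p (fun ω => Ex E p (fun η => F ((ω ∩ T) ∪ (η \ T)))) :=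
  Ex_resample (fun _ => T) (fun _ _ _ => rfl) F

/-- Harris' inequality. -/
lemma harris (h0 : 0 ≤ p) (h1 : p ≤ 1) {F G : Set ι → ℝ} (hF : Monotone F) (hG : Monotone G) :
    Ex E p F * Ex E p G ≤ Ex E p (fun ω => F ω * G ω) := by
  classical
  induction E using Finset.induction_on generalizing F G with
  | empty => simp
  | insert e E he ih =>
    rw [Ex_insert he, Ex_insert he, Ex_insert he]
    have hins : Monotone fun ω : Set ι => insert e ω := fun _ _ h => Set.insert_subset_insert h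
    have i1 := ih (hF.comp hins) (hG.comp hins)
    have i2 := ih hF hG
    have a1 : Ex E p F ≤ Ex E p (fun ω => F (insert e ω)) :=
      Ex_mono h0 h1 fun ω _ => hF (Set.subset_insert e ω)
    have a2 : Ex E p G ≤ Ex E p (fun ω => G (insert e ω)) :=
      Ex_mono h0 h1 fun ω _ => hG (Set.subset_insert e ω)
    simp only [Function.comp_def] at i1
    have hp : 0 ≤ 1 - p := by linarith
    have k := mul_nonneg (mul_nonneg h0 hp) (mul_nonneg (sub_nonneg.2 a1) (sub_nonneg.2 a2))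
    nlinarith [mul_le_mul_of_nonneg_left i1 h0, mul_le_mul_of_nonneg_left i2 hp]

lemma harris_anti (h0 : 0 ≤ p) (h1 : p ≤ 1) {F G : Set ι → ℝ} (hF : Antitone F) (hG : Antitone G) :
    Ex E p F * Ex E p G ≤ Ex E p (fun ω => F ω * G ω) := by
  have := harris (E := E) h0 h1 (F := fun ω => - F ω) (G := fun ω => - G ω) hF.neg hG.neg
  simpa [Ex_neg] using this

lemma harris_mixed (h0 : 0 ≤ p) (h1 : p ≤ 1) {F G : Set ι → ℝ} (hF : Monotone F)
    (hG : Antitone G) : Ex E p (fun ω => F ω * G ω) ≤ Ex E p F * Ex E p G := by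
  have := harris (E := E) h0 h1 (F := F) (G := fun ω => - G ω) hF hG.neg
  simp only [mul_neg, Ex_neg] at this
  linarith

lemma Ex_map {κ : Type*} (f : ι ↪ κ) (F : Set κ → ℝ) :
    Ex (E.map f) p F = Ex E p (fun ω => F (f '' ω)) := by
  classical
  induction E using Finset.induction_on generalizing F with
  | empty => simp
  | insert e E he ih =>
    have he' : f e ∉ E.map f := by simpa using he
    rw [Finset.map_insert, Ex_insert he', Ex_insert he, ih, ih]
    simp only [Set.image_insert_eq]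

lemma continuous_Ex (E : Finset ι) (F : Set ι → ℝ) : Continuous fun p => Ex E p F := by
  classical
  unfold Ex wt
  refine continuous_finsetSum _ fun ω _ => Continuous.mul ?_ continuous_const
  refine continuous_finsetProd _ fun e _ => ?_
  split_ifs <;> fun_prop

/-! ### Probabilities -/

lemma Pr_nonneg (h0 : 0 ≤ p) (h1 : p ≤ 1) (A : Set ι → Prop) : 0 ≤ Pr E p A :=
  Ex_nonneg h0 h1 fun _ _ => ind_nonneg _

lemma Pr_le_one (h0 : 0 ≤ p) (h1 : p ≤ 1) (A : Set ι → Prop) : Pr E p A ≤ 1 :=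
  Ex_le_const h0 h1 fun _ _ => ind_le_one _

lemma Pr_mono (h0 : 0 ≤ p) (h1 : p ≤ 1) {A B : Set ι → Prop}
    (h : ∀ ω : Set ι, ω ⊆ E → A ω → B ω) : Pr E p A ≤ Pr E p B :=
  Ex_mono h0 h1 fun ω hω => ind_mono (h ω hω)

lemma Pr_congr {A B : Set ι → Prop} (h : ∀ ω : Set ι, ω ⊆ E → (A ω ↔ B ω)) :
    Pr E p A = Pr E p B :=
  Ex_congr fun ω hω => ind_congr (h ω hω)

lemma Pr_not (A : Set ι → Prop) : Pr E p (fun ω => ¬ A ω) = 1 - Pr E p A := by
  unfold Pr
  simp only [ind_not, Ex_sub, Ex_const]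

lemma Pr_or_le (h0 : 0 ≤ p) (h1 : p ≤ 1) (A B : Set ι → Prop) :
    Pr E p (fun ω => A ω ∨ B ω) ≤ Pr E p A + Pr E p B := by
  unfold Pr
  rw [← Ex_add]
  exact Ex_mono h0 h1 fun ω _ => ind_or_le _ _

lemma Pr_le_add (h0 : 0 ≤ p) (h1 : p ≤ 1) {A B C : Set ι → Prop}
    (h : ∀ ω : Set ι, ω ⊆ E → A ω → B ω ∨ C ω) : Pr E p A ≤ Pr E p B + Pr E p C :=
  (Pr_mono h0 h1 h).trans (Pr_or_le h0 h1 B C)

lemma Pr_restrict {E E' : Finset ι} (h : E' ⊆ E) (A : Set ι → Prop)
    (hA : ∀ ω : Set ι, ω ⊆ E → (A ω ↔ A (ω ∩ E'))) : Pr E p A = Pr E' p A :=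
  Ex_restrict h _ fun ω hω => ind_congr (hA ω hω)

/-- An increasing event is more likely when more edges are available. -/
lemma Pr_le_of_subset (h0 : 0 ≤ p) (h1 : p ≤ 1) {E E' : Finset ι} (h : E' ⊆ E)
    {A B : Set ι → Prop} (hAB : ∀ ω : Set ι, ω ⊆ E → A (ω ∩ E') → B ω) :
    Pr E' p A ≤ Pr E p B := by
  have : Pr E' p A = Pr E p (fun ω => A (ω ∩ E')) := by
    rw [Pr_restrict h (fun ω => A (ω ∩ E')) (fun ω _ => by rw [Set.inter_assoc, Set.inter_self])]
    exact Pr_congr fun ω hω => by rw [Set.inter_eq_left.2 hω]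
  rw [this]
  exact Pr_mono h0 h1 hAB

lemma Pr_ge_of_subset (h0 : 0 ≤ p) (h1 : p ≤ 1) {E E' : Finset ι} (h : E' ⊆ E)
    {A B : Set ι → Prop} (hAB : ∀ ω : Set ι, ω ⊆ E → B ω → A (ω ∩ E')) :
    Pr E p B ≤ Pr E' p A := by
  have := Pr_le_of_subset h0 h1 h (A := fun ω => ¬ A ω) (B := fun ω => ¬ B ω)
    (fun ω hω hA hB => hA (hAB ω hω hB))
  rw [Pr_not, Pr_not] at this
  linarith

lemma mono_ind {A : Set ι → Prop} (hA : ∀ ω ω', ω ⊆ ω' → A ω → A ω') :
    Monotone fun ω => ind (A ω) := fun _ _ h => ind_mono (hA _ _ h)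

lemma anti_ind {A : Set ι → Prop} (hA : ∀ ω ω', ω ⊆ ω' → A ω' → A ω) :
    Antitone fun ω => ind (A ω) := fun _ _ h => ind_mono (hA _ _ h)

/-- Harris for two decreasing events (complements of increasing events). -/
lemma Pr_harris_not (h0 : 0 ≤ p) (h1 : p ≤ 1) {A B : Set ι → Prop}
    (hA : ∀ ω ω', ω ⊆ ω' → A ω → A ω') (hB : ∀ ω ω', ω ⊆ ω' → B ω → B ω') :
    Pr E p (fun ω => ¬ A ω) * Pr E p (fun ω => ¬ B ω) ≤ Pr E p (fun ω => ¬ A ω ∧ ¬ B ω) := by
  unfold Pr
  simp only [ind_and]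
  exact harris_anti h0 h1 (anti_ind fun ω ω' h h1 h2 => h1 (hA _ _ h h2))
    (anti_ind fun ω ω' h h1 h2 => h1 (hB _ _ h h2))

lemma Pr_harris (h0 : 0 ≤ p) (h1 : p ≤ 1) {A B : Set ι → Prop}
    (hA : ∀ ω ω', ω ⊆ ω' → A ω → A ω') (hB : ∀ ω ω', ω ⊆ ω' → B ω → B ω') :
    Pr E p A * Pr E p B ≤ Pr E p (fun ω => A ω ∧ B ω) := by
  unfold Pr
  simp only [ind_and]
  exact harris h0 h1 (mono_ind hA) (mono_ind hB)

lemma Pr_harris_mixed (h0 : 0 ≤ p) (h1 : p ≤ 1) {A B : Set ι → Prop}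
    (hA : ∀ ω ω', ω ⊆ ω' → A ω → A ω') (hB : ∀ ω ω', ω ⊆ ω' → B ω → B ω') :
    Pr E p (fun ω => A ω ∧ ¬ B ω) ≤ Pr E p A * Pr E p (fun ω => ¬ B ω) := by
  unfold Pr
  simp only [ind_and]
  exact harris_mixed h0 h1 (mono_ind hA) (anti_ind fun ω ω' h h1 h2 => h1 (hB _ _ h h2))

/-- all edges of `D ⊆ E` are open with probability `p ^ |D|` -/
lemma Pr_all_open {D : Finset ι} (hD : D ⊆ E) :
    Pr E p (fun ω => (D : Set ι) ⊆ ω) = p ^ D.card := by
  classical
  rw [Pr_restrict hD _ (fun ω _ => by simp)]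
  clear hD
  induction D using Finset.induction_on with
  | empty => simp [Pr, ind]
  | insert e D he ih =>
    unfold Pr at ih ⊢
    rw [Ex_insert he, Finset.card_insert_of_notMem he, pow_succ, ← ih]
    have e1 : Ex D p (fun ω => ind (((insert e D : Finset ι) : Set ι) ⊆ ω)) = 0 := by
      rw [Ex_congr (G := fun _ => 0), Ex_const]
      intro ω hω
      apply ind_of_not
      intro h
      exact he (hω (h (by simp)))
    have e2 : Ex D p (fun ω => ind (((insert e D : Finset ι) : Set ι) ⊆ insert e ω)) =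
        Ex D p (fun ω => ind ((D : Set ι) ⊆ ω)) := by
      refine Ex_congr fun ω _ => ind_congr ?_
      rw [Finset.coe_insert, Set.insert_subset_insert_iff (by simpa using he)]
    rw [e1, e2]; ring

/-- all edges of `D` are closed with probability at least `(1-p) ^ |D|` -/
lemma Pr_all_closed (h0 : 0 ≤ p) (h1 : p ≤ 1) (D : Finset ι) :
    (1 - p) ^ D.card ≤ Pr E p (fun ω => Disjoint (D : Set ι) ω) := by
  classical
  have h2 : Pr (E ∩ D) p (fun ω => ω = ∅) ≤ Pr E p (fun ω => Disjoint (D : Set ι) ω) := by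
    refine Pr_le_of_subset h0 h1 Finset.inter_subset_left fun ω hω h => ?_
    rw [Set.disjoint_left]
    intro x hx hx'
    have : x ∈ ω ∩ ((E ∩ D : Finset ι) : Set ι) := ⟨hx', by simpa using ⟨hω hx', hx⟩⟩
    rw [h] at this
    exact this
  refine le_trans ?_ h2
  have h3 := Ex_ge_empty (E := E ∩ D) h0 h1 (F := fun ω => ind (ω = ∅)) fun _ _ => ind_nonneg _
  rw [ind_of rfl, mul_one] at h3
  refine le_trans ?_ h3
  exact pow_le_pow_of_le_one (by linarith) (by linarith)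
    (Finset.card_le_card Finset.inter_subset_right)

/-- Markov's inequality. -/
lemma Pr_markov (h0 : 0 ≤ p) (h1 : p ≤ 1) {F : Set ι → ℝ} (hF : ∀ ω : Set ι, ω ⊆ E → 0 ≤ F ω)
    {a : ℝ} {A : Set ι → Prop} (hA : ∀ ω : Set ι, ω ⊆ E → A ω → a ≤ F ω) :
    a * Pr E p A ≤ Ex E p F := by
  unfold Pr
  rw [← Ex_mul_left]
  refine Ex_mono h0 h1 fun ω hω => ?_
  by_cases h : A ω
  · rw [ind_of h, mul_one]; exact hA ω hω h
  · rw [ind_of_not h, mul_zero]; exact hF ω hω

end Vale.Agent.P151
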