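import Vale.Agent.P151.Setting
import Vale.Agent.P151.Defs

open MeasureTheory ProbabilityTheory

namespace Vale.Agent.P151

namespace Br

variable {ι : Type*}

lemma cyl_eq (E ξ : Finset ι) (hξ : ξ ⊆ E) :
    {w : Set ι | w ∩ E = ξ} = {w : Set ι | ∀ e ∈ E, (e ∈ w ↔ e ∈ ξ)} := by
  ext w
  simp only [Set.mem_setOf_eq, Set.ext_iff, Set.mem_inter_iff, Finset.mem_coe]
  constructor
  · intro h e he
    rw [← h e]; exact (and_iff_left he).symm
  · intro h e
    exact ⟨fun he => (h e he.2).1 he.1, fun he => ⟨(h e (hξ he)).2 he, hξ he⟩⟩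

lemma cyl_meas (E ξ : Finset ι) (hξ : ξ ⊆ E) : MeasurableSet {w : Set ι | w ∩ E = ξ} := by
  rw [cyl_eq E ξ hξ]
  have : {w : Set ι | ∀ e ∈ E, (e ∈ w ↔ e ∈ ξ)} = ⋂ e ∈ E, {w : Set ι | e ∈ w ↔ e ∈ ξ} := by
    ext w; simp
  rw [this]
  refine Finset.measurableSet_biInter E fun e _ => ?_
  by_cases he : e ∈ ξ
  · simp only [he, iff_true]; exact measurableSet_mem e
  · simp only [he, iff_false]; exact measurableSet_notMem e

lemma cyl_real {u : Set ι} (p : unitInterval) (E ξ : Finset ι) (hE : (E : Set ι) ⊆ u)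
    (hξ : ξ ⊆ E) : (setBernoulli u p).real {w : Set ι | w ∩ E = ξ} = wt E p ξ := by
  classical
  rw [cyl_eq E ξ hξ, measureReal_def, setBernoulli_apply']
  have : (fun q : ι → Prop => {i | q i}) ⁻¹' {w : Set ι | ∀ e ∈ E, (e ∈ w ↔ e ∈ ξ)} =
      Set.pi (E : Set ι) (fun i => {P : Prop | P ↔ i ∈ ξ}) := by
    ext q; simp
  rw [this, Measure.infinitePi_pi _ (fun i _ => MeasurableSet.of_discrete), ENNReal.toReal_prod]
  unfold wt
  refine Finset.prod_congr rfl fun e he => ?_
  have heu : e ∈ u := hE he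
  by_cases h : e ∈ ξ
  · simp [h, heu]
  · simp [h, heu]

open Classical in
lemma ev_eq (E : Finset ι) (A : Set ι → Prop) :
    {w : Set ι | A (w ∩ E)} =
      ⋃ ξ ∈ E.powerset.filter (fun ξ : Finset ι => A ξ), {w : Set ι | w ∩ E = ξ} := by
  ext w
  simp only [Set.mem_setOf_eq, Set.mem_iUnion, Finset.mem_filter, Finset.mem_powerset]
  constructor
  · intro h
    have h1 : w ∩ E = (E.filter (· ∈ w) : Finset ι) := by
      ext e; simp [and_comm]
    exact ⟨E.filter (· ∈ w), ⟨Finset.filter_subset _ _, h1 ▸ h⟩, h1⟩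
  · rintro ⟨ξ, ⟨-, h⟩, h1⟩
    rwa [h1]

lemma ev_meas (E : Finset ι) (A : Set ι → Prop) : MeasurableSet {w : Set ι | A (w ∩ E)} := by
  classical
  rw [ev_eq]
  exact Finset.measurableSet_biUnion _ fun ξ hξ =>
    cyl_meas E ξ (Finset.mem_powerset.1 (Finset.mem_filter.1 hξ).1)

lemma ev_real {u : Set ι} (p : unitInterval) (E : Finset ι) (hE : (E : Set ι) ⊆ u)
    (A : Set ι → Prop) : (setBernoulli u p).real {w : Set ι | A (w ∩ E)} = Pr E p A := by
  classical
  rw [ev_eq, measureReal_biUnion_finset]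
  · unfold Pr Ex
    rw [Finset.sum_filter]
    refine Finset.sum_congr rfl fun ξ hξ => ?_
    rw [cyl_real p E ξ hE (Finset.mem_powerset.1 hξ)]
    by_cases h : A ξ
    · simp only [if_pos h, ind_of h, mul_one]
    · simp only [if_neg h, ind_of_not h, mul_zero]
  · intro ξ _ ξ' _ hne
    rw [Function.onFun, Set.disjoint_left]
    intro w h1 h2
    exact hne (Finset.coe_injective (h1.symm.trans h2))
  · exact fun ξ hξ => cyl_meas E ξ (Finset.mem_powerset.1 (Finset.mem_filter.1 hξ).1)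

variable {V : Type*} {G : SimpleGraph V}

lemma exists_Nb_of_reachable {x y : V} (h : G.Reachable x y) : ∃ R, y ∈ Nb G R {x} := by
  rw [SimpleGraph.reachable_iff_reflTransGen] at h
  induction h with
  | refl => exact ⟨0, rfl⟩
  | tail _ h2 ih =>
    obtain ⟨R, hR⟩ := ih
    exact ⟨R + 1, mem_Nb_of_adj hR h2⟩

lemma exists_Nb_finite (hc : G.Preconnected) (x : V) {S : Set V} (hS : S.Finite) :
    ∃ R, S ⊆ Nb G R {x} := by
  induction S, hS using Set.Finite.induction_on with
  | empty => exact ⟨0, Set.empty_subset _⟩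
  | @insert a S _ _ ih =>
    obtain ⟨R, hR⟩ := ih
    obtain ⟨R', hR'⟩ := exists_Nb_of_reachable (hc x a)
    exact ⟨max R R', Set.insert_subset (Nb_mono_left (le_max_right _ _) hR')
      (hR.trans (Nb_mono_left (le_max_left _ _)))⟩

lemma countable_V (hc : G.Preconnected) {Δ : ℕ} (hG : DegLe G Δ) : Countable V := by
  rcases isEmpty_or_nonempty V with h | ⟨⟨x⟩⟩
  · infer_instance
  rw [← Set.countable_univ_iff]
  refine (Set.countable_iUnion fun R : ℕ =>
    (hG.finite_Nb (Set.finite_singleton x) R).countable).mono fun y _ => ?_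
  exact Set.mem_iUnion.2 (exists_Nb_of_reachable (hc x y))

lemma link_of_conn {Δ : ℕ} (hG : DegLe G Δ) {w : Set (Sym2 V)} (hw : w ⊆ G.edgeSet) {x y : V}
    (h : Conn w x y) {R : ℕ} (hy : y ∉ Nb G R {x}) :
    Link (w ∩ EB G (R + 1) x) {x} (Nb G R {x})ᶜ := by
  obtain ⟨a, ha, b, hb, hab, hc⟩ := h.first_exit (W := Nb G R {x}) (subset_Nb rfl) hy
  rw [hG.coe_EB]
  refine ⟨x, rfl, b, hb, Conn.tail (y := a) (hc.mono ?_)
    ⟨hab, hw hab, mem_inside_iff.2 ⟨Nb_subset_succ ha, mem_Nb_of_adj ha (hw hab)⟩⟩⟩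
  exact fun e he => ⟨he.1, hw he.1, inside_mono Nb_subset_succ he.2⟩

end Br

open Br

/-- From the infinite-volume measure to finite volume and back. -/
theorem perc_pos_iff {V : Type} (G : SimpleGraph V) (hc : G.Preconnected) {Δ : ℕ}
    (hG : DegLe G Δ) (p : unitInterval) :
    0 < perc G p (infCluster V) ↔ ∃ x, Perc G (p : ℝ) x := by
  have := countable_V hc hG
  let Ev : V → ℕ → Set (Set (Sym2 V)) := fun x R =>
    {w | Link (w ∩ EB G (R + 1) x) {x} (Nb G R {x})ᶜ}
  have hsub : ∀ R x, (EB G R x : Set (Sym2 V)) ⊆ G.edgeSet := fun R x => by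
    rw [hG.coe_EB]; exact Set.inter_subset_left
  have hreal : ∀ x R, (perc G p).real (Ev x R) =
      Pr (EB G (R + 1) x) p fun ω => Link ω {x} (Nb G R {x})ᶜ := fun x R =>
    ev_real p (EB G (R + 1) x) (hsub _ _) fun ω => Link ω {x} (Nb G R {x})ᶜ
  have hmeas : ∀ x R, MeasurableSet (Ev x R) := fun x R =>
    ev_meas (EB G (R + 1) x) fun ω => Link ω {x} (Nb G R {x})ᶜ
  have hanti : ∀ x, Antitone (Ev x) := by
    intro x
    refine antitone_nat_of_succ_le fun R w hw => ?_
    obtain ⟨y, hy, hcn⟩ := link_singleton.1 hw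
    exact (link_of_conn hG (Set.inter_subset_right.trans (hsub _ _)) hcn
      (fun h => hy (Nb_subset_succ h))).mono
      (Set.inter_subset_inter_left _ Set.inter_subset_left) le_rfl le_rfl
  have hae : infCluster V =ᵐ[perc G p] ⋃ x, ⋂ R, Ev x R := by
    filter_upwards [setBernoulli_ae_subset (u := G.edgeSet) (p := p)] with w hw
    refine propext ⟨?_, ?_⟩
    · rintro ⟨x, hx⟩
      refine Set.mem_iUnion.2 ⟨x, Set.mem_iInter.2 fun R => ?_⟩
      obtain ⟨y, hy, hy'⟩ := hx.exists_notMem_finite (hG.finite_Nb (Set.finite_singleton x) R)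
      exact link_of_conn hG hw (conn_iff_reachable.2 hy) hy'
    · intro h
      obtain ⟨x, hx⟩ := Set.mem_iUnion.1 h
      refine ⟨x, fun hfin => ?_⟩
      obtain ⟨R, hR⟩ := exists_Nb_finite hc x hfin
      obtain ⟨y, hy, hcn⟩ := link_singleton.1 (Set.mem_iInter.1 hx R)
      exact hy (hR (conn_iff_reachable.1 (hcn.mono Set.inter_subset_left)))
  have hprob : IsProbabilityMeasure (perc G p) := by unfold perc; infer_instance
  rw [measure_congr hae, pos_iff_ne_zero, Ne, measure_iUnion_null_iff, not_forall]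
  refine exists_congr fun x => ⟨fun h => ?_, ?_⟩
  · refine ⟨(perc G p).real (⋂ R, Ev x R), ENNReal.toReal_pos h (measure_ne_top _ _), fun R => ?_⟩
    rw [← hreal]
    exact measureReal_mono (Set.iInter_subset _ R)
  · rintro ⟨c, hc0, hcR⟩
    rw [(hanti x).measure_iInter (fun R => (hmeas x R).nullMeasurableSet) ⟨0, measure_ne_top _ _⟩]
    refine ne_of_gt (lt_of_lt_of_le (ENNReal.ofReal_pos.2 hc0) (le_iInf fun R => ?_))
    refine (ENNReal.ofReal_le_iff_le_toReal (measure_ne_top _ _)).2 ?_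
    have := hcR R
    rw [← hreal] at this
    exact this

end Vale.Agent.P151
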