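import Vale.Agent.P151.Setting

/-!
Adaptive oriented exploration of the quarter plane, by a depth-first search and a potential
function.  The state of the search is a column `i` and a height function `T`: sites `(c, y)` with
`y < T c` count as explored, and the sites `(c, T c - 1)`, `c ≤ i`, are good.
-/

namespace Vale.Agent.P151

open Finset

/-- The potential of the search state `(i, T)`. -/
noncomputable def opot (N i : ℕ) (T : ℕ → ℕ) : ℝ :=
  (1 / 10) * ((2 : ℝ) ^ max (T i) (T (i + 1) + 1) / 2 ^ i) - (1 / 20) * ((2 : ℝ) ^ T i / 2 ^ i)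
    + (1 / 10) * ∑ c ∈ Finset.Ico (i + 2) N, (2 : ℝ) ^ (T c + 2) / 2 ^ c

lemma opot_sum_update (N i j k : ℕ) (T : ℕ → ℕ) (h : j < i) :
    ∑ c ∈ Finset.Ico i N, (2 : ℝ) ^ (Function.update T j k c + 2) / 2 ^ c =
      ∑ c ∈ Finset.Ico i N, (2 : ℝ) ^ (T c + 2) / 2 ^ c := by
  refine Finset.sum_congr rfl fun c hc => ?_
  have : c ≠ j := by
    have := (Finset.mem_Ico.1 hc).1
    omega
  rw [Function.update_of_ne this]

lemma opot_nonneg (N i : ℕ) (T : ℕ → ℕ) : 0 ≤ opot N i T := by
  unfold opot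
  have h1 : (2 : ℝ) ^ T i / 2 ^ i ≤ (2 : ℝ) ^ max (T i) (T (i + 1) + 1) / 2 ^ i := by
    gcongr
    · norm_num
    · exact le_max_left _ _
  have h2 : 0 ≤ ∑ c ∈ Finset.Ico (i + 2) N, (2 : ℝ) ^ (T c + 2) / 2 ^ c :=
    Finset.sum_nonneg fun c _ => by positivity
  have h3 : (0 : ℝ) ≤ (2 : ℝ) ^ T i / 2 ^ i := by positivity
  linarith

lemma two_pow_max_le (a b : ℕ) : (2 : ℝ) ^ max a b ≤ 2 ^ a + 2 ^ b := by
  have h1 : (0 : ℝ) < 2 ^ a := by positivity
  have h2 : (0 : ℝ) < 2 ^ b := by positivity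
  rcases le_total a b with h | h
  · rw [max_eq_right h]; linarith
  · rw [max_eq_left h]; linarith

lemma opot_Rs (N i : ℕ) (T : ℕ → ℕ) (h : T (i + 1) < T i) (hN : i + 2 < N) :
    opot N (i + 1) (Function.update T (i + 1) (T i)) ≤
      opot N i T - (1 / 40) * ((2 : ℝ) ^ T i / 2 ^ i) := by
  unfold opot
  rw [opot_sum_update _ _ _ _ _ (by omega), Function.update_self,
    Function.update_of_ne (by omega : i + 1 + 1 ≠ i + 1), max_eq_left (by omega : T (i + 1) + 1 ≤ T i),
    Finset.sum_eq_sum_Ico_succ_bot hN]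
  have h1 := two_pow_max_le (T i) (T (i + 1 + 1) + 1)
  have h2 : (2 : ℝ) ^ max (T i) (T (i + 1 + 1) + 1) / 2 ^ (i + 1) ≤
      (2 ^ T i + 2 ^ (T (i + 1 + 1) + 1)) / 2 ^ (i + 1) := by gcongr
  have h3 : ((2 : ℝ) ^ T i + 2 ^ (T (i + 1 + 1) + 1)) / 2 ^ (i + 1) =
      (1 / 2) * ((2 : ℝ) ^ T i / 2 ^ i) + (2 : ℝ) ^ (T (i + 2) + 2) / 2 ^ (i + 2) := by
    have : i + 1 + 1 = i + 2 := rfl
    rw [this]
    field_simp
    ring
  have h4 : (2 : ℝ) ^ T i / 2 ^ (i + 1) = (1 / 2) * ((2 : ℝ) ^ T i / 2 ^ i) := by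
    field_simp
    ring
  have h5 : i + 1 + 2 = i + 2 + 1 := rfl
  rw [h4, h5]
  linarith

lemma opot_Rf (N i : ℕ) (T : ℕ → ℕ) (h : T (i + 1) < T i) :
    opot N i (Function.update T (i + 1) (T i)) ≤ opot N i T + (2 : ℝ) ^ T i / 2 ^ i := by
  unfold opot
  rw [opot_sum_update _ _ _ _ _ (by omega), Function.update_self,
    Function.update_of_ne (by omega : i ≠ i + 1), max_eq_left (by omega : T (i + 1) + 1 ≤ T i),
    max_eq_right (by omega : T i ≤ T i + 1)]
  have h4 : (2 : ℝ) ^ (T i + 1) / 2 ^ i = 2 * ((2 : ℝ) ^ T i / 2 ^ i) := by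
    field_simp
    ring
  have h3 : (0 : ℝ) ≤ (2 : ℝ) ^ T i / 2 ^ i := by positivity
  rw [h4]
  linarith

lemma opot_Ls (N i : ℕ) (T : ℕ → ℕ) (h : T i ≤ T (i + 1)) :
    opot N i (Function.update T i (T i + 1)) ≤ opot N i T - (1 / 40) * ((2 : ℝ) ^ T i / 2 ^ i) := by
  unfold opot
  rw [opot_sum_update _ _ _ _ _ (by omega), Function.update_self,
    Function.update_of_ne (by omega : i + 1 ≠ i), max_eq_right (by omega : T i + 1 ≤ T (i + 1) + 1),
    max_eq_right (by omega : T i ≤ T (i + 1) + 1)]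
  have h4 : (2 : ℝ) ^ (T i + 1) / 2 ^ i = 2 * ((2 : ℝ) ^ T i / 2 ^ i) := by
    field_simp
    ring
  have h3 : (0 : ℝ) ≤ (2 : ℝ) ^ T i / 2 ^ i := by positivity
  rw [h4]
  linarith

lemma opot_Lf (N i : ℕ) (T : ℕ → ℕ) (h : T (i + 1) ≤ T (i + 2)) (h' : T i ≤ T (i + 1))
    (hN : i + 2 < N) :
    opot N i (Function.update T (i + 1) (T (i + 1) + 1)) ≤
      opot N (i + 1) T + (2 : ℝ) ^ T (i + 1) / 2 ^ (i + 1) := by
  unfold opot
  have h5 : i + 1 + 2 = i + 2 + 1 := rfl
  have h6 : i + 1 + 1 = i + 2 := rfl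
  rw [opot_sum_update _ _ _ _ _ (by omega), Function.update_self,
    Function.update_of_ne (by omega : i ≠ i + 1),
    max_eq_right (by omega : T i ≤ T (i + 1) + 1 + 1), h5, h6,
    max_eq_right (by omega : T (i + 1) ≤ T (i + 2) + 1), Finset.sum_eq_sum_Ico_succ_bot hN]
  have h4 : (2 : ℝ) ^ (T (i + 1) + 1 + 1) / 2 ^ i = 8 * ((2 : ℝ) ^ T (i + 1) / 2 ^ (i + 1)) := by
    field_simp
    ring
  have h7 : (2 : ℝ) ^ (T (i + 2) + 2) / 2 ^ (i + 2) = (2 : ℝ) ^ (T (i + 2) + 1) / 2 ^ (i + 1) := by
    field_simp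
    ring
  have h3 : (0 : ℝ) ≤ (2 : ℝ) ^ T (i + 1) / 2 ^ (i + 1) := by positivity
  have h8 : (0 : ℝ) ≤ (2 : ℝ) ^ T i / 2 ^ i := by positivity
  rw [h4, h7]
  linarith

lemma opot_init (N : ℕ) : opot N 0 (Function.update (fun _ => 0) 0 1) ≤ 3 / 10 := by
  unfold opot
  rw [opot_sum_update _ _ _ _ _ (by omega)]
  have h : ∀ M : ℕ, ∑ c ∈ Finset.Ico 2 (M + 2), (2 : ℝ) ^ (0 + 2) / 2 ^ c = 2 - 2 / 2 ^ M := by
    intro M
    induction M with
    | zero => simp
    | succ M ih =>
      rw [show M + 1 + 2 = M + 2 + 1 from rfl, Finset.sum_Ico_succ_top (by omega), ih]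
      field_simp
      ring
  have h2 : ∑ c ∈ Finset.Ico (0 + 2) N, (2 : ℝ) ^ (0 + 2) / 2 ^ c ≤ 2 := by
    refine le_trans (Finset.sum_le_sum_of_subset_of_nonneg
      (Finset.Ico_subset_Ico (le_refl 2) (Nat.le_add_right N 2)) fun _ _ _ => by positivity) ?_
    rw [h]
    have : (0 : ℝ) ≤ 2 / 2 ^ N := by positivity
    linarith
  simp only [Function.update_self, Function.update_of_ne (by omega : 0 + 1 ≠ 0)]
  norm_num at h2 ⊢
  linarith

section Explore

variable {ι : Type*} [DecidableEq ι]

/-- A site is good if each unexplored child block is likely to continue. -/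
def OGood (p ε : ℝ) (F : ℕ × ℕ → Bool → Finset ι) (A : ℕ × ℕ → Bool → Set ι → Prop)
    (T : ℕ → ℕ) (H : Set ι) (v : ℕ × ℕ) : Prop :=
  ∀ b, T (child v b).1 ≤ (child v b).2 → Pr (F v b) p (fun η => ¬ A v b (η ∪ H)) ≤ ε

omit [DecidableEq ι] in
lemma OGood.mono {p ε : ℝ} (h0 : 0 ≤ p) (h1 : p ≤ 1) {F : ℕ × ℕ → Bool → Finset ι}
    {A : ℕ × ℕ → Bool → Set ι → Prop} (hA : ∀ v b ω ω', ω ⊆ ω' → A v b ω → A v b ω')
    {T T' : ℕ → ℕ} (hT : ∀ c, T c ≤ T' c) {H H' : Set ι} (hH : H ⊆ H') {v : ℕ × ℕ}
    (h : OGood p ε F A T H v) : OGood p ε F A T' H' v := by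
  intro b hb
  refine le_trans ?_ (h b ((hT _).trans hb))
  refine Pr_mono h0 h1 fun ω _ hn hA' => hn ?_
  exact hA _ _ _ _ (Set.union_subset_union_right _ hH) hA'

lemma child_ne (v : ℕ × ℕ) (b : Bool) : v ≠ child v b := by
  intro h
  have h1 := congrArg Prod.fst h
  have h2 := congrArg Prod.snd h
  cases b <;> simp [child] at h1 h2

/-- A freshly explored site is bad with probability at most `3ε`. -/
lemma obad_le {p ε : ℝ} (h0 : 0 ≤ p) (h1 : p ≤ 1) (hε : 0 < ε) {F : ℕ × ℕ → Bool → Finset ι}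
    {A : ℕ × ℕ → Bool → Set ι → Prop} (hA : ∀ v b ω ω', ω ⊆ ω' → A v b ω → A v b ω')
    (hd : ∀ v b v' b', child v b ≠ child v' b' → Disjoint (F v b) (F v' b'))
    {T : ℕ → ℕ} {H : Set ι} {u : ℕ × ℕ} {b : Bool}
    (hu : Pr (F u b) p (fun η => ¬ A u b (η ∪ H)) ≤ ε)
    (hstep : ∀ b', T (child (child u b) b').1 ≤ (child (child u b) b').2 →
      Pr (F u b ∪ F (child u b) b') p
          (fun ω => A u b (ω ∪ H) ∧ ¬ A (child u b) b' (ω ∪ H)) ≤ ε ^ 2) :
    Pr (F u b) p (fun ξ => ¬ OGood p ε F A T (ξ ∪ H) (child u b)) ≤ 3 * ε := by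
  set v := child u b with hv
  let B : Bool → Set ι → Prop := fun b' ξ => A u b (ξ ∪ H) ∧ T (child v b').1 ≤ (child v b').2 ∧
    ε < Pr (F v b') p (fun η => ¬ A v b' (η ∪ (ξ ∪ H)))
  have hB : ∀ b', Pr (F u b) p (B b') ≤ ε := by
    intro b'
    by_cases hT : T (child v b').1 ≤ (child v b').2
    · have h2 := hstep b' hT
      unfold Pr at h2
      rw [Ex_union (hd _ _ _ _ (child_ne v b'))] at h2
      have h3 := Pr_markov (E := F u b) h0 h1 (a := ε) (A := B b')
        (F := fun ξ => Ex (F v b') p fun η => ind (A u b (ξ ∪ η ∪ H) ∧ ¬ A v b' (ξ ∪ η ∪ H)))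
        (fun ω _ => Ex_nonneg h0 h1 fun _ _ => ind_nonneg _) (by
          intro ξ _ hξ
          refine le_trans hξ.2.2.le (Pr_mono h0 h1 fun η _ hη => ⟨?_, ?_⟩)
          · exact hA _ _ _ _ (Set.union_subset_union_left _ Set.subset_union_left) hξ.1
          · rwa [Set.union_comm ξ η, Set.union_assoc])
      have h4 := h3.trans h2
      rw [sq] at h4
      exact le_of_mul_le_mul_left h4 hε
    · refine le_trans (Ex_le_const h0 h1 (c := 0) fun ω _ => ?_) hε.le
      rw [ind_of_not fun h => hT h.2.1]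
  have h5 : Pr (F u b) p (fun ξ => ¬ OGood p ε F A T (ξ ∪ H) v) ≤
      Pr (F u b) p (fun η => ¬ A u b (η ∪ H)) + Pr (F u b) p (fun ξ => B true ξ ∨ B false ξ) := by
    refine Pr_le_add h0 h1 fun ξ _ hξ => ?_
    by_cases hAu : A u b (ξ ∪ H)
    · right
      unfold OGood at hξ
      push Not at hξ
      obtain ⟨b', hb1, hb2⟩ := hξ
      cases b'
      · exact Or.inr ⟨hAu, hb1, hb2⟩
      · exact Or.inl ⟨hAu, hb1, hb2⟩
    · exact Or.inl hAu
  have h6 := Pr_or_le (E := F u b) h0 h1 (B true) (B false)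
  linarith [hB true, hB false]

/-- One step of the exploration. -/
lemma ostep {p : ℝ} (h0 : 0 ≤ p) (h1 : p ≤ 1) {D R : Finset ι} (hDR : D ⊆ R)
    {G Q : Set ι → Prop} {H : Set ι} {X w : ℝ} (hw : 0 ≤ w)
    (hbad : Pr D p (fun ξ => ¬ Q ξ) ≤ 1 / 50)
    (hs : ∀ ξ : Set ι, ξ ⊆ D → Q ξ → Pr (R \ D) p (fun η => G (η ∪ (ξ ∪ H))) ≤ X - (1 / 40) * w)
    (hf : ∀ ξ : Set ι, ξ ⊆ D → ¬ Q ξ → Pr (R \ D) p (fun η => G (η ∪ (ξ ∪ H))) ≤ X + w) :
    Pr R p (fun ω => G (ω ∪ H)) ≤ X := by
  have e1 : R = D ∪ (R \ D) := (Finset.union_sdiff_of_subset hDR).symm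
  have e2 : Pr R p (fun ω => G (ω ∪ H)) =
      Ex D p (fun ξ => Pr (R \ D) p (fun η => G (η ∪ (ξ ∪ H)))) := by
    conv_lhs => rw [e1]
    unfold Pr
    rw [Ex_union Finset.disjoint_sdiff]
    refine Ex_congr fun ξ _ => Ex_congr fun η _ => ?_
    simp only
    rw [Set.union_comm ξ η, Set.union_assoc]
  rw [e2]
  have h2 : Ex D p (fun ξ => Pr (R \ D) p (fun η => G (η ∪ (ξ ∪ H)))) ≤
      Ex D p (fun ξ => (X - (1 / 40) * w) + (41 / 40 * w) * ind (¬ Q ξ)) := by
    refine Ex_mono h0 h1 fun ξ hξ => ?_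
    by_cases hQ : Q ξ
    · rw [ind_of_not (not_not.2 hQ)]
      linarith [hs ξ hξ hQ]
    · rw [ind_of hQ]
      linarith [hf ξ hξ hQ]
  rw [Ex_add, Ex_const, Ex_mul_left] at h2
  unfold Pr at hbad
  nlinarith [mul_le_mul_of_nonneg_left hbad hw]

end Explore

/-- Adaptive oriented exploration of the quarter plane. -/
theorem orient_lemma {ι : Type*} [DecidableEq ι] : ∃ ε : ℝ, 0 < ε ∧
    ∀ (p : ℝ), 0 ≤ p → p ≤ 1 →
    ∀ (F : ℕ × ℕ → Bool → Finset ι) (A : ℕ × ℕ → Bool → Set ι → Prop) (H0 U : Set ι)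
      (Goal : Set ι → Prop) (n : ℕ) (E : Finset ι),
      (∀ v b ω ω', ω ⊆ ω' → A v b ω → A v b ω') →
      (∀ ω ω', ω ⊆ ω' → Goal ω → Goal ω') →
      (∀ v b v' b', child v b ≠ child v' b' → Disjoint (F v b) (F v' b')) →
      (∀ v b, Disjoint H0 (F v b : Set ι)) → H0.Finite → H0 ⊆ U → (∀ v b, (F v b : Set ι) ⊆ U) →
      (∀ b, Pr (F (0, 0) b) p (fun ω => ¬ A (0, 0) b (ω ∪ H0)) ≤ ε) →
      (∀ u b b' (H : Set ι), H.Finite → H ⊆ U → Disjoint H (F u b : Set ι) →
        Disjoint H (F (child u b) b' : Set ι) →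
        Pr (F u b ∪ F (child u b) b') p
          (fun ω => A u b (ω ∪ H) ∧ ¬ A (child u b) b' (ω ∪ H)) ≤ ε ^ 2) →
      (∀ v b ω, v.1 + v.2 = n → A v b ω → Goal ω) →
      (∀ v b, v.1 + v.2 ≤ n → F v b ⊆ E) →
      Pr E p (fun ω => ¬ Goal (ω ∪ H0)) ≤ 1 / 2 := by
  refine ⟨1 / 150, by norm_num, ?_⟩
  intro p h0 h1 F A H0 U Goal n E hA hG hd hH0 hfin hH0U hFU hroot hstep hgoal hE
  have key : ∀ (m i : ℕ) (T : ℕ → ℕ) (H : Set ι) (R : Finset ι),
      ∑ c ∈ Finset.range (n + 1), (n + 1 - T c) < m →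
      H.Finite → H ⊆ U →
      (∀ u b, T (child u b).1 ≤ (child u b).2 → Disjoint H (F u b : Set ι)) →
      (∀ u b, u.1 + u.2 ≤ n → T (child u b).1 ≤ (child u b).2 → F u b ⊆ R) →
      (∀ c, c ≤ i → 1 ≤ T c ∧ c + T c ≤ n + 1 ∧ OGood p (1 / 150) F A T H (c, T c - 1)) →
      (∀ c, c < i → T c ≤ T (c + 1)) →
      Pr R p (fun ω => ¬ Goal (ω ∪ H)) ≤ 1 / 150 + opot (n + 3) i T := by
    intro m
    induction m with
    | zero => intro i T H R hm; omega
    | succ m ih =>
      intro i T H R hm hHf hHU hHd hR hst hmon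
      obtain ⟨hT1, hTn, hTg⟩ := hst i le_rfl
      rcases hTn.eq_or_lt with hTn | hTn
      · -- terminal state
        have hc : T (child (i, T i - 1) false).1 ≤ (child (i, T i - 1) false).2 := by
          simp only [child]
          simp
          omega
        have h2 := hTg false hc
        have h3 : Pr R p (fun ω => ¬ Goal (ω ∪ H)) ≤
            Pr (F (i, T i - 1) false) p (fun η => ¬ A (i, T i - 1) false (η ∪ H)) := by
          refine Pr_ge_of_subset h0 h1 (hR _ _ (by simp only; omega) hc) fun ω _ hω hA' => hω ?_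
          exact hG _ _ (Set.union_subset_union_left _ Set.inter_subset_left)
            (hgoal _ _ _ (by simp only; omega) hA')
        linarith [opot_nonneg (n + 3) i T]
      · -- exploring the child `(c, y)` of `(i, T i - 1)`
        have gen : ∀ (b : Bool) (c y : ℕ), child (i, T i - 1) b = (c, y) → T c ≤ y →
            c + y ≤ n → ∀ (ξ : Set ι), ξ ⊆ F (i, T i - 1) b → ∀ i',
            (∀ c', c' ≤ i' → c' ≠ c → c' ≤ i) →
            (c ≤ i' → OGood p (1 / 150) F A (Function.update T c (y + 1)) (ξ ∪ H) (c, y)) →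
            (∀ c', c' < i' → Function.update T c (y + 1) c' ≤ Function.update T c (y + 1) (c' + 1)) →
            Pr (R \ F (i, T i - 1) b) p (fun η => ¬ Goal (η ∪ (ξ ∪ H))) ≤
              1 / 150 + opot (n + 3) i' (Function.update T c (y + 1)) := by
          intro b c y hcy hTc hlev ξ hξ i' hi' hgood hmon'
          have hle : ∀ c', T c' ≤ Function.update T c (y + 1) c' := by
            intro c'
            by_cases h : c' = c
            · subst h; rw [Function.update_self]; omega
            · rw [Function.update_of_ne h]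
          have hne : ∀ u' b', Function.update T c (y + 1) (child u' b').1 ≤ (child u' b').2 →
              child (i, T i - 1) b ≠ child u' b' := by
            intro u' b' h heq
            rw [← heq, hcy] at h
            simp at h
          refine ih i' _ _ _ ?_ ((Set.Finite.subset (Finset.finite_toSet _) hξ).union hHf)
            (Set.union_subset (hξ.trans (hFU _ _)) hHU) ?_ ?_ ?_ hmon'
          · refine lt_of_lt_of_le (Finset.sum_lt_sum (fun c' _ => ?_) ⟨c, ?_, ?_⟩)
              (Nat.lt_succ_iff.1 hm)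
            · have := hle c'
              omega
            · rw [Finset.mem_range]; omega
            · rw [Function.update_self]; omega
          · intro u' b' h
            rw [Set.disjoint_union_left]
            refine ⟨?_, hHd _ _ ((hle _).trans h)⟩
            exact Set.disjoint_of_subset_left hξ
              (Finset.disjoint_coe.2 (hd _ _ _ _ (hne u' b' h)))
          · intro u' b' hu' h
            exact Finset.subset_sdiff.2 ⟨hR _ _ hu' ((hle _).trans h),
              (hd _ _ _ _ (hne u' b' h)).symm⟩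
          · intro c' hc'
            by_cases h : c' = c
            · subst h
              rw [Function.update_self]
              exact ⟨by omega, by omega, by simpa using hgood hc'⟩
            · rw [Function.update_of_ne h]
              obtain ⟨k1, k2, k3⟩ := hst c' (hi' c' hc' h)
              exact ⟨k1, k2, k3.mono h0 h1 hA hle Set.subset_union_right⟩
        have bad : ∀ (b : Bool) (c y : ℕ), child (i, T i - 1) b = (c, y) → T c ≤ y →
            Pr (F (i, T i - 1) b) p (fun ξ =>
              ¬ OGood p (1 / 150) F A (Function.update T c (y + 1)) (ξ ∪ H) (c, y)) ≤ 1 / 50 := by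
          intro b c y hcy hTc
          have hle : ∀ c', T c' ≤ Function.update T c (y + 1) c' := by
            intro c'
            by_cases h : c' = c
            · subst h; rw [Function.update_self]; omega
            · rw [Function.update_of_ne h]
          have hc : T (child (i, T i - 1) b).1 ≤ (child (i, T i - 1) b).2 := by
            rw [hcy]; exact hTc
          have := obad_le (T := Function.update T c (y + 1)) h0 h1 (by norm_num) hA hd (hTg b hc)
            fun b' hb' => hstep _ _ _ _ hHf hHU (hHd _ _ hc) (hHd _ _ ((hle _).trans hb'))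
          rw [hcy] at this
          linarith
        have hw : (0 : ℝ) ≤ (2 : ℝ) ^ T i / 2 ^ i := by positivity
        by_cases hRL : T (i + 1) < T i
        · have hcy : child (i, T i - 1) true = (i + 1, T i - 1) := by simp [child]
          have hy : T i - 1 + 1 = T i := by omega
          have hTc : T (i + 1) ≤ T i - 1 := by omega
          refine ostep (G := fun ω => ¬ Goal ω) h0 h1
            (hR _ true (by simp only; omega) (by rw [hcy]; exact hTc)) hw
            (bad true _ _ hcy hTc) (fun ξ hξ hQ => ?_) (fun ξ hξ _ => ?_)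
          · have := gen true _ _ hcy hTc (by omega) ξ hξ (i + 1) (fun c' _ _ => by omega)
              (fun _ => hQ) (by
                intro c' hc'
                rw [Function.update_of_ne (by omega)]
                by_cases h : c' = i
                · subst h; rw [Function.update_self]; omega
                · rw [Function.update_of_ne (by omega)]; exact hmon c' (by omega))
            rw [hy] at this
            linarith [opot_Rs (n + 3) i T hRL (by omega)]
          · have := gen true _ _ hcy hTc (by omega) ξ hξ i (fun c' _ _ => by omega)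
              (fun h => by omega) (by
                intro c' hc'
                rw [Function.update_of_ne (by omega), Function.update_of_ne (by omega)]
                exact hmon c' hc')
            rw [hy] at this
            linarith [opot_Rf (n + 3) i T hRL]
        · have hcy : child (i, T i - 1) false = (i, T i) := by
            simp only [child]
            simp
            omega
          refine ostep (G := fun ω => ¬ Goal ω) h0 h1
            (hR _ false (by simp only; omega) (by rw [hcy])) hw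
            (bad false _ _ hcy le_rfl) (fun ξ hξ hQ => ?_) (fun ξ hξ _ => ?_)
          · have := gen false _ _ hcy le_rfl (by omega) ξ hξ i (fun c' _ _ => by omega)
              (fun _ => hQ) (by
                intro c' hc'
                rw [Function.update_of_ne (by omega)]
                have := hmon c' hc'
                by_cases h : c' + 1 = i
                · rw [h] at this ⊢; rw [Function.update_self]; omega
                · rw [Function.update_of_ne h]; exact this)
            linarith [opot_Ls (n + 3) i T (by omega)]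
          · rcases i with _ | i
            · have k1 := Pr_le_one (E := R \ F (0, T 0 - 1) false) h0 h1
                (fun η => ¬ Goal (η ∪ (ξ ∪ H)))
              have k2 : (1 : ℝ) ≤ (2 : ℝ) ^ T 0 / 2 ^ 0 := by
                rw [pow_zero, div_one]
                exact one_le_pow₀ (by norm_num)
              linarith [opot_nonneg (n + 3) 0 T]
            · have := gen false _ _ hcy le_rfl (by omega) ξ hξ i (fun c' _ _ => by omega)
                (fun h => by omega) (by
                  intro c' hc'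
                  rw [Function.update_of_ne (by omega), Function.update_of_ne (by omega)]
                  exact hmon c' (by omega))
              linarith [opot_Lf (n + 3) i T (by simpa using hRL) (hmon i (by omega)) (by omega)]
  have := key _ 0 (Function.update (fun _ => 0) 0 1) H0 E (Nat.lt_succ_self _) hfin hH0U
    (fun u b _ => hH0 u b) (fun u b h _ => hE u b h) (by
      intro c hc
      obtain rfl : c = 0 := by omega
      rw [Function.update_self]
      exact ⟨le_rfl, by omega, fun b _ => hroot b⟩) (fun c hc => by omega)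
  linarith [opot_init (n + 3)]

end Vale.Agent.P151
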