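import Vale.Agent.P151.Tools
import Vale.Agent.P151.Orient

/-!
A finite-size criterion for percolation.
-/

namespace Vale.Agent.P151

variable {V : Type*} {G : SimpleGraph V} {Δ : ℕ} {p : ℝ}

/-- from the ball of radius `r` around `a` one reaches the displacement `(1, 0)` -/
def Move (G : SimpleGraph V) (p δ : ℝ) (r R : ℕ) (α β : V → ℝ) (a : V) : Prop :=
  Pr (EB G R a) p (fun ω => ¬ Link (ω ∩ inside {v | |α v - α a| ≤ 4 ∧ |β v - β a| ≤ 4})
    (Nb G r {a}) {v | |α v - α a - 1| ≤ 1 / 100 ∧ |β v - β a| ≤ 1 / 100}) ≤ δ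

/-- triangular patch -/
def Pat (G : SimpleGraph V) (o : V) (α β : V → ℝ) (x y : ℝ) (ρ : ℕ) : Set V :=
  {v | α v - x ≤ 2 ∧ β v - y ≤ 2 ∧ -2 ≤ α v - x + (β v - y)} ∩ Nb G ρ {o}

/-- square region -/
def Reg (G : SimpleGraph V) (o : V) (α β : V → ℝ) (x y : ℝ) (ρ : ℕ) : Set V :=
  {v | |α v - x| ≤ 9 ∧ |β v - y| ≤ 9} ∩ Nb G ρ {o}

lemma Move.use (hG : DegLe G Δ) (h0 : 0 ≤ p) (h1 : p ≤ 1) {δ : ℝ} {r R : ℕ} {α β : V → ℝ}
    {a : V} (h : Move G p δ r R α β a) (hr : r ≤ R) {E : Finset (Sym2 V)} {H : Set (Sym2 V)}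
    {W T : Set V} (hW : ∀ v ∈ Nb G R {a}, |α v - α a| ≤ 4 → |β v - β a| ≤ 4 → v ∈ W)
    (hE : G.edgeSet ∩ inside W ⊆ E ∪ H)
    (hT : ∀ v ∈ Nb G R {a}, |α v - α a - 1| ≤ 1 / 100 → |β v - β a| ≤ 1 / 100 → v ∈ T) :
    Pr E p (fun ω => ¬ Link (ω ∪ H) (Nb G r {a}) T) ≤ δ := by
  refine le_trans (Pr_couple h0 h1 ?_) h
  rintro ω hn ⟨x, hx, y, hy, hc⟩
  rw [hG.coe_EB] at hc
  refine hn ⟨x, hx, y, hT y ?_ hy.1 hy.2, hc.mono ?_⟩
  · exact Conn.mem_of_inside (ω := Set.univ) (hc.mono fun e he => ⟨trivial, he.1.2.2⟩)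
      (Nb_mono_left hr hx)
  · rintro e ⟨⟨h1, h2, h3⟩, h4⟩
    rcases hE ⟨h2, fun v hv => hW v (h3 v hv) (h4 v hv).1 (h4 v hv).2⟩ with h5 | h5
    exacts [Or.inl ⟨h1, h5⟩, Or.inr h5]

lemma near_Pat {κ : ℝ} {α β : V → ℝ} (hκ : 0 ≤ κ) (hα : Lip G κ α) (hβ : Lip G κ β) {t : ℕ}
    (ht : κ * t ≤ 1 / 100) {o a : V} {x y : ℝ} {ρ : ℕ} (ha : a ∈ Nb G t (Pat G o α β x y ρ)) :
    α a - x ≤ 201 / 100 ∧ β a - y ≤ 201 / 100 ∧ -202 / 100 ≤ α a - x + (β a - y) ∧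
      a ∈ Nb G (ρ + t) {o} := by
  obtain ⟨m, ⟨⟨h1, h2, h3⟩, h4⟩, hm⟩ := mem_Nb_iff.1 ha
  have a1 := abs_le.1 ((abs_sub_le_of_mem_Nb hκ hα hm).trans ht)
  have a2 := abs_le.1 ((abs_sub_le_of_mem_Nb hκ hβ hm).trans ht)
  exact ⟨by linarith, by linarith, by linarith, Nb_trans h4 hm⟩

lemma micro (hG : DegLe G Δ) (h0 : 0 ≤ p) (h1 : p ≤ 1) {δ κ : ℝ} (hδ : 0 ≤ δ) {r R t : ℕ}
    {α β : V → ℝ} (hκ : 0 ≤ κ) (hα : Lip G κ α) (hβ : Lip G κ β) (ht : κ * t ≤ 1 / 100)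
    (hr : r ≤ R) (hm : ∀ a, Move G p δ r R α β a ∧ Move G p δ r R β α a) {o a : V}
    {x y s1 s2 : ℝ} {ρ : ℕ} (hs1 : 1 / 4 ≤ s1) (hs2 : 1 / 4 ≤ s2) (hs : s1 + s2 = 3 / 4)
    {E : Finset (Sym2 V)} {H : Set (Sym2 V)}
    (hE : G.edgeSet ∩ inside (Reg G o α β x y (ρ + (t + R))) ⊆ E ∪ H)
    (ha : a ∈ Nb G t (Pat G o α β x y ρ)) :
    Pr E p (fun ω => ¬ Link (ω ∪ H) (Nb G r {a})
      (Pat G o α β (x + s1) (y + s2) (ρ + (t + R)))) ≤ δ := by
  obtain ⟨a1, a2, a3, a4⟩ := near_Pat hκ hα hβ ht ha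
  have hb : ∀ v ∈ Nb G R {a}, v ∈ Nb G (ρ + (t + R)) {o} := fun v hv => by
    rw [← add_assoc]; exact Nb_trans a4 hv
  have hW : ∀ v ∈ Nb G R {a}, |α v - α a| ≤ 4 → |β v - β a| ≤ 4 →
      v ∈ Reg G o α β x y (ρ + (t + R)) := by
    intro v hv b1 b2
    rw [abs_le] at b1 b2
    exact ⟨⟨abs_le.2 ⟨by linarith, by linarith⟩, abs_le.2 ⟨by linarith, by linarith⟩⟩, hb v hv⟩
  by_cases c0 : 0 ≤ α a - x + (β a - y)
  · refine le_trans (Ex_le_const h0 h1 fun ω _ => (ind_of_not (not_not.2 ?_)).le) hδ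
    exact ⟨a, subset_Nb rfl, a, ⟨⟨by linarith, by linarith, by linarith⟩,
      hb a (subset_Nb rfl)⟩, Conn.refl _ _⟩
  by_cases c1 : α a - x ≤ 0
  · refine (hm a).1.use hG h0 h1 hr hW hE fun v hv b1 b2 => ?_
    rw [abs_le] at b1 b2
    exact ⟨⟨by linarith, by linarith, by linarith⟩, hb v hv⟩
  · refine (hm a).2.use hG h0 h1 hr (fun v hv b1 b2 => hW v hv b2 b1) hE fun v hv b1 b2 => ?_
    rw [abs_le] at b1 b2
    exact ⟨⟨by linarith, by linarith, by linarith⟩, hb v hv⟩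

/-- the conclusion of the seed lemma -/
def SeedP (G : SimpleGraph V) (p ε δ : ℝ) (r t : ℕ) : Prop :=
  ∀ (E : Finset (Sym2 V)) (H : Set (Sym2 V)) (o : V) (M T : Set V), H.Finite →
    (E : Set (Sym2 V)) ∪ H ⊆ G.edgeSet → G.edgeSet ∩ inside (Nb G t M) ⊆ E →
    Disjoint H (inside (Nb G t M)) → o ∉ Nb G t M →
    (∀ a ∈ Nb G t M, Pr E p (fun ω => ¬ Link (ω ∪ H) (Nb G r {a}) T) ≤ δ) →
    Pr E p (fun ω => Link (ω ∪ H) {o} M ∧ ¬ Link (ω ∪ H) {o} T) ≤ ε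

lemma chain (hG : DegLe G Δ) (h0 : 0 ≤ p) (h1 : p ≤ 1) {ε δ κ : ℝ} (hδ : 0 ≤ δ) (hδε : δ ≤ ε)
    {r R t : ℕ} (hS : SeedP G p ε δ r t) {α β : V → ℝ} (hκ : 0 ≤ κ) (hα : Lip G κ α)
    (hβ : Lip G κ β) (ht : κ * (t + r : ℕ) ≤ 1 / 100) (hr : r ≤ R)
    (hm : ∀ a, Move G p δ r R α β a ∧ Move G p δ r R β α a) {o : V}
    {x y s1 s2 : ℝ} {ρ : ℕ} (hs1 : 1 / 4 ≤ s1) (hs2 : 1 / 4 ≤ s2) (hs : s1 + s2 = 3 / 4)
    {E : Finset (Sym2 V)} {H : Set (Sym2 V)} (hH : H.Finite)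
    (hEH : (E : Set (Sym2 V)) ∪ H ⊆ G.edgeSet) {C : Set V} (hE : G.edgeSet ∩ inside C ⊆ E)
    (hC : (o ∉ C ∧ Disjoint H (inside C)) ∨ H = EB G r o) (K : ℕ)
    (hK : ∀ i < K, Reg G o α β (x + i * s1) (y + i * s2) (ρ + (i + 1) * (t + r + R)) ⊆ C) :
    Pr E p (fun ω => Link (ω ∪ H) {o} (Pat G o α β x y ρ) ∧ ¬ Link (ω ∪ H) {o}
      (Pat G o α β (x + K * s1) (y + K * s2) (ρ + K * (t + r + R)))) ≤ K * ε := by
  induction K with
  | zero =>
    simp only [Nat.cast_zero, zero_mul, add_zero]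
    exact Ex_le_const h0 h1 fun ω _ => (ind_of_not fun h => h.2 h.1).le
  | succ K ih =>
    have i1 := ih fun i hi => hK i (by omega)
    set M := Pat G o α β (x + K * s1) (y + K * s2) (ρ + K * (t + r + R)) with hM
    have hreg := hK K (by omega)
    have e1 : ρ + (K + 1) * (t + r + R) = ρ + K * (t + r + R) + (t + r + R) := by ring
    have e2 : x + (K + 1 : ℕ) * s1 = x + K * s1 + s1 := by push_cast; ring
    have e3 : y + (K + 1 : ℕ) * s2 = y + K * s2 + s2 := by push_cast; ring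
    rw [e1] at hreg
    rw [e1, e2, e3]
    set T := Pat G o α β (x + K * s1 + s1) (y + K * s2 + s2)
      (ρ + K * (t + r + R) + (t + r + R)) with hT
    have hmic : ∀ a ∈ Nb G (t + r) M, Pr E p (fun ω => ¬ Link (ω ∪ H) (Nb G r {a}) T) ≤ δ :=
      fun a ha => micro hG h0 h1 hδ hκ hα hβ ht hr hm hs1 hs2 hs
        (((Set.inter_subset_inter_right _ (inside_mono hreg)).trans hE).trans
          Set.subset_union_left) ha
    have hMC : Nb G (t + r) M ⊆ C := fun a ha => by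
      obtain ⟨a1, a2, a3, a4⟩ := near_Pat hκ hα hβ ht ha
      exact hreg ⟨⟨abs_le.2 ⟨by linarith, by linarith⟩, abs_le.2 ⟨by linarith, by linarith⟩⟩,
        Nb_mono_left (by omega) a4⟩
    have htr : Nb G t M ⊆ Nb G (t + r) M := Nb_mono_left (by omega)
    have i2 : Pr E p (fun ω => Link (ω ∪ H) {o} M ∧ ¬ Link (ω ∪ H) {o} T) ≤ ε := by
      have gen : o ∉ Nb G t M → Disjoint H (inside (Nb G t M)) →
          Pr E p (fun ω => Link (ω ∪ H) {o} M ∧ ¬ Link (ω ∪ H) {o} T) ≤ ε := fun b1 b2 =>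
        hS E H o M T hH hEH ((Set.inter_subset_inter_right _
          (inside_mono (htr.trans hMC))).trans hE) b2 b1 fun a ha => hmic a (htr ha)
      rcases hC with hC | hC
      · exact gen (fun h => hC.1 (hMC (htr h))) (hC.2.mono_right (inside_mono (htr.trans hMC)))
      by_cases ho : o ∈ Nb G (t + r) M
      · refine le_trans (Pr_mono h0 h1 ?_) ((hmic o ho).trans hδε)
        rintro ω - ⟨-, hn⟩ ⟨u, hu, v, hv, huv⟩
        refine hn ⟨o, rfl, v, hv, (conn_of_mem_Nb hu ?_).trans huv⟩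
        rw [hC, hG.coe_EB]
        exact Set.subset_union_right
      · refine gen (fun h => ho (htr h)) ?_
        rw [hC, hG.coe_EB, Set.disjoint_left]
        rintro e ⟨-, b1⟩ b2
        induction e with
        | h u v =>
          apply ho
          rw [← Nb_Nb]
          exact Nb_mono (Set.singleton_subset_iff.2 (mem_inside_iff.1 b2).1)
            (Nb_symm (mem_inside_iff.1 b1).1)
    refine (Pr_le_add h0 h1 fun ω _ h => ?_).trans
      ((add_le_add i1 i2).trans_eq (by push_cast; ring))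
    by_cases hc : Link (ω ∪ H) {o} M
    exacts [Or.inr ⟨hc, h.2⟩, Or.inl ⟨h.1, hc⟩]

/-- corridor from `v` to its child -/
def Cor (α β : V → ℝ) (v w : ℕ × ℕ) : Set V :=
  {z | 60 * (v.1 : ℝ) - 27 ≤ 2 * α z - β z ∧ 2 * α z - β z ≤ 60 * (w.1 : ℝ) + 27 ∧
    60 * (v.2 : ℝ) - 27 ≤ 2 * β z - α z ∧ 2 * β z - α z ≤ 60 * (w.2 : ℝ) + 27}

lemma le_of_sixty {a b : ℕ} {u : ℝ} (h1 : 60 * (a : ℝ) - 27 ≤ u) (h2 : u ≤ 60 * (b : ℝ) + 27) :
    a ≤ b := by
  by_contra h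
  have : (b : ℝ) + 1 ≤ a := by exact_mod_cast Nat.succ_le_of_lt (not_le.1 h)
  linarith

lemma Cor_mono {α β : V → ℝ} {v w v' w' : ℕ × ℕ} (h1 : v'.1 ≤ v.1) (h2 : v'.2 ≤ v.2)
    (h3 : w.1 ≤ w'.1) (h4 : w.2 ≤ w'.2) : Cor α β v w ⊆ Cor α β v' w' := by
  rintro z ⟨a1, a2, a3, a4⟩
  have b1 : (v'.1 : ℝ) ≤ v.1 := by exact_mod_cast h1
  have b2 : (v'.2 : ℝ) ≤ v.2 := by exact_mod_cast h2
  have b3 : (w.1 : ℝ) ≤ w'.1 := by exact_mod_cast h3
  have b4 : (w.2 : ℝ) ≤ w'.2 := by exact_mod_cast h4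
  exact ⟨by linarith, by linarith, by linarith, by linarith⟩

lemma Cor_inter {α β : V → ℝ} {v w v' w' : ℕ × ℕ} : Cor α β v w ∩ Cor α β v' w' ⊆
    Cor α β (max v.1 v'.1, max v.2 v'.2) (min w.1 w'.1, min w.2 w'.2) := by
  rintro z ⟨⟨a1, a2, a3, a4⟩, b1, b2, b3, b4⟩
  refine ⟨?_, ?_, ?_, ?_⟩
  · rcases max_choice v.1 v'.1 with h | h <;> simp only [h] <;> assumption
  · rcases min_choice w.1 w'.1 with h | h <;> simp only [h] <;> assumption
  · rcases max_choice v.2 v'.2 with h | h <;> simp only [h] <;> assumption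
  · rcases min_choice w.2 w'.2 with h | h <;> simp only [h] <;> assumption

lemma Cor_le {α β : V → ℝ} {v w : ℕ × ℕ} {z : V} (h : z ∈ Cor α β v w) :
    v.1 ≤ w.1 ∧ v.2 ≤ w.2 := ⟨le_of_sixty h.1 h.2.1, le_of_sixty h.2.2.1 h.2.2.2⟩

lemma Cor_disj {α β : V → ℝ} {v v' : ℕ × ℕ} {b b' : Bool} (h : child v b ≠ child v' b')
    {e : Sym2 V} (h1 : e ∈ inside (Cor α β v (child v b)))
    (h2 : e ∈ inside (Cor α β v' (child v' b'))) :
    e ∈ inside (Cor α β v v) ∨ e ∈ inside (Cor α β v' v') := by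
  have h3 := inside_mono Cor_inter (inside_inter ▸ ⟨h1, h2⟩ :
    e ∈ inside (Cor α β v (child v b) ∩ Cor α β v' (child v' b')))
  obtain ⟨h4, h5⟩ := Cor_le (h3 e.out.1 (Sym2.out_fst_mem e))
  have h6 : ¬ ((child v b).1 = (child v' b').1 ∧ (child v b).2 = (child v' b').2) :=
    fun h' => h (Prod.ext h'.1 h'.2)
  by_cases hc : min (child v b).1 (child v' b').1 ≤ v.1 ∧ min (child v b).2 (child v' b').2 ≤ v.2
  · exact Or.inl (inside_mono (Cor_mono (le_max_left _ _) (le_max_left _ _) hc.1 hc.2) h3)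
  · refine Or.inr (inside_mono (Cor_mono (le_max_right _ _) (le_max_right _ _) ?_ ?_) h3) <;>
      cases b <;> cases b' <;> simp only [child, Bool.false_eq_true, if_true, if_false] at * <;>
      omega

lemma Reg_subset_Cor {o : V} {α β : V → ℝ} (v : ℕ × ℕ) (b : Bool) {i : ℕ} (hi : i < 80) (ρ : ℕ) :
    Reg G o α β (20 * (2 * v.1 + v.2) + i * (if b then 1 / 2 else 1 / 4))
      (20 * (v.1 + 2 * v.2) + i * (if b then 1 / 4 else 1 / 2)) ρ ⊆
      Cor α β v (child v b) ∩ Nb G ρ {o} := by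
  rintro z ⟨⟨a1, a2⟩, a3⟩
  have b1 : (i : ℝ) ≤ 80 := by exact_mod_cast hi.le
  have b2 : (0 : ℝ) ≤ i := Nat.cast_nonneg i
  rw [abs_le] at a1 a2
  cases b <;> simp only [child, Bool.false_eq_true, if_true, if_false] at * <;>
    refine ⟨⟨?_, ?_, ?_, ?_⟩, a3⟩ <;> push_cast <;> linarith

theorem criterion (hG : DegLe G Δ) : ∃ δ : ℝ, 0 < δ ∧ ∀ (r : ℕ) (p0 p1 : ℝ), 0 < p0 → p1 < 1 →
    ∃ κ : ℝ, 0 < κ ∧ ∀ p, p0 ≤ p → p ≤ p1 → ∀ (R : ℕ) (α β : V → ℝ) (o : V), r ≤ R →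
      Lip G κ α → Lip G κ β → α o = 0 → β o = 0 →
      (∀ a, Move G p δ r R α β a ∧ Move G p δ r R β α a) → Perc G p o := by
  classical
  obtain ⟨ε0, hε0, hor⟩ := orient_lemma (ι := Sym2 V)
  set ε := min (min ε0 (ε0 ^ 2) / 80) 1 with hε
  have hε1 : 0 < ε := by positivity
  have hε2 : ε ≤ 1 := min_le_right _ _
  have hε3 : 80 * ε ≤ ε0 := by
    linarith [min_le_left (min ε0 (ε0 ^ 2) / 80) 1, min_le_left ε0 (ε0 ^ 2)]
  have hε4 : 80 * ε ≤ ε0 ^ 2 := by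
    linarith [min_le_left (min ε0 (ε0 ^ 2) / 80) 1, min_le_right ε0 (ε0 ^ 2)]
  refine ⟨ε ^ 2 / 25, by positivity, fun r p0 p1 hp0 hp1 => ?_⟩
  obtain ⟨t, ht⟩ := seed_lemma hG hε1 r hp0 hp1
  refine ⟨1 / (100 * (t + r + 1)), by positivity,
    fun p hp hp' R α β o hr hα hβ hαo hβo hm => ?_⟩
  have h0 : 0 ≤ p := hp0.le.trans hp
  have h1 : p ≤ 1 := (hp'.trans_lt hp1).le
  have hS : SeedP G p ε (ε ^ 2 / 25) r t := ht p hp hp'
  have hκ : (0 : ℝ) ≤ 1 / (100 * (t + r + 1)) := by positivity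
  have hκt : (1 / (100 * (t + r + 1)) : ℝ) * (t + r : ℕ) ≤ 1 / 100 := by
    rw [div_mul_eq_mul_div, div_le_div_iff₀ (by positivity) (by positivity)]
    push_cast; linarith
  have hκ1 : (1 / (100 * (t + r + 1)) : ℝ) ≤ 1 := by
    rw [div_le_one (by positivity)]
    linarith [Nat.cast_nonneg (α := ℝ) t, Nat.cast_nonneg (α := ℝ) r]
  set P := 80 * (t + r + R) with hP
  have hfin : ∀ (C : Set V) (n : ℕ), (G.edgeSet ∩ inside (C ∩ Nb G n {o})).Finite := fun C n =>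
    hG.finite_inside ((hG.finite_Nb (Set.finite_singleton o) n).inter_of_right C)
  set B : ℕ × ℕ → Bool → Finset (Sym2 V) := fun v b =>
    EI G (Cor α β v (child v b) ∩ Nb G (P * (v.1 + v.2 + 2)) {o}) with hB
  have hBm : ∀ v b e, e ∈ B v b ↔ e ∈ G.edgeSet ∧ e ∈ inside (Cor α β v (child v b)) ∧
      e ∈ inside (Nb G (P * (v.1 + v.2 + 2)) {o}) := by
    intro v b e
    rw [← Finset.mem_coe, hB, coe_EI (hfin _ _), inside_inter]
    rfl
  set F : ℕ × ℕ → Bool → Finset (Sym2 V) := fun v b =>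
    (B v b).filter (· ∉ inside (Cor α β v v)) with hF
  have hFm : ∀ v b e, e ∈ F v b ↔ e ∈ B v b ∧ e ∉ inside (Cor α β v v) :=
    fun v b e => Finset.mem_filter
  set Pt : ℕ × ℕ → Set V := fun v =>
    Pat G o α β (20 * (2 * v.1 + v.2)) (20 * (v.1 + 2 * v.2)) (P * (v.1 + v.2)) with hPt
  have hchain : ∀ (v : ℕ × ℕ) (b : Bool) (E : Finset (Sym2 V)) (H : Set (Sym2 V)), H.Finite →
      (E : Set (Sym2 V)) ∪ H ⊆ G.edgeSet →
      G.edgeSet ∩ inside (Cor α β v (child v b) ∩ Nb G (P * (v.1 + v.2 + 1)) {o}) ⊆ E →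
      ((o ∉ Cor α β v (child v b) ∩ Nb G (P * (v.1 + v.2 + 1)) {o} ∧ Disjoint H
        (inside (Cor α β v (child v b) ∩ Nb G (P * (v.1 + v.2 + 1)) {o}))) ∨ H = EB G r o) →
      Pr E p (fun ω => Link (ω ∪ H) {o} (Pt v) ∧ ¬ Link (ω ∪ H) {o} (Pt (child v b))) ≤
        80 * ε := by
    intro v b E H b1 b2 b3 b4
    have := chain hG h0 h1 (by positivity) (by nlinarith) hS hκ hα hβ hκt hr hm
      (x := 20 * (2 * v.1 + v.2)) (y := 20 * (v.1 + 2 * v.2)) (ρ := P * (v.1 + v.2))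
      (s1 := if b then 1 / 2 else 1 / 4) (s2 := if b then 1 / 4 else 1 / 2)
      (by cases b <;> norm_num) (by cases b <;> norm_num) (by cases b <;> norm_num) b1 b2 b3 b4 80
      fun i hi => (Reg_subset_Cor v b hi _).trans (Set.inter_subset_inter_right _
        (Nb_mono_left (by rw [mul_add P _ 1, mul_one, hP]; gcongr; omega)))
    have e : Pt (child v b) = Pat G o α β
        (20 * (2 * v.1 + v.2) + (80 : ℕ) * if b then 1 / 2 else 1 / 4)
        (20 * (v.1 + 2 * v.2) + (80 : ℕ) * if b then 1 / 4 else 1 / 2)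
        (P * (v.1 + v.2) + 80 * (t + r + R)) := by
      rw [hPt, ← hP]
      cases b <;> simp only [child, Bool.false_eq_true, if_true, if_false] <;> congr 1 <;>
        push_cast <;> ring
    rw [e]
    exact this.trans_eq (by norm_num)
  have hoC : o ∈ Cor α β (0, 0) (0, 0) := by
    simp only [Cor, Set.mem_ofPred_eq, hαo, hβo]; norm_num
  set H0 := EI G (Cor α β (0, 0) (0, 0) ∩ Nb G (P * 2) {o}) with hH0
  have hH0m : ∀ e, e ∈ (H0 : Set (Sym2 V)) ↔ e ∈ G.edgeSet ∧ e ∈ inside (Cor α β (0, 0) (0, 0)) ∧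
      e ∈ inside (Nb G (P * 2) {o}) := by
    intro e
    rw [hH0, coe_EI (hfin _ _), inside_inter]
    rfl
  have hcs : ∀ v b, (child v b).1 + (child v b).2 = v.1 + v.2 + 1 := fun v b => by
    cases b <;> simp [child] <;> omega
  have hc1 : ∀ v b, v.1 ≤ (child v b).1 ∧ v.2 ≤ (child v b).2 := fun v b => by
    cases b <;> simp [child]
  refine ⟨p ^ H0.card / 2, by have := hp0.trans_le hp; positivity, fun n => ?_⟩
  have hEn : ∀ e, e ∈ EB G (P * (n + 2)) o ↔ e ∈ G.edgeSet ∧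
      e ∈ inside (Nb G (P * (n + 2)) {o}) := fun e => by
    rw [← Finset.mem_coe, hG.coe_EB]; rfl
  have main := hor p h0 h1 F (fun v b ω => Link ω {o} (Pt (child v b))) H0 G.edgeSet
    (fun ω => Link ω {o} (Nb G n {o})ᶜ) n (EB G (P * (n + 2)) o)
    (fun v b ω ω' h h' => h'.mono h le_rfl le_rfl) (fun ω ω' h h' => h'.mono h le_rfl le_rfl)
    (fun v b v' b' h => Finset.disjoint_left.2 fun e he he' => by
      rw [hFm, hBm] at he he'
      exact (Cor_disj h he.1.2.1 he'.1.2.1).elim he.2 he'.2)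
    (fun v b => Set.disjoint_left.2 fun e he he' => by
      rw [Finset.mem_coe, hFm, hBm] at he'
      rw [hH0m] at he
      have h3 := inside_mono Cor_inter (inside_inter ▸ ⟨he'.1.2.1, he.2.1⟩ :
        e ∈ inside (Cor α β v (child v b) ∩ Cor α β (0, 0) (0, 0)))
      exact he'.2 (inside_mono (Cor_mono (by simp) (by simp) (by simp) (by simp)) h3))
    H0.finite_toSet (fun e he => ((hH0m e).1 he).1)
    (fun v b e he => ((hBm v b e).1 ((hFm v b e).1 he).1).1)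
    (fun b => by
      have i1 := hchain (0, 0) b (B (0, 0) b) (EB G r o) (Finset.finite_toSet _)
        (Set.union_subset (fun e he => ((hBm _ _ e).1 he).1) EB_subset_edgeSet)
        (fun e he => by
          rw [inside_inter] at he
          exact (hBm _ _ e).2 ⟨he.1, he.2.1,
            inside_mono (Nb_mono_left (by gcongr; omega)) he.2.2⟩) (Or.inr rfl)
      refine le_trans (Pr_le_of_subset h0 h1 (Finset.filter_subset _ _) fun ω hω hn =>
        ⟨⟨o, rfl, o, ⟨?_, subset_Nb rfl⟩, Conn.refl _ _⟩, fun h => hn (h.mono ?_ le_rfl le_rfl)⟩)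
        (i1.trans hε3)
      · simp only [Set.mem_ofPred_eq, hαo, hβo]; norm_num
      · rintro e (he | he)
        · by_cases hi : e ∈ inside (Cor α β (0, 0) (0, 0))
          · have := (hBm _ _ e).1 (hω he)
            exact Or.inr ((hH0m e).2 ⟨this.1, hi, this.2.2⟩)
          · exact Or.inl ⟨he, (hFm _ _ e).2 ⟨hω he, hi⟩⟩
        · rw [hG.coe_EB] at he
          refine Or.inr ((hH0m e).2 ⟨he.1, fun v hv => ?_,
            inside_mono (Nb_mono_left (by omega)) he.2⟩)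
          have hv' : v ∈ Nb G (t + r) {o} := Nb_mono_left (by omega) (he.2 v hv)
          have a1 := abs_le.1 ((abs_sub_le_of_mem_Nb hκ hα hv').trans hκt)
          have a2 := abs_le.1 ((abs_sub_le_of_mem_Nb hκ hβ hv').trans hκt)
          rw [hαo] at a1
          rw [hβo] at a2
          simp only [Cor, Set.mem_ofPred_eq, Nat.cast_zero]
          exact ⟨by linarith, by linarith, by linarith, by linarith⟩)
    (fun u b b' H b1 b2 b3 b4 => by
      have hsub : G.edgeSet ∩ inside (Cor α β (child u b) (child (child u b) b') ∩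
          Nb G (P * ((child u b).1 + (child u b).2 + 1)) {o}) ⊆
          ((F u b ∪ F (child u b) b' : Finset (Sym2 V)) : Set (Sym2 V)) := by
        intro e he
        rw [inside_inter] at he
        rw [Finset.mem_coe, Finset.mem_union, hFm, hFm, hBm, hBm]
        by_cases hi : e ∈ inside (Cor α β (child u b) (child u b))
        · refine Or.inl ⟨⟨he.1, inside_mono (Cor_mono (hc1 u b).1 (hc1 u b).2 le_rfl le_rfl) hi,
            by rw [hcs] at he; exact he.2.2⟩, fun hi' => ?_⟩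
          have h3 := Cor_le (Cor_inter ⟨hi _ (Sym2.out_fst_mem e), hi' _ (Sym2.out_fst_mem e)⟩)
          have := hcs u b
          simp only at h3
          omega
        · exact Or.inr ⟨⟨he.1, he.2.1, inside_mono (Nb_mono_left (by gcongr; omega)) he.2.2⟩, hi⟩
      refine (hchain (child u b) b' _ H b1 (Set.union_subset (fun e he => ?_) b2) hsub
        (Or.inl ⟨fun h => ?_, Set.disjoint_left.2 fun e he he' => ?_⟩)).trans hε4
      · rw [Finset.mem_coe, Finset.mem_union, hFm, hFm, hBm, hBm] at he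
        exact he.elim (fun h => h.1.1) (fun h => h.1.1)
      · have h3 := Cor_le (Cor_inter ⟨h.1, hoC⟩)
        have := hcs u b
        simp only at h3
        omega
      · have := hsub ⟨b2 he, he'⟩
        rw [Finset.coe_union] at this
        exact this.elim (Set.disjoint_left.1 b3 he) (Set.disjoint_left.1 b4 he))
    (fun v b ω hv h => h.mono le_rfl le_rfl fun z hz hz' => by
      have a1 := abs_le.1 (abs_sub_le_of_mem_Nb hκ hα hz')
      have a2 := abs_le.1 (abs_sub_le_of_mem_Nb hκ hβ hz')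
      have a3 := hz.1.2.2
      have a4 : ((child v b).1 : ℝ) + (child v b).2 = n + 1 := by
        rw [← hv]; exact_mod_cast hcs v b
      have a5 := mul_le_mul_of_nonneg_right hκ1 (Nat.cast_nonneg (α := ℝ) n)
      have a6 := Nat.cast_nonneg (α := ℝ) n
      rw [hαo] at a1
      rw [hβo] at a2
      linarith)
    (fun v b hv e he => by
      rw [hFm, hBm] at he
      exact (hEn e).2 ⟨he.1.1, inside_mono (Nb_mono_left (by gcongr)) he.1.2.2⟩)
  have hH0E : H0 ⊆ EB G (P * (n + 2)) o := fun e he => (hEn e).2 ⟨((hH0m e).1 he).1,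
    inside_mono (Nb_mono_left (by gcongr; omega)) ((hH0m e).1 he).2.2⟩
  have i1 := Pr_harris (E := EB G (P * (n + 2)) o) h0 h1
    (A := fun ω => (H0 : Set (Sym2 V)) ⊆ ω) (B := fun ω => Link (ω ∪ H0) {o} (Nb G n {o})ᶜ)
    (fun _ _ h h' => h'.trans h)
    (fun _ _ h h' => h'.mono (Set.union_subset_union_left _ h) le_rfl le_rfl)
  rw [Pr_all_open hH0E] at i1
  rw [Pr_not (fun ω => Link (ω ∪ H0) {o} (Nb G n {o})ᶜ)] at main
  refine le_trans ?_ (i1.trans (Pr_couple h0 h1 fun ω h => ?_))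
  · nlinarith [pow_nonneg h0 H0.card]
  · have h2 := h.2
    rw [Set.union_eq_left.2 h.1] at h2
    exact (link_exit_ball hG (Set.inter_subset_right.trans EB_subset_edgeSet) h2).mono
      (Set.inter_subset_inter_left _ Set.inter_subset_left) le_rfl le_rfl

end Vale.Agent.P151
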