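import Vale.Agent.P151.Basic

/-!
Open connections, clusters, graph neighbourhoods.
-/

namespace Vale.Agent.P151

variable {V : Type*}

/-- `x` and `y` are joined by edges of `ω` -/
def Conn (ω : Set (Sym2 V)) (x y : V) : Prop :=
  Relation.ReflTransGen (fun a b => s(a, b) ∈ ω) x y

/-- cluster of a vertex -/
def Cl (ω : Set (Sym2 V)) (x : V) : Set V := {y | Conn ω x y}

/-- union of the clusters of the vertices of `Y` -/
def ClS (ω : Set (Sym2 V)) (Y : Set V) : Set V := {y | ∃ x ∈ Y, Conn ω x y}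

/-- edges with an endpoint in `K` -/
def touch (K : Set V) : Set (Sym2 V) := {e | ∃ v ∈ K, v ∈ e}

/-- edges with both endpoints in `W` -/
def inside (W : Set V) : Set (Sym2 V) := {e | ∀ v ∈ e, v ∈ W}

/-- `S` is joined to `T` by edges of `ω` -/
def Link (ω : Set (Sym2 V)) (S T : Set V) : Prop := ∃ x ∈ S, ∃ y ∈ T, Conn ω x y

variable {ω ω' : Set (Sym2 V)} {x y z : V} {K K' W W' Y Y' S S' T T' : Set V}

lemma Conn.refl (ω : Set (Sym2 V)) (x : V) : Conn ω x x := Relation.ReflTransGen.refl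

lemma Conn.trans (h1 : Conn ω x y) (h2 : Conn ω y z) : Conn ω x z :=
  Relation.ReflTransGen.trans h1 h2

lemma Conn.single (h : s(x, y) ∈ ω) : Conn ω x y := Relation.ReflTransGen.single h

lemma Conn.tail (h1 : Conn ω x y) (h2 : s(y, z) ∈ ω) : Conn ω x z :=
  Relation.ReflTransGen.tail h1 h2

lemma Conn.symm (h : Conn ω x y) : Conn ω y x := by
  induction h with
  | refl => exact Conn.refl _ _
  | tail _ h2 ih => exact (Conn.single (by rwa [Sym2.eq_swap])).trans ih

lemma Conn.mono (hω : ω ⊆ ω') (h : Conn ω x y) : Conn ω' x y := by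
  induction h with
  | refl => exact Conn.refl _ _
  | tail _ h2 ih => exact ih.tail (hω h2)

lemma Link.mono (hω : ω ⊆ ω') (hS : S ⊆ S') (hT : T ⊆ T') (h : Link ω S T) : Link ω' S' T' := by
  obtain ⟨x, hx, y, hy, h⟩ := h
  exact ⟨x, hS hx, y, hT hy, h.mono hω⟩

lemma link_union_right : Link ω S (T ∪ T') ↔ Link ω S T ∨ Link ω S T' := by
  constructor
  · rintro ⟨x, hx, y, hy | hy, h⟩
    exacts [Or.inl ⟨x, hx, y, hy, h⟩, Or.inr ⟨x, hx, y, hy, h⟩]
  · rintro (h | h)
    exacts [h.mono le_rfl le_rfl Set.subset_union_left,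
      h.mono le_rfl le_rfl Set.subset_union_right]

lemma link_singleton : Link ω {x} T ↔ ∃ y ∈ T, Conn ω x y := by
  simp [Link]

lemma mem_inside_iff {a b : V} : s(a, b) ∈ inside W ↔ a ∈ W ∧ b ∈ W := by
  simp [inside]

lemma mem_touch_iff {a b : V} : s(a, b) ∈ touch K ↔ a ∈ K ∨ b ∈ K := by
  simp only [touch, Set.mem_ofPred_eq, Sym2.mem_iff]
  constructor
  · rintro ⟨v, hv, rfl | rfl⟩
    exacts [Or.inl hv, Or.inr hv]
  · rintro (h | h)
    exacts [⟨a, h, Or.inl rfl⟩, ⟨b, h, Or.inr rfl⟩]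

lemma touch_mono (h : K ⊆ K') : touch K ⊆ touch K' := fun _ ⟨v, hv, he⟩ => ⟨v, h hv, he⟩

lemma inside_mono (h : W ⊆ W') : inside W ⊆ inside W' := fun _ he v hv => h (he v hv)

lemma inside_inter : inside (W ∩ W') = inside W ∩ inside W' := by
  ext e
  simp only [inside, Set.mem_ofPred_eq, Set.mem_inter_iff]
  exact ⟨fun h => ⟨fun v hv => (h v hv).1, fun v hv => (h v hv).2⟩,
    fun h v hv => ⟨h.1 v hv, h.2 v hv⟩⟩

lemma mem_Cl_self : x ∈ Cl ω x := Conn.refl _ _

lemma subset_ClS : Y ⊆ ClS ω Y := fun x hx => ⟨x, hx, Conn.refl _ _⟩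

lemma Cl_mono (h : ω ⊆ ω') : Cl ω x ⊆ Cl ω' x := fun _ hy => Conn.mono h hy

lemma ClS_mono (h : ω ⊆ ω') (hY : Y ⊆ Y') : ClS ω Y ⊆ ClS ω' Y' :=
  fun _ ⟨x, hx, hc⟩ => ⟨x, hY hx, hc.mono h⟩

lemma ClS_singleton : ClS ω {x} = Cl ω x := by
  ext y; simp [ClS, Cl]

lemma ClS_insert : ClS ω (insert x Y) = ClS ω Y ∪ Cl ω x := by
  ext y
  simp only [ClS, Cl, Set.mem_insert_iff, Set.mem_ofPred_eq, Set.mem_union]
  constructor
  · rintro ⟨a, rfl | ha, h⟩
    exacts [Or.inr h, Or.inl ⟨a, ha, h⟩]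
  · rintro (⟨a, ha, h⟩ | h)
    exacts [⟨a, Or.inr ha, h⟩, ⟨x, Or.inl rfl, h⟩]

lemma ClS_empty : ClS ω (∅ : Set V) = ∅ := by
  ext y; simp [ClS]

lemma mem_ClS_of_conn (hx : x ∈ ClS ω Y) (h : Conn ω x y) : y ∈ ClS ω Y := by
  obtain ⟨a, ha, hc⟩ := hx
  exact ⟨a, ha, hc.trans h⟩

lemma Cl_eq_of_mem (h : y ∈ Cl ω x) : Cl ω y = Cl ω x := by
  ext z
  exact ⟨fun hz => Conn.trans h hz, fun hz => Conn.trans (Conn.symm h) hz⟩

lemma disjoint_Cl_ClS (h : x ∉ ClS ω Y) : Disjoint (Cl ω x) (ClS ω Y) := by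
  rw [Set.disjoint_left]
  intro y hy hy'
  exact h (mem_ClS_of_conn hy' (Conn.symm hy))

lemma Cl_subset_ClS (h : x ∈ ClS ω Y) : Cl ω x ⊆ ClS ω Y := fun _ hy => mem_ClS_of_conn h hy

/-- A connection only uses edges inside any set containing the cluster. -/
lemma Conn.of_subset (h : Conn ω x y)
    (hω : ∀ a b, Conn ω x a → Conn ω x b → s(a, b) ∈ ω → s(a, b) ∈ ω') : Conn ω' x y := by
  induction h with
  | refl => exact Conn.refl _ _
  | tail h1 h2 ih => exact ih.tail (hω _ _ h1 (Conn.tail h1 h2) h2)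

/-- The cluster of `Y` is unchanged by deleting edges touching a set it avoids. -/
lemma ClS_sdiff_touch (h : Disjoint (ClS ω Y) K) : ClS (ω \ touch K) Y = ClS ω Y := by
  refine Set.Subset.antisymm (ClS_mono Set.sdiff_subset le_rfl) ?_
  rintro y ⟨x, hx, hc⟩
  refine ⟨x, hx, hc.of_subset fun a b ha hb hab => ⟨hab, ?_⟩⟩
  rw [mem_touch_iff]
  rintro (h' | h')
  · exact Set.disjoint_left.1 h ⟨x, hx, ha⟩ h'
  · exact Set.disjoint_left.1 h ⟨x, hx, hb⟩ h'

lemma Cl_sdiff_touch (h : Disjoint (Cl ω x) K) : Cl (ω \ touch K) x = Cl ω x := by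
  rw [← ClS_singleton, ← ClS_singleton] at *
  exact ClS_sdiff_touch h

/-- The cluster in the graph without `K` avoids `K`. -/
lemma disjoint_Cl_sdiff_touch (hx : x ∉ K) : Disjoint (Cl (ω \ touch K) x) K := by
  rw [Set.disjoint_left]
  intro y hy
  induction hy with
  | refl => exact hx
  | tail _ h2 _ => exact fun h => h2.2 (mem_touch_iff.2 (Or.inr h))

lemma Cl_sdiff_touch_of_mem (hx : x ∈ K) : Cl (ω \ touch K) x = {x} := by
  ext y
  refine ⟨fun hy => ?_, fun hy => by rw [Set.mem_singleton_iff.1 hy]; exact mem_Cl_self⟩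
  induction hy with
  | refl => rfl
  | tail _ h2 ih =>
    rw [Set.mem_singleton_iff.1 ih] at h2
    exact absurd (mem_touch_iff.2 (Or.inl hx)) h2.2

/-- The cluster of `Y` is determined by the edges touching it. -/
lemma ClS_eq_of_agree (h : ω' ∩ touch (ClS ω Y) = ω ∩ touch (ClS ω Y)) :
    ClS ω' Y = ClS ω Y := by
  ext y
  constructor
  · rintro ⟨x, hx, hc⟩
    induction hc with
    | refl => exact subset_ClS hx
    | @tail b c _ h2 ih =>
      have : s(b, c) ∈ ω ∩ touch (ClS ω Y) := by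
        rw [← h]; exact ⟨h2, mem_touch_iff.2 (Or.inl ih)⟩
      exact mem_ClS_of_conn ih (Conn.single this.1)
  · rintro ⟨x, hx, hc⟩
    refine ⟨x, hx, hc.of_subset fun a b ha _ hab => ?_⟩
    have : s(a, b) ∈ ω' ∩ touch (ClS ω Y) := by
      rw [h]; exact ⟨hab, mem_touch_iff.2 (Or.inl ⟨x, hx, ha⟩)⟩
    exact this.1

/-- First exit from `W`. -/
lemma Conn.first_exit (h : Conn ω x y) (hx : x ∈ W) (hy : y ∉ W) :
    ∃ a ∈ W, ∃ b ∉ W, s(a, b) ∈ ω ∧ Conn (ω ∩ inside W) x a := by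
  have : (y ∈ W ∧ Conn (ω ∩ inside W) x y) ∨
      ∃ a ∈ W, ∃ b ∉ W, s(a, b) ∈ ω ∧ Conn (ω ∩ inside W) x a := by
    clear hy
    induction h with
    | refl => exact Or.inl ⟨hx, Conn.refl _ _⟩
    | @tail b c _ h2 ih =>
      rcases ih with ⟨hb, hc⟩ | ih
      · by_cases hcW : c ∈ W
        · exact Or.inl ⟨hcW, hc.tail ⟨h2, mem_inside_iff.2 ⟨hb, hcW⟩⟩⟩
        · exact Or.inr ⟨b, hb, c, hcW, h2, hc⟩
      · exact Or.inr ih
  rcases this with h | h
  · exact absurd h.1 hy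
  · exact h

lemma Conn.mem_of_inside (h : Conn (ω ∩ inside W) x y) (hx : x ∈ W) : y ∈ W := by
  induction h with
  | refl => exact hx
  | tail _ h2 _ => exact (mem_inside_iff.1 h2.2).2

lemma Conn.map {V' : Type*} (f : V → V') (h : Conn ω x y) :
    Conn (Sym2.map f '' ω) (f x) (f y) := by
  induction h with
  | refl => exact Conn.refl _ _
  | tail _ h2 ih => exact ih.tail ⟨_, h2, rfl⟩

lemma conn_iff_reachable : Conn ω x y ↔ (SimpleGraph.fromEdgeSet ω).Reachable x y := by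
  rw [SimpleGraph.reachable_iff_reflTransGen]
  constructor
  · intro h
    induction h with
    | refl => exact Relation.ReflTransGen.refl
    | @tail b c _ h2 ih =>
      by_cases hbc : b = c
      · exact hbc ▸ ih
      · exact ih.tail ((SimpleGraph.fromEdgeSet_adj _).2 ⟨h2, hbc⟩)
  · intro h
    induction h with
    | refl => exact Conn.refl _ _
    | tail _ h2 ih => exact ih.tail ((SimpleGraph.fromEdgeSet_adj _).1 h2).1

/-! ### Graph neighbourhoods -/

/-- vertices within graph distance `j` of `M` -/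
def Nb (G : SimpleGraph V) : ℕ → Set V → Set V
  | 0, M => M
  | j + 1, M => Nb G j M ∪ {x | ∃ y ∈ Nb G j M, G.Adj y x}

variable {G : SimpleGraph V} {M M' : Set V} {i j : ℕ}

lemma Nb_zero : Nb G 0 M = M := rfl

lemma mem_Nb_succ : x ∈ Nb G (j + 1) M ↔ x ∈ Nb G j M ∨ ∃ y ∈ Nb G j M, G.Adj y x := Iff.rfl

lemma Nb_subset_succ : Nb G j M ⊆ Nb G (j + 1) M := Set.subset_union_left

lemma Nb_mono_left (h : i ≤ j) : Nb G i M ⊆ Nb G j M := by
  induction h with
  | refl => exact le_rfl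
  | step _ ih => exact ih.trans Nb_subset_succ

lemma subset_Nb : M ⊆ Nb G j M := Nb_mono_left (Nat.zero_le j)

lemma Nb_mono (h : M ⊆ M') : Nb G j M ⊆ Nb G j M' := by
  induction j with
  | zero => exact h
  | succ j ih =>
    rintro x (hx | ⟨y, hy, hxy⟩)
    exacts [Or.inl (ih hx), Or.inr ⟨y, ih hy, hxy⟩]

lemma mem_Nb_of_adj (hy : y ∈ Nb G j M) (h : G.Adj y x) : x ∈ Nb G (j + 1) M := Or.inr ⟨y, hy, h⟩

lemma Nb_Nb : Nb G i (Nb G j M) = Nb G (j + i) M := by
  induction i with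
  | zero => rfl
  | succ i ih => rw [← Nat.add_assoc]; simp only [Nb, ih]

lemma mem_Nb_iff : x ∈ Nb G j M ↔ ∃ m ∈ M, x ∈ Nb G j {m} := by
  constructor
  · intro h
    induction j generalizing x with
    | zero => exact ⟨x, h, rfl⟩
    | succ j ih =>
      rcases h with h | ⟨y, hy, hxy⟩
      · obtain ⟨m, hm, h⟩ := ih h
        exact ⟨m, hm, Or.inl h⟩
      · obtain ⟨m, hm, h⟩ := ih hy
        exact ⟨m, hm, Or.inr ⟨y, h, hxy⟩⟩
  · rintro ⟨m, hm, h⟩
    exact Nb_mono (Set.singleton_subset_iff.2 hm) h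

lemma Nb_trans (h1 : y ∈ Nb G i {x}) (h2 : z ∈ Nb G j {y}) : z ∈ Nb G (i + j) {x} := by
  rw [← Nb_Nb]
  exact Nb_mono (Set.singleton_subset_iff.2 h1) h2

lemma Nb_symm (h : y ∈ Nb G j {x}) : x ∈ Nb G j {y} := by
  induction j generalizing y with
  | zero => exact (Set.mem_singleton_iff.1 h).symm
  | succ j ih =>
    rcases h with h | ⟨z, hz, hzy⟩
    · exact Or.inl (ih h)
    · have h1 : z ∈ Nb G 1 {y} := Or.inr ⟨y, rfl, hzy.symm⟩
      have := Nb_trans h1 (ih hz)
      rwa [Nat.add_comm] at this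

lemma mem_Nb_add (h : x ∈ Nb G (j + i) M) : ∃ a ∈ Nb G j M, x ∈ Nb G i {a} := by
  rw [← Nb_Nb, mem_Nb_iff] at h
  exact h

/-- a Lipschitz function changes by at most `c j` over distance `j` -/
lemma abs_sub_le_of_mem_Nb {f : V → ℝ} {c : ℝ} (hc : 0 ≤ c)
    (hf : ∀ a b, G.Adj a b → |f b - f a| ≤ c) (h : y ∈ Nb G j {x}) : |f y - f x| ≤ c * j := by
  induction j generalizing y with
  | zero => rw [Set.mem_singleton_iff.1 h]; simp
  | succ j ih =>
    rcases h with h | ⟨z, hz, hzy⟩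
    · have := ih h
      push_cast; nlinarith
    · have h1 := ih hz
      have h2 := hf _ _ hzy
      have := abs_sub_le (f y) (f z) (f x)
      push_cast; nlinarith

/-- inside a ball whose edges are all open, every vertex is joined to the centre -/
lemma conn_of_mem_Nb (h : y ∈ Nb G j {x}) (hω : G.edgeSet ∩ inside (Nb G j {x}) ⊆ ω) :
    Conn ω x y := by
  induction j generalizing y with
  | zero => rw [Set.mem_singleton_iff.1 h]; exact Conn.refl _ _
  | succ j ih =>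
    have hω' : G.edgeSet ∩ inside (Nb G j {x}) ⊆ ω :=
      (Set.inter_subset_inter_right _ (inside_mono Nb_subset_succ)).trans hω
    rcases h with h | ⟨z, hz, hzy⟩
    · exact ih h hω'
    · exact (ih hz hω').tail (hω ⟨hzy, mem_inside_iff.2 ⟨Or.inl hz, Or.inr ⟨z, hz, hzy⟩⟩⟩)

/-- degree bound -/
def DegLe (G : SimpleGraph V) (Δ : ℕ) : Prop :=
  ∀ x, ∃ s : Finset V, s.card ≤ Δ ∧ ∀ y, G.Adj x y → y ∈ s

lemma DegLe.exists_Nb {Δ : ℕ} (hG : DegLe G Δ) (s : Finset V) (j : ℕ) :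
    ∃ t : Finset V, t.card ≤ s.card * (Δ + 1) ^ j ∧ Nb G j (s : Set V) ⊆ t := by
  classical
  induction j with
  | zero => exact ⟨s, by simp, le_rfl⟩
  | succ j ih =>
    obtain ⟨t, ht, hsub⟩ := ih
    choose n hn hn' using hG
    refine ⟨t ∪ t.biUnion n, ?_, ?_⟩
    · have h1 := Finset.card_union_le t (t.biUnion n)
      have h2 : (t.biUnion n).card ≤ t.card * Δ := Finset.card_biUnion_le_card_mul _ _ _
        fun x _ => hn x
      calc _ ≤ t.card * (Δ + 1) := by nlinarith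
        _ ≤ s.card * (Δ + 1) ^ j * (Δ + 1) := Nat.mul_le_mul_right _ ht
        _ = _ := by ring
    · rintro x (hx | ⟨y, hy, hxy⟩)
      · simp [show x ∈ t from hsub hx]
      · simp only [Finset.coe_union, Finset.coe_biUnion, Set.mem_union, Set.mem_iUnion]
        exact Or.inr ⟨y, hsub hy, hn' y x hxy⟩

lemma DegLe.finite_Nb {Δ : ℕ} (hG : DegLe G Δ) (hM : M.Finite) (j : ℕ) : (Nb G j M).Finite := by
  obtain ⟨t, -, ht⟩ := hG.exists_Nb hM.toFinset j
  rw [Set.Finite.coe_toFinset] at ht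
  exact t.finite_toSet.subset ht

/-- the edges of `G` touching a finite set -/
lemma DegLe.exists_touch {Δ : ℕ} (hG : DegLe G Δ) (s : Finset V) :
    ∃ D : Finset (Sym2 V), D.card ≤ s.card * Δ ∧ G.edgeSet ∩ touch (s : Set V) ⊆ D := by
  classical
  choose n hn hn' using hG
  refine ⟨s.biUnion fun x => (n x).image fun y => s(x, y), ?_, ?_⟩
  · exact Finset.card_biUnion_le_card_mul _ _ _ fun x _ => Finset.card_image_le.trans (hn x)
  · rintro e ⟨he, v, hv, hve⟩
    obtain ⟨w, rfl⟩ := Sym2.mem_iff_exists.1 hve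
    simp only [Finset.coe_biUnion, Set.mem_iUnion, Finset.coe_image, Set.mem_image]
    exact ⟨v, hv, w, hn' v w he, rfl⟩

lemma inside_subset_touch : inside W ⊆ touch W := by
  intro e he
  induction e with
  | h a b => exact mem_touch_iff.2 (Or.inl (mem_inside_iff.1 he).1)

lemma DegLe.finite_inside {Δ : ℕ} (hG : DegLe G Δ) (hW : W.Finite) :
    (G.edgeSet ∩ inside W).Finite := by
  obtain ⟨D, -, hD⟩ := hG.exists_touch hW.toFinset
  rw [Set.Finite.coe_toFinset] at hD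
  exact D.finite_toSet.subset ((Set.inter_subset_inter_right _ inside_subset_touch).trans hD)

open Classical in
/-- the (finitely many) edges of `G` inside `W`, as a finset; empty if there are infinitely many -/
noncomputable def EI (G : SimpleGraph V) (W : Set V) : Finset (Sym2 V) :=
  if h : (G.edgeSet ∩ inside W).Finite then h.toFinset else ∅

lemma coe_EI (h : (G.edgeSet ∩ inside W).Finite) :
    (EI G W : Set (Sym2 V)) = G.edgeSet ∩ inside W := by
  simp [EI, h]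

lemma EI_subset : (EI G W : Set (Sym2 V)) ⊆ G.edgeSet ∩ inside W := by
  unfold EI
  split_ifs with h <;> simp

/-- edges inside the ball of radius `R` around `a` -/
noncomputable def EB (G : SimpleGraph V) (R : ℕ) (a : V) : Finset (Sym2 V) := EI G (Nb G R {a})

lemma DegLe.coe_EB {Δ : ℕ} (hG : DegLe G Δ) (R : ℕ) (a : V) :
    (EB G R a : Set (Sym2 V)) = G.edgeSet ∩ inside (Nb G R {a}) :=
  coe_EI (hG.finite_inside (hG.finite_Nb (Set.finite_singleton a) R))

lemma DegLe.card_EB {Δ : ℕ} (hG : DegLe G Δ) (R : ℕ) (a : V) :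
    (EB G R a).card ≤ (Δ + 1) ^ R * Δ := by
  obtain ⟨t, ht, hsub⟩ := hG.exists_Nb {a} R
  obtain ⟨D, hD, hD'⟩ := hG.exists_touch t
  rw [Finset.coe_singleton] at hsub
  have : EB G R a ⊆ D := by
    rw [← Finset.coe_subset, hG.coe_EB]
    exact (Set.inter_subset_inter_right _
      (inside_subset_touch.trans (touch_mono hsub))).trans hD'
  have h2 := Finset.card_le_card this
  simp only [Finset.card_singleton, one_mul] at ht
  exact h2.trans (hD.trans (Nat.mul_le_mul_right _ ht))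

end Vale.Agent.P151
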