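import Vale.Agent.P151.Moves
import Vale.Agent.P151.Chain

namespace Vale.Agent.P151

lemma move_of_gd {V : Type*} {G : SimpleGraph V} {Δ : ℕ} (hG : DegLe G Δ) {p δ κ : ℝ}
    (h0 : 0 ≤ p) (h1 : p ≤ 1) {o a : V} {r R D : ℕ} {α β : V → ℝ} (hκ : 0 ≤ κ)
    (hκD : κ * D ≤ 1 / 200) (hα : Lip G κ α) (hβ : Lip G κ β) (φ : G ≃g G)
    (hφ : φ o ∈ Nb G D {a}) (e1 : ∀ y, α (φ y) - α (φ o) = α y)
    (e2 : ∀ y, β (φ y) - β (φ o) = β y)
    (g : Gd (EB G R o) p (Nb G r {o}) {v | |α v| ≤ 2 ∧ |β v| ≤ 2}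
      {v | |α v - 1| ≤ 1 / 200 ∧ |β v| ≤ 1 / 200} δ) : Move G p δ (D + r) (D + R) α β a := by
  have a1 := abs_le.1 ((abs_sub_le_of_mem_Nb hκ hα hφ).trans hκD)
  have a2 := abs_le.1 ((abs_sub_le_of_mem_Nb hκ hβ hφ).trans hκD)
  refine le_trans (Pr_ge_of_subset h0 h1 (EB_mono hG fun v hv => Nb_trans (j := R) hφ hv) ?_)
    ((transport hG h0 h1 φ R o (W' := {v | |α v - α a| ≤ 4 ∧ |β v - β a| ≤ 4})
      (S' := Nb G (D + r) {a}) (T' := {v | |α v - α a - 1| ≤ 1 / 100 ∧ |β v - β a| ≤ 1 / 100})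
      (fun v hv => ?_) (fun v hv => Nb_trans hφ (map_mem_Nb φ hv)) fun v hv => ?_).trans g)
  · exact fun ω _ hn h => hn (h.mono (Set.inter_subset_inter_left _ Set.inter_subset_left)
      le_rfl le_rfl)
  all_goals
    have b1 := abs_le.1 hv.1
    have b2 := abs_le.1 hv.2
    have b3 := e1 v
    have b4 := e2 v
    exact ⟨abs_le.2 ⟨by linarith, by linarith⟩, abs_le.2 ⟨by linarith, by linarith⟩⟩

/-- The set of percolating parameters is open from the left. -/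
theorem core {V : Type} (G : SimpleGraph V) {Δ : ℕ} (hG : DegLe G Δ) (o : V) (D : ℕ) (c : ℝ)
    (hc : 0 < c) (X Y : V → ℝ) (hX : Lip G 1 X) (hY : Lip G 1 Y) (hH : Homog G o D X Y)
    (hM : Mobile G D c X Y) {p : ℝ} (h0 : 0 < p) (h1 : p < 1) (x : V) (hp : Perc G p x) :
    ∃ p', 0 < p' ∧ p' < p ∧ Perc G p' o := by
  obtain ⟨δ, hδ, hcr⟩ := criterion hG
  set δ' := min (δ / 2) (1 / 2) with hδ'
  have hδ0 : 0 < δ' := by positivity
  have hδ1 : δ' < δ := (min_le_left _ _).trans_lt (by linarith)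
  obtain ⟨r, hr⟩ := zero_one hG h0.le h1.le hc hX hH hM hp
    (show 0 < (δ' ^ 1001) ^ 12 / 2 by positivity)
  obtain ⟨κ, hκ, hcr⟩ := hcr (D + r) (p / 2) p (by linarith) h1
  obtain ⟨K0, hK0⟩ := exists_nat_gt (max (2 / κ) (400 * D))
  obtain ⟨R, K, hrR, hK, α, β, ⟨a1, a2, hα⟩, ⟨b1, b2, hβ⟩, lα, lβ, g1, g2⟩ :=
    moves hG h0 h1.le hδ0 (min_le_right _ _) (X := fun v => X v - X o) (Y := fun v => Y v - Y o)
      (fun a b h => by simpa using hX a b h) (fun a b h => by simpa using hY a b h)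
      (sub_self _) (sub_self _) (D := D) hc (fun a => by
        obtain ⟨⟨b, b1, b2, b3⟩, b', b4, b5, b6⟩ := hM a
        exact ⟨⟨b, b1, by simp only [b2]; ring, by simp only [b3]⟩, b', b4, by simp only [b5],
          by simp only [b6]; ring⟩)
      hr K0
  beta_reduce at hα hβ
  have hK' : max (2 / κ) (400 * D) < (K : ℝ) := hK0.trans_le (by exact_mod_cast hK)
  have hK1 := (le_max_left _ _).trans_lt hK'
  have hK2 := (le_max_right _ _).trans_lt hK'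
  have hKp : (0 : ℝ) < K := lt_trans (by positivity) hK1
  have hκ1 : 2 * (1 / K : ℝ) ≤ κ := by
    rw [div_lt_iff₀ hκ] at hK1
    rw [mul_one_div, div_le_iff₀ hKp]
    linarith
  have hκ2 : 2 * (1 / K : ℝ) * D ≤ 1 / 200 := by
    rw [mul_one_div, div_mul_eq_mul_div, div_le_iff₀ hKp]
    linarith
  have ev : ∀ {W T : Set V}, Gd (EB G R o) p (Nb G r {o}) W T δ' →
      ∀ᶠ q in nhds p, Gd (EB G R o) q (Nb G r {o}) W T δ := fun g =>
    ((continuous_Ex _ _).continuousAt.eventually_lt continuousAt_const (g.trans_lt hδ1)).mono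
      fun _ h => h.le
  obtain ⟨q, ⟨⟨q1, q2⟩, q3⟩, q4⟩ := ((((ev g1).and (ev g2)).and
    (lt_mem_nhds (show p / 2 < p by linarith))).filter_mono
    (nhdsWithin_le_nhds (s := Set.Iio p))).and self_mem_nhdsWithin |>.exists
  have q5 : q < p := q4
  refine ⟨q, by linarith, q5, hcr q q3.le q5.le (D + R) α β o (by omega)
    (fun a b h => (lα a b h).trans hκ1) (fun a b h => (lβ a b h).trans hκ1)
    (by simp [hα]) (by simp [hβ]) fun a => ?_⟩
  obtain ⟨φ, hφ, f1, f2⟩ := hH a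
  have e1 : ∀ y, α (φ y) - α (φ o) = α y := fun y => by
    rw [hα, hα, hα, ← f1 y, ← f2 y]; ring
  have e2 : ∀ y, β (φ y) - β (φ o) = β y := fun y => by
    rw [hβ, hβ, hβ, ← f1 y, ← f2 y]; ring
  exact ⟨move_of_gd hG (by linarith) (by linarith) (by positivity) hκ2 lα lβ φ hφ e1 e2 q1,
    move_of_gd hG (by linarith) (by linarith) (by positivity) hκ2 lβ lα φ hφ e2 e1 q2⟩

end Vale.Agent.P151
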