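import Vale.Agent.P151.Core
import Vale.Agent.P151.Bridge
import Vale.Agent.P151.Orient

open MeasureTheory ProbabilityTheory

namespace Vale.Agent.P151

namespace Fi

variable {V : Type} {G : SimpleGraph V}

lemma map_Nb (φ : G ≃g G) {j : ℕ} {x y : V} (h : y ∈ Nb G j {x}) : φ y ∈ Nb G j {φ x} := by
  induction j generalizing y with
  | zero => rw [Set.mem_singleton_iff.1 h]; rfl
  | succ j ih =>
    rcases h with h | ⟨z, hz, hzy⟩
    · exact Or.inl (ih h)
    · exact mem_Nb_of_adj (ih hz) (φ.map_adj_iff.2 hzy)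

lemma adj_symm (φ : G ≃g G) {s y : V} (h : G.Adj (φ s) y) : G.Adj s (φ.symm y) := by
  rw [← φ.map_adj_iff]; simpa using h

lemma degLe [G.LocallyFinite] (S : Finset V) (hS : ∀ x, ∃ g : G ≃g G, ∃ s ∈ S, g s = x) :
    DegLe G (S.sup fun s => G.degree s) := by
  classical
  intro x
  obtain ⟨g, s, hs, rfl⟩ := hS x
  refine ⟨(G.neighborFinset s).image g, Finset.card_image_le.trans
    (Finset.le_sup (f := fun s => G.degree s) hs), fun y hy => ?_⟩
  exact Finset.mem_image.2 ⟨g.symm y, by simpa using adj_symm g hy, by simp⟩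

lemma exists_lip [G.LocallyFinite] (S : Finset V) (F : V → ℝ)
    (hS : ∀ x, ∃ g : G ≃g G, (∀ x y, F (g x) - F x = F (g y) - F y) ∧ ∃ s ∈ S, g s = x) :
    ∃ C, 0 < C ∧ Lip G C F := by
  refine ⟨1 + ∑ s ∈ S, ∑ b ∈ G.neighborFinset s, |F b - F s|, by positivity, fun a b hab => ?_⟩
  obtain ⟨g, hg, s, hs, rfl⟩ := hS a
  have h1 : F b - F (g s) = F (g.symm b) - F s := by
    have := hg (g.symm b) s
    rw [RelIso.apply_symm_apply] at this
    linarith
  have h2 : |F (g.symm b) - F s| ≤ ∑ b ∈ G.neighborFinset s, |F b - F s| :=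
    Finset.single_le_sum (f := fun b => |F b - F s|) (fun _ _ => abs_nonneg _)
      (by simpa using adj_symm g hab)
  have h3 : ∑ b ∈ G.neighborFinset s, |F b - F s| ≤
      ∑ s ∈ S, ∑ b ∈ G.neighborFinset s, |F b - F s| :=
    Finset.single_le_sum (f := fun s => ∑ b ∈ G.neighborFinset s, |F b - F s|)
      (fun _ _ => by positivity) hs
  rw [h1]; linarith

/-- automorphisms translating `f` -/
def eqv (G : SimpleGraph V) (f : V → ℝ × ℝ) : Subgroup (G ≃g G) where
  carrier := {g | ∀ x y, f (g x) - f x = f (g y) - f y}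
  one_mem' := fun x y => by simp
  mul_mem' := fun {a b} ha hb x y => by
    have h1 := ha (b x) (b y)
    have h2 := hb x y
    simp only [RelIso.mul_apply]
    linear_combination h1 + h2
  inv_mem' := fun {a} ha x y => by
    have h1 := ha (a⁻¹ x) (a⁻¹ y)
    simp only [RelIso.apply_inv_self] at h1
    linear_combination -h1

lemma perc_zero (hc : G.Preconnected) {Δ : ℕ} (hG : DegLe G Δ) :
    perc G 0 (infCluster V) = 0 := by
  have := Br.countable_V hc hG
  unfold perc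
  rw [setBernoulli_zero, Measure.dirac_apply, Set.indicator_of_notMem]
  rintro ⟨x, hx⟩
  refine hx ((Set.finite_singleton x).subset fun y hy => ?_)
  simpa [eq_comm] using hy

end Fi

open Fi

/-- General theorem: a quasi-transitive group with an equivariant rank-two map to the plane. -/
theorem final_general {V : Type} (G : SimpleGraph V) [G.LocallyFinite] (hc : G.Connected)
    (Γ : Subgroup (G ≃g G)) (hΓ : ∃ S : Finset V, ∀ x, ∃ g ∈ Γ, ∃ s ∈ S, g s = x)
    (f : V → ℝ × ℝ) (hf : ∀ g ∈ Γ, ∀ x y, f (g x) - f x = f (g y) - f y)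
    (hrank : ∃ g ∈ Γ, ∃ h ∈ Γ, ∃ x,
      (f (g x) - f x).1 * (f (h x) - f x).2 ≠ (f (g x) - f x).2 * (f (h x) - f x).1)
    (hpc : pc G < 1) : perc G (pc G) (infCluster V) = 0 := by
  classical
  obtain ⟨S, hS⟩ := hΓ
  obtain ⟨g, hg, h, hh, o, hdet⟩ := hrank
  have hG := degLe S fun x => (hS x).imp fun g hg => hg.2
  set u := f (g o) - f o with hu
  set v := f (h o) - f o with hv
  have hd : u.1 * v.2 - u.2 * v.1 ≠ 0 := sub_ne_zero.2 hdet
  have lin : ∀ α β : ℝ, ∀ γ ∈ Γ, ∀ x y,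
      (α * (f (γ x)).1 + β * (f (γ x)).2) - (α * (f x).1 + β * (f x).2) =
      (α * (f (γ y)).1 + β * (f (γ y)).2) - (α * (f y).1 + β * (f y).2) := by
    intro α β γ hγ x y
    have h1 := congrArg Prod.fst (hf γ hγ x y)
    have h2 := congrArg Prod.snd (hf γ hγ x y)
    simp only [Prod.fst_sub, Prod.snd_sub] at h1 h2
    linear_combination α * h1 + β * h2
  have lip : ∀ α β : ℝ, ∃ C, 0 < C ∧ Lip G C (fun x => α * (f x).1 + β * (f x).2) := fun α β =>
    exists_lip S _ fun x => (hS x).imp fun γ hγ => ⟨lin α β γ hγ.1, hγ.2⟩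
  set δ := u.1 * v.2 - u.2 * v.1 with hδ
  obtain ⟨C₁, hC₁, hL₁⟩ := lip (v.2 / δ) (-v.1 / δ)
  obtain ⟨C₂, hC₂, hL₂⟩ := lip (-u.2 / δ) (u.1 / δ)
  set c : ℝ := 1 / (C₁ + C₂) with hcdef
  have hc0 : 0 < c := by positivity
  have scale : ∀ (C : ℝ) (F : V → ℝ), C ≤ C₁ + C₂ → Lip G C F → Lip G 1 (fun x => c * F x) := by
    intro C F hC hL a b hab
    rw [← mul_sub, abs_mul, abs_of_pos hc0, hcdef, one_div, inv_mul_le_iff₀ (by positivity)]
    linarith [hL a b hab]
  obtain ⟨R, hR⟩ := Br.exists_Nb_finite hc.preconnected o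
    (S := (S : Set V) ∪ (g '' S ∪ h '' S)) (Set.toFinite _)
  have hRs : ∀ s ∈ S, o ∈ Nb G R {s} := fun s hs => Nb_symm (hR (Or.inl hs))
  have hu1 : ∀ x, (f (g x)).1 = (f x).1 + u.1 := fun x => by
    have := congrArg Prod.fst (hf g hg x o); simp only [Prod.fst_sub] at this
    rw [hu, Prod.fst_sub]; linarith
  have hu2 : ∀ x, (f (g x)).2 = (f x).2 + u.2 := fun x => by
    have := congrArg Prod.snd (hf g hg x o); simp only [Prod.snd_sub] at this
    rw [hu, Prod.snd_sub]; linarith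
  have hv1 : ∀ x, (f (h x)).1 = (f x).1 + v.1 := fun x => by
    have := congrArg Prod.fst (hf h hh x o); simp only [Prod.fst_sub] at this
    rw [hv, Prod.fst_sub]; linarith
  have hv2 : ∀ x, (f (h x)).2 = (f x).2 + v.2 := fun x => by
    have := congrArg Prod.snd (hf h hh x o); simp only [Prod.snd_sub] at this
    rw [hv, Prod.snd_sub]; linarith
  have e1 : v.2 / δ * u.1 + -v.1 / δ * u.2 = 1 := by field_simp; rw [hδ]; ring
  have e2 : -u.2 / δ * u.1 + u.1 / δ * u.2 = 0 := by ring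
  have e3 : v.2 / δ * v.1 + -v.1 / δ * v.2 = 0 := by ring
  have e4 : -u.2 / δ * v.1 + u.1 / δ * v.2 = 1 := by field_simp; rw [hδ]; ring
  clear_value u v δ
  generalize v.2 / δ = a₁, -v.1 / δ = b₁, -u.2 / δ = a₂, u.1 / δ = b₂ at *
  by_contra hne
  obtain ⟨x, hx⟩ := (perc_pos_iff G hc.preconnected hG _).1 (pos_iff_ne_zero.2 hne)
  have h0 : 0 < pc G := by
    refine pos_iff_ne_zero.2 fun h0 => hne ?_
    rw [h0]; exact perc_zero hc.preconnected hG
  obtain ⟨p', hp0, hp1, hp'⟩ := core G hG o (R + R) c hc0 _ _ (scale _ _ (by linarith) hL₁)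
    (scale _ _ (by linarith) hL₂) (fun a => by
      obtain ⟨γ, hγ, s, hs, rfl⟩ := hS a
      refine ⟨γ, map_Nb γ (Nb_mono_left (Nat.le_add_right _ _) (hRs s hs)), fun y => ?_,
        fun y => ?_⟩
      · linear_combination c * lin a₁ b₁ γ hγ y o
      · linear_combination c * lin a₂ b₂ γ hγ y o)
    (fun a => by
      obtain ⟨γ, hγ, s, hs, rfl⟩ := hS a
      refine ⟨⟨γ (g s), map_Nb γ (Nb_trans (hRs s hs) (hR (Or.inr (Or.inl ⟨s, hs, rfl⟩)))), ?_, ?_⟩,
        ⟨γ (h s), map_Nb γ (Nb_trans (hRs s hs) (hR (Or.inr (Or.inr ⟨s, hs, rfl⟩)))), ?_, ?_⟩⟩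
      · linear_combination c * lin a₁ b₁ γ hγ (g s) s + c * a₁ * hu1 s + c * b₁ * hu2 s + c * e1
      · linear_combination c * lin a₂ b₂ γ hγ (g s) s + c * a₂ * hu1 s + c * b₂ * hu2 s + c * e2
      · linear_combination c * lin a₁ b₁ γ hγ (h s) s + c * a₁ * hv1 s + c * b₁ * hv2 s + c * e3
      · linear_combination c * lin a₂ b₂ γ hγ (h s) s + c * a₂ * hv1 s + c * b₂ * hv2 s + c * e4)
    (p := pc G) h0 hpc x hx
  have hle : pc G ≤ ⟨p', hp0.le, hp1.le.trans (pc G).2.2⟩ :=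
    sInf_le ((perc_pos_iff G hc.preconnected hG ⟨p', hp0.le, hp1.le.trans (pc G).2.2⟩).2 ⟨o, hp'⟩)
  exact absurd hp1 (not_lt.2 hle)

namespace Fi

lemma zd_adj_single {d : ℕ} (x : Fin d → ℤ) (i : Fin d) : (zd d).Adj x (x + Pi.single i 1) := by
  show ∑ j, |x j - (x + Pi.single i 1 : Fin d → ℤ) j| = 1
  rw [Finset.sum_eq_single i]
  · simp
  · intro j _ hj; simp [hj]
  · simp

/-- the lattice is locally finite -/
noncomputable def zd_lf (d : ℕ) : (zd d).LocallyFinite := fun x =>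
  Set.Finite.fintype <| by
    refine (Fintype.piFinset fun i => Finset.Icc (x i - 1) (x i + 1)).finite_toSet.subset
      fun y hy => ?_
    have hy' : ∑ i, |x i - y i| = 1 := hy
    simp only [Finset.mem_coe, Fintype.mem_piFinset, Finset.mem_Icc]
    intro i
    have := Finset.single_le_sum (f := fun i => |x i - y i|) (fun _ _ => abs_nonneg _)
      (Finset.mem_univ i)
    rw [hy', abs_le] at this
    omega

lemma zd_conn (d : ℕ) : (zd d).Connected := by
  have h1 : ∀ (x : Fin d → ℤ) (i : Fin d) (k : ℤ), (zd d).Reachable x (x + Pi.single i k) := by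
    intro x i k
    induction k using Int.induction_on with
    | zero => simp
    | succ k ih =>
      refine ih.trans ?_
      rw [Pi.single_add, ← add_assoc]
      exact (zd_adj_single _ i).reachable
    | pred k ih =>
      refine ih.trans ?_
      have := (zd_adj_single (x + Pi.single i (-(k : ℤ) - 1)) i).reachable.symm
      rwa [add_assoc, ← Pi.single_add, sub_add_cancel] at this
  have h2 : ∀ (x : Fin d → ℤ) (s : Finset (Fin d)),
      (zd d).Reachable 0 (∑ i ∈ s, Pi.single i (x i)) := by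
    intro x s
    induction s using Finset.induction_on with
    | empty => simp
    | insert i s hi ih =>
      rw [Finset.sum_insert hi, add_comm]
      exact ih.trans (h1 _ _ _)
  have h3 : ∀ x : Fin d → ℤ, (zd d).Reachable 0 x := fun x => by
    have := h2 x Finset.univ
    rwa [Finset.univ_sum_single] at this
  exact ⟨fun x y => (h3 x).symm.trans (h3 y)⟩

/-- translations of the lattice -/
def tr {d : ℕ} (a : Fin d → ℤ) : zd d ≃g zd d where
  toEquiv := Equiv.addRight a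
  map_rel_iff' := by
    intro x y
    simp [zd]

lemma tr_apply {d : ℕ} (a x : Fin d → ℤ) : tr a x = x + a := rfl

/-- points of the quarter plane -/
def pt (d : ℕ) (v : ℕ × ℕ) : Fin (d + 2) → ℤ := Pi.single 0 (v.1 : ℤ) + Pi.single 1 (v.2 : ℤ)

lemma pt_zero (d : ℕ) (v : ℕ × ℕ) : pt d v 0 = v.1 := by simp [pt]

lemma pt_one (d : ℕ) (v : ℕ × ℕ) : pt d v 1 = v.2 := by simp [pt]

lemma pt_inj {d : ℕ} {v w : ℕ × ℕ} (h : pt d v = pt d w) : v = w := by
  have h0 := congrFun h 0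
  have h1 := congrFun h 1
  rw [pt_zero, pt_zero] at h0
  rw [pt_one, pt_one] at h1
  exact Prod.ext (by exact_mod_cast h0) (by exact_mod_cast h1)

lemma pt_adj (d : ℕ) (v : ℕ × ℕ) (b : Bool) : (zd (d + 2)).Adj (pt d v) (pt d (child v b)) := by
  cases b
  · have := zd_adj_single (pt d v) 1
    convert this using 1
    simp [pt, child, Pi.single_add, add_assoc]
  · have := zd_adj_single (pt d v) 0
    convert this using 1
    simp only [pt, child, if_true, Nat.cast_add, Nat.cast_one, Pi.single_add]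
    abel

lemma child_sum (v : ℕ × ℕ) (b : Bool) : (child v b).1 + (child v b).2 = v.1 + v.2 + 1 := by
  cases b <;> simp [child] <;> omega

lemma pt_mem (d : ℕ) (i j : ℕ) : pt d (i, j) ∈ Nb (zd (d + 2)) (i + j) {0} := by
  induction j with
  | zero =>
    induction i with
    | zero => simp [pt, Nb]
    | succ i ih => exact mem_Nb_of_adj ih (pt_adj d (i, 0) true)
  | succ j ih => exact mem_Nb_of_adj ih (pt_adj d (i, j) false)

lemma pt_notMem (d : ℕ) (v : ℕ × ℕ) (R : ℕ) (h : R < v.1 + v.2) :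
    pt d v ∉ Nb (zd (d + 2)) R {0} := by
  intro hm
  have := abs_sub_le_of_mem_Nb (f := fun y : Fin (d + 2) → ℤ => ((y 0 + y 1 : ℤ) : ℝ)) (c := 1)
    zero_le_one (fun a b hab => by
      have hab' : ∑ i, |a i - b i| = 1 := hab
      rw [Fin.sum_univ_succ, Fin.sum_univ_succ] at hab'
      have h3 : 0 ≤ ∑ i : Fin d, |a i.succ.succ - b i.succ.succ| := by positivity
      have h4 : |b 0 + b 1 - (a 0 + a 1)| ≤ 1 := by
        have h5 := abs_add_le (a 0 - b 0) (a 1 - b 1)
        rw [abs_sub_comm, show a 0 + a 1 - (b 0 + b 1) = a 0 - b 0 + (a 1 - b 1) by ring]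
        simp only [Fin.succ_zero_eq_one] at hab'
        linarith
      exact_mod_cast h4) hm
  simp only [pt_zero, pt_one, Pi.zero_apply, add_zero, Int.cast_zero, sub_zero, one_mul] at this
  have h6 : |(v.1 : ℤ) + v.2| ≤ R := by exact_mod_cast this
  rw [abs_le] at h6
  omega

lemma Pr_closed {ι : Type*} {E : Finset ι} {p : ℝ} (h0 : 0 ≤ p) (h1 : p ≤ 1) {e : ι} (he : e ∈ E)
    {A : Set ι → Prop} (hA : ∀ ω, A ω → e ∉ ω) : Pr E p A ≤ 1 - p := by
  have h2 := Pr_all_open (p := p) (Finset.singleton_subset_iff.2 he)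
  rw [Finset.card_singleton, pow_one] at h2
  have h3 := Pr_not (E := E) (p := p) (fun ω => ((({e} : Finset ι) : Set ι) ⊆ ω))
  rw [h2] at h3
  rw [← h3]
  exact Pr_mono h0 h1 fun ω _ h h' => hA ω h (h' (by simp))

lemma zd_perc (d : ℕ) {Δ : ℕ} (hG : DegLe (zd (d + 2)) Δ) :
    ∃ p : ℝ, 0 ≤ p ∧ p < 1 ∧ Perc (zd (d + 2)) p 0 := by
  classical
  obtain ⟨ε, hε, hor⟩ := orient_lemma (ι := Sym2 (Fin (d + 2) → ℤ))
  set η := min 1 (min ε (ε ^ 2)) with hη
  have hη0 : 0 < η := by positivity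
  have hη1 : η ≤ 1 := min_le_left _ _
  have hη2 : η ≤ ε := (min_le_right _ _).trans (min_le_left _ _)
  have hη3 : η ≤ ε ^ 2 := (min_le_right _ _).trans (min_le_right _ _)
  have h0 : 0 ≤ 1 - η := by linarith
  have h1 : 1 - η ≤ 1 := by linarith
  refine ⟨1 - η, h0, by linarith, 1 / 2, by norm_num, fun R => ?_⟩
  have := hor (1 - η) h0 h1 (fun v b => {s(pt d v, pt d (child v b))})
    (fun v b ω => Conn ω 0 (pt d (child v b))) ∅ Set.univ
    (fun ω => Link ω {0} (Nb (zd (d + 2)) R {0})ᶜ) R (EB (zd (d + 2)) (R + 1) 0)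
    (fun v b ω ω' h hc => hc.mono h) (fun ω ω' h hc => hc.mono h le_rfl le_rfl)
    (fun v b v' b' hne => by
      rw [Finset.disjoint_singleton]
      intro h
      rcases Sym2.eq_iff.1 h with h | h
      · exact hne (pt_inj h.2)
      · have h2 := child_sum v b
        have h3 := child_sum v' b'
        rw [pt_inj h.2] at h2
        rw [← pt_inj h.1] at h3
        omega)
    (fun _ _ => Set.empty_disjoint _) Set.finite_empty (Set.subset_univ _)
    (fun _ _ => Set.subset_univ _)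
    (fun b => by
      refine (Pr_closed h0 h1 (Finset.mem_singleton_self _) fun ω h h' => h ?_).trans (by linarith)
      have h2 : pt d (0, 0) = 0 := by simp [pt]
      rw [h2] at h'
      exact Conn.single (Or.inl h'))
    (fun u b b' H _ _ _ _ =>
      (Pr_closed h0 h1 (Finset.mem_union_right _ (Finset.mem_singleton_self _))
        fun ω h h' => h.2 (h.1.tail (Or.inl h'))).trans (by linarith))
    (fun v b ω hv hc => ⟨0, rfl, _, pt_notMem d _ R (by rw [child_sum]; omega), hc⟩)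
    (fun v b hv => by
      rw [Finset.singleton_subset_iff, ← Finset.mem_coe, hG.coe_EB]
      have h2 := Nb_mono_left hv (pt_mem d v.1 v.2)
      exact ⟨pt_adj d v b, mem_inside_iff.2 ⟨Nb_subset_succ h2, mem_Nb_of_adj h2 (pt_adj d v b)⟩⟩)
  simp only [Set.union_empty] at this
  rw [Pr_not] at this
  linarith

end Fi

theorem final_zd (d : ℕ) (hd : 2 ≤ d) :
    pc (zd d) < 1 ∧ perc (zd d) (pc (zd d)) (infCluster (Fin d → ℤ)) = 0 := by
  obtain ⟨d, rfl⟩ : ∃ d', d = d' + 2 := ⟨d - 2, by omega⟩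
  letI := zd_lf (d + 2)
  have hG := degLe (G := zd (d + 2)) {0} fun x => ⟨tr x, 0, by simp, by simp [tr_apply]⟩
  have hpc : pc (zd (d + 2)) < 1 := by
    obtain ⟨p, h0, h1, hp⟩ := zd_perc d hG
    have hle : pc (zd (d + 2)) ≤ ⟨p, h0, h1.le⟩ :=
      sInf_le ((perc_pos_iff _ (zd_conn _).preconnected hG ⟨p, h0, h1.le⟩).2 ⟨0, hp⟩)
    exact hle.trans_lt h1
  let f : (Fin (d + 2) → ℤ) → ℝ × ℝ := fun x => (x 0, x 1)
  have htr : ∀ a, tr a ∈ eqv (zd (d + 2)) f := fun a x y => by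
    simp [f, tr_apply]
  refine ⟨hpc, final_general _ (zd_conn _) (eqv _ f)
    ⟨{0}, fun x => ⟨tr x, htr x, 0, by simp, by simp [tr_apply]⟩⟩ f (fun g hg => hg)
    ⟨tr (Pi.single 0 1), htr _, tr (Pi.single 1 1), htr _, 0, ?_⟩ hpc⟩
  simp [f, tr_apply]

theorem final_cayley {Γ : Type} [Group Γ] (S : Finset Γ)
    (hS : Subgroup.closure (S : Set Γ) = ⊤) (H : Subgroup Γ) [H.FiniteIndex]
    (φ : H →* Multiplicative (ℤ × ℤ)) (hφ : Function.Surjective φ) :
    pc (SimpleGraph.mulCayley (S : Set Γ)) < 1 →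
    perc (SimpleGraph.mulCayley (S : Set Γ)) (pc (SimpleGraph.mulCayley (S : Set Γ)))
      (infCluster Γ) = 0 := by
  classical
  intro hpc
  set G := SimpleGraph.mulCayley (S : Set Γ) with hG
  let lf : G.LocallyFinite := fun x => Set.Finite.fintype <| by
    refine (S.image (x * ·) ∪ S.image (x * ·⁻¹)).finite_toSet.subset fun y hy => ?_
    obtain ⟨-, g, hg, h | h⟩ := (SimpleGraph.mulCayley_adj' _ x y).1 hy
    · simp only [Finset.coe_union, Finset.coe_image]
      exact Or.inl ⟨g, hg, h⟩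
    · simp only [Finset.coe_union, Finset.coe_image]
      exact Or.inr ⟨g, hg, by simp [h]⟩
  have hstep : ∀ x g, g ∈ S → G.Reachable x (x * g) := by
    intro x g hg
    by_cases h : x = x * g
    · rw [← h]
    · exact ((SimpleGraph.mulCayley_adj' _ x (x * g)).2 ⟨h, g, hg, Or.inl rfl⟩).reachable
  have hreach : ∀ g : Γ, ∀ x, G.Reachable x (x * g) := by
    intro g
    have hg : g ∈ Subgroup.closure (S : Set Γ) := hS ▸ Subgroup.mem_top g
    induction hg using Subgroup.closure_induction with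
    | mem g hg => exact fun x => hstep x g hg
    | one => simp
    | mul a b _ _ ha hb => exact fun x => mul_assoc x a b ▸ (ha x).trans (hb _)
    | inv a _ ha =>
      intro x
      have := (ha (x * a⁻¹)).symm
      rwa [inv_mul_cancel_right] at this
  have hconn : G.Connected := ⟨fun x y => by simpa using hreach (x⁻¹ * y) x⟩
  let lm : Γ → G ≃g G := fun k =>
    { toEquiv := Equiv.mulLeft k
      map_rel_iff' := SimpleGraph.mulCayley_adj_mul_iff_right }
  have hlm : ∀ k x, lm k x = k * x := fun _ _ => rfl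
  let r : Γ → Γ := fun x => ((x⁻¹ : Γ) : Γ ⧸ H).out
  have hr : ∀ x, x * r x ∈ H := fun x => by
    have := QuotientGroup.eq.1 (QuotientGroup.out_eq' ((x⁻¹ : Γ) : Γ ⧸ H)).symm
    rwa [inv_inv] at this
  have hrk : ∀ (k : H) x, r (k * x) = r x := fun k x => by
    have : (((k * x)⁻¹ : Γ) : Γ ⧸ H) = (x⁻¹ : Γ) := QuotientGroup.eq.2 (by simp)
    simp only [r, this]
  let f : Γ → ℝ × ℝ := fun x => ((φ ⟨x * r x, hr x⟩).toAdd.1, (φ ⟨x * r x, hr x⟩).toAdd.2)
  have hfk : ∀ (k : H) x, f (lm k x) - f x = (((φ k).toAdd.1 : ℝ), ((φ k).toAdd.2 : ℝ)) := by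
    intro k x
    have : (⟨k * x * r (k * x), hr _⟩ : H) = k * ⟨x * r x, hr x⟩ :=
      Subtype.ext (by simp [hrk, mul_assoc])
    simp only [f, hlm, this, map_mul, toAdd_mul, Prod.fst_add, Prod.snd_add, Int.cast_add,
      Prod.mk_sub_mk, add_sub_cancel_right]
  have hmem : ∀ k : H, lm k ∈ eqv G f := fun k x y => by rw [hfk, hfk]
  obtain ⟨k₁, hk₁⟩ := hφ (Multiplicative.ofAdd (1, 0))
  obtain ⟨k₂, hk₂⟩ := hφ (Multiplicative.ofAdd (0, 1))
  have : Fintype (Γ ⧸ H) := Fintype.ofFinite _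
  refine final_general G hconn (eqv G f)
    ⟨Finset.univ.image fun q : Γ ⧸ H => (q.out)⁻¹, fun x =>
      ⟨lm (⟨x * r x, hr x⟩ : H), hmem _, (r x)⁻¹,
        Finset.mem_image.2 ⟨_, Finset.mem_univ _, rfl⟩, by simp [hlm]⟩⟩ f (fun g hg => hg)
    ⟨lm k₁, hmem _, lm k₂, hmem _, 1, ?_⟩ hpc
  rw [hfk, hfk, hk₁, hk₂]
  simp

end Vale.Agent.P151
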