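import Vale.Agent.P151.Conn

/-!
The gluing inequality `P(o ↔ A, o ↮ T) ≤ max_{a ∈ A} P(a ↮ T)`.
-/

namespace Vale.Agent.P151

variable {V : Type*}

/-- weighted count of the listed points lying in `K` -/
noncomputable def ev (c : V → ℝ) : List (V × ℝ) → Set V → ℝ
  | [], _ => 0
  | a :: l, K => a.2 * c a.1 * ind (a.1 ∈ K) + ev c l K

lemma ev_empty (c : V → ℝ) (l : List (V × ℝ)) : ev c l ∅ = 0 := by
  induction l with
  | nil => rfl
  | cons a l ih => simp [ev, ih, ind]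

lemma ev_union (c : V → ℝ) (l : List (V × ℝ)) {K K' : Set V} (h : Disjoint K K') :
    ev c l (K ∪ K') = ev c l K + ev c l K' := by
  induction l with
  | nil => simp [ev]
  | cons a l ih =>
    simp only [ev, ih]
    have : ind (a.1 ∈ K ∪ K') = ind (a.1 ∈ K) + ind (a.1 ∈ K') := by
      by_cases h1 : a.1 ∈ K
      · have h2 : a.1 ∉ K' := Set.disjoint_left.1 h h1
        rw [ind_of h1, ind_of_not h2, ind_of (Set.mem_union_left _ h1)]; ring
      · rw [ind_of_not h1, zero_add]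
        exact ind_congr (by simp [h1])
    rw [this]; ring

lemma ev_const (c : V → ℝ) (l : List (V × ℝ)) {K : Set V} {γ : ℝ} (h : ∀ v ∈ K, c v = γ) :
    ev c l K = γ * ev (fun _ => 1) l K := by
  induction l with
  | nil => simp [ev]
  | cons a l ih =>
    simp only [ev, ih]
    by_cases h1 : a.1 ∈ K
    · rw [h _ h1]; ring
    · rw [ind_of_not h1]; ring

/-- monotone on the sets avoiding the deterministic cluster of `Y` -/
def Mon (H : Set (Sym2 V)) (Y : Set V) (φ : Set V → ℝ) : Prop :=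
  ∀ K K', K ⊆ K' → Disjoint K' (ClS H Y) → φ K ≤ φ K'

section
variable (E : Finset (Sym2 V)) (p : ℝ) (H : Set (Sym2 V))

noncomputable def bet (Y : Set V) (d : V) (l : List (V × ℝ)) : ℝ :=
  Ex E p (fun ω => ind (d ∉ ClS (ω ∪ H) Y) * ev (fun _ => 1) l (Cl (ω ∪ H) d)) /
    Ex E p (fun ω => ind (d ∉ ClS (ω ∪ H) Y))

noncomputable def coef (o : V) : List V → Set V → List (V × ℝ)
  | [], _ => [(o, 1)]
  | d :: L, Y => (d, - bet E p H Y d (coef o L (insert d Y))) :: coef o L (insert d Y)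

noncomputable def Qf (w : V) (φ : Set V → ℝ) (S : Set V) : ℝ :=
  Ex E p fun ζ => φ (Cl ((ζ ∪ H) \ touch S) w)

noncomputable def Zf (Y : Set V) (w : V) (φ : Set V → ℝ) (ξ : Set (Sym2 V)) : ℝ :=
  ind (w ∉ ClS ξ Y) * (φ (Cl ξ w) - Qf E p H w φ (ClS ξ Y))

noncomputable def Pf (Y : Set V) (w : V) (φ : Set V → ℝ) (K : Set V) : ℝ :=
  Ex E p fun η => Qf E p H w φ (ClS ((η ∪ H) \ touch K) Y)

lemma resample_ClS (B : Set (Sym2 V)) (Y : Set V) (F : Set V → Set (Sym2 V) → ℝ) :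
    Ex E p (fun ω => F (ClS ((ω ∪ H) \ B) Y) ((ω ∪ H) \ touch (ClS ((ω ∪ H) \ B) Y))) =
      Ex E p fun ω => Ex E p fun ζ =>
        F (ClS ((ω ∪ H) \ B) Y) ((ζ ∪ H) \ touch (ClS ((ω ∪ H) \ B) Y)) := by
  have hS : ∀ ω ω' : Set (Sym2 V), ω' ∩ touch (ClS ((ω ∪ H) \ B) Y) =
      ω ∩ touch (ClS ((ω ∪ H) \ B) Y) → ClS ((ω' ∪ H) \ B) Y = ClS ((ω ∪ H) \ B) Y := by
    intro ω ω' h
    apply ClS_eq_of_agree
    ext e
    have := Set.ext_iff.1 h e
    simp only [Set.mem_inter_iff, Set.mem_union, Set.mem_sdiff] at this ⊢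
    tauto
  rw [Ex_resample (fun ω => touch (ClS ((ω ∪ H) \ B) Y)) (fun ω ω' h => by rw [hS ω ω' h])]
  refine Ex_congr fun ω _ => Ex_congr fun ζ _ => ?_
  rw [hS ω]
  · congr 1
    ext e
    simp only [Set.mem_inter_iff, Set.mem_union, Set.mem_sdiff]
    tauto
  · ext e
    simp only [Set.mem_inter_iff, Set.mem_union, Set.mem_sdiff]
    tauto

lemma resample_ClS' (Y : Set V) (F : Set V → Set (Sym2 V) → ℝ) :
    Ex E p (fun ω => F (ClS (ω ∪ H) Y) ((ω ∪ H) \ touch (ClS (ω ∪ H) Y))) =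
      Ex E p fun ω => Ex E p fun ζ =>
        F (ClS (ω ∪ H) Y) ((ζ ∪ H) \ touch (ClS (ω ∪ H) Y)) := by
  simpa only [Set.sdiff_empty] using resample_ClS E p H ∅ Y F

lemma resample_Cl (d : V) (F : Set V → Set (Sym2 V) → ℝ) :
    Ex E p (fun ω => F (Cl (ω ∪ H) d) ((ω ∪ H) \ touch (Cl (ω ∪ H) d))) =
      Ex E p fun ω => Ex E p fun ζ =>
        F (Cl (ω ∪ H) d) ((ζ ∪ H) \ touch (Cl (ω ∪ H) d)) := by
  simpa only [ClS_singleton] using resample_ClS' E p H {d} F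

lemma Zf_eq (Y : Set V) (w : V) (φ : Set V → ℝ) (ξ : Set (Sym2 V)) :
    Zf E p H Y w φ ξ = ind (w ∉ ClS ξ Y) *
      (φ (Cl (ξ \ touch (ClS ξ Y)) w) - Qf E p H w φ (ClS ξ Y)) := by
  unfold Zf
  by_cases h : w ∈ ClS ξ Y
  · rw [ind_of_not (not_not.2 h)]; ring
  · rw [Cl_sdiff_touch (disjoint_Cl_ClS h)]

lemma Z_mul (Y : Set V) (w : V) (φ : Set V → ℝ) (F : Set V → Set (Sym2 V) → ℝ) :
    Ex E p (fun ω => Zf E p H Y w φ (ω ∪ H) *
      F (ClS (ω ∪ H) Y) ((ω ∪ H) \ touch (ClS (ω ∪ H) Y))) =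
    Ex E p fun ω => ind (w ∉ ClS (ω ∪ H) Y) * Ex E p fun ζ =>
      (φ (Cl ((ζ ∪ H) \ touch (ClS (ω ∪ H) Y)) w) - Qf E p H w φ (ClS (ω ∪ H) Y)) *
        F (ClS (ω ∪ H) Y) ((ζ ∪ H) \ touch (ClS (ω ∪ H) Y)) := by
  simp only [Zf_eq]
  rw [resample_ClS' E p H Y (fun S ξ => ind (w ∉ S) * (φ (Cl ξ w) - Qf E p H w φ S) * F S ξ)]
  refine Ex_congr fun ω _ => ?_
  rw [← Ex_mul_left]
  exact Ex_congr fun ζ _ => by ring

lemma Z_mean (Y : Set V) (w : V) (φ : Set V → ℝ) (g : Set V → ℝ) :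
    Ex E p (fun ω => Zf E p H Y w φ (ω ∪ H) * g (ClS (ω ∪ H) Y)) = 0 := by
  rw [Z_mul E p H Y w φ (fun S _ => g S), Ex_congr (G := fun _ => 0), Ex_const]
  intro ω _
  rw [Ex_mul_right, Ex_sub, Ex_const]
  unfold Qf
  ring

end

variable {E : Finset (Sym2 V)} {p : ℝ} {H : Set (Sym2 V)}

lemma mem_ClS_iff_not_disjoint {ξ : Set (Sym2 V)} {Y : Set V} {w : V} :
    w ∉ ClS ξ Y ↔ Disjoint (Cl ξ w) Y := by
  constructor
  · exact fun h => (disjoint_Cl_ClS h).mono_right subset_ClS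
  · rintro h ⟨x, hx, hc⟩
    exact Set.disjoint_left.1 h (Conn.symm hc) hx

lemma subset_ClS_sdiff {Y K : Set V} (h : Disjoint K (ClS H Y)) (η : Set (Sym2 V)) :
    ClS H Y ⊆ ClS ((η ∪ H) \ touch K) Y := by
  rw [← ClS_sdiff_touch h.symm]
  exact ClS_mono (Set.sdiff_subset_sdiff_left Set.subset_union_right) le_rfl

lemma disjoint_Cl_sdiff {Y S : Set V} {w : V} (hw : w ∉ ClS H Y) (hS : ClS H Y ⊆ S)
    (ξ : Set (Sym2 V)) : Disjoint (Cl (ξ \ touch S) w) (ClS H Y) := by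
  by_cases h : w ∈ S
  · rw [Cl_sdiff_touch_of_mem h]
    exact Set.disjoint_singleton_left.2 hw
  · exact (disjoint_Cl_sdiff_touch h).mono_right hS

lemma Qf_anti (h0 : 0 ≤ p) (h1 : p ≤ 1) {Y S S' : Set V} {w : V} {φ : Set V → ℝ}
    (hφ : Mon H Y φ) (hw : w ∉ ClS H Y) (hS : ClS H Y ⊆ S) (h : S ⊆ S') :
    Qf E p H w φ S' ≤ Qf E p H w φ S :=
  Ex_mono h0 h1 fun _ _ => hφ _ _
    (Cl_mono (Set.sdiff_subset_sdiff_right (touch_mono h))) (disjoint_Cl_sdiff hw hS _)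

lemma Qf_le (h0 : 0 ≤ p) (h1 : p ≤ 1) {Y S : Set V} {w : V} {φ : Set V → ℝ}
    (hφ : Mon H Y φ) (hw : w ∉ ClS H Y) (hS : ClS H Y ⊆ S) :
    Qf E p H w φ S ≤ φ (ClS H Y)ᶜ :=
  Ex_le_const h0 h1 fun _ _ => hφ _ _
    (Set.subset_compl_iff_disjoint_right.2 (disjoint_Cl_sdiff hw hS _)) disjoint_compl_left

lemma le_Qf (h0 : 0 ≤ p) (h1 : p ≤ 1) {Y S : Set V} {w : V} {φ : Set V → ℝ}
    (hφ : Mon H Y φ) (hw : w ∉ ClS H Y) (hS : ClS H Y ⊆ S) :
    φ ∅ ≤ Qf E p H w φ S :=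
  const_le_Ex h0 h1 fun _ _ => hφ _ _ (Set.empty_subset _) (disjoint_Cl_sdiff hw hS _)

lemma Pf_mon (h0 : 0 ≤ p) (h1 : p ≤ 1) {Y : Set V} {w : V} {φ : Set V → ℝ}
    (hφ : Mon H Y φ) (hw : w ∉ ClS H Y) : Mon H Y (Pf E p H Y w φ) := fun _ _ hK hK' =>
  Ex_mono h0 h1 fun _ _ => Qf_anti h0 h1 hφ hw (subset_ClS_sdiff hK' _)
    (ClS_mono (Set.sdiff_subset_sdiff_right (touch_mono hK)) le_rfl)

lemma Pf_osc (h0 : 0 ≤ p) (h1 : p ≤ 1) {Y : Set V} {w : V} {φ : Set V → ℝ}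
    (hφ : Mon H Y φ) (hw : w ∉ ClS H Y) :
    Pf E p H Y w φ (ClS H Y)ᶜ - Pf E p H Y w φ ∅ ≤
      (1 - (1 - p) ^ E.card) * (φ (ClS H Y)ᶜ - φ ∅) := by
  have h := Ex_ge_empty (E := E) h0 h1 (F := fun η => (φ (ClS H Y)ᶜ - φ ∅) -
    (Qf E p H w φ (ClS ((η ∪ H) \ touch (ClS H Y)ᶜ) Y) -
      Qf E p H w φ (ClS ((η ∪ H) \ touch ∅) Y))) (fun η _ => by
    have a1 := Qf_le (E := E) h0 h1 hφ hw
      (subset_ClS_sdiff (disjoint_compl_left (a := ClS H Y)) η)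
    have a2 := le_Qf (E := E) h0 h1 hφ hw
      (subset_ClS_sdiff (Set.empty_disjoint (ClS H Y)) η)
    linarith)
  rw [Ex_sub, Ex_sub (fun η => Qf E p H w φ _), Ex_const] at h
  simp only [Set.empty_union] at h
  rw [ClS_sdiff_touch disjoint_compl_right, ClS_sdiff_touch (Set.disjoint_empty _)] at h
  unfold Pf
  linarith

/-- conditional expectation given the cluster of `d` -/
lemma cond_Cl (Y : Set V) (d : V) (χ : Set V → ℝ) (F : Set (Sym2 V) → ℝ)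
    (hF : ∀ ξ, d ∉ ClS ξ Y → F ξ = F (ξ \ touch (Cl ξ d))) :
    Ex E p (fun ω => ind (d ∉ ClS (ω ∪ H) Y) * F (ω ∪ H) * χ (Cl (ω ∪ H) d)) =
      Ex E p fun ω => ind (d ∉ ClS (ω ∪ H) Y) *
        (Ex E p fun η => F ((η ∪ H) \ touch (Cl (ω ∪ H) d))) * χ (Cl (ω ∪ H) d) := by
  have e := resample_Cl E p H d (fun K ξ => ind (Disjoint K Y) * F ξ * χ K)
  simp only [Ex_mul_right, Ex_mul_left, ← mem_ClS_iff_not_disjoint] at e
  rw [← e]
  refine Ex_congr fun ω _ => ?_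
  by_cases h : d ∈ ClS (ω ∪ H) Y
  · rw [ind_of_not (not_not.2 h)]; ring
  · rw [← hF _ h]

/-- The Gibbs sampler argument. -/
lemma gibbs (h0 : 0 ≤ p) (h1 : p < 1) {Y : Set V} {w : V} (χ : Set V → ℝ)
    (hχ : Ex E p (fun ω => ind (w ∉ ClS (ω ∪ H) Y) * χ (Cl (ω ∪ H) w)) = 0)
    (hm : ∀ φ, Mon H Y φ → 0 ≤ Ex E p fun ω => Zf E p H Y w φ (ω ∪ H) * χ (Cl (ω ∪ H) w))
    (φ : Set V → ℝ) (hφ : Mon H Y φ) :
    0 ≤ Ex E p fun ω => ind (w ∉ ClS (ω ∪ H) Y) * φ (Cl (ω ∪ H) w) * χ (Cl (ω ∪ H) w) := by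
  by_cases hw : w ∈ ClS H Y
  · refine Ex_nonneg h0 h1.le fun ω _ => ?_
    rw [ind_of_not (not_not.2 (ClS_mono Set.subset_union_right le_rfl hw))]
    simp
  set M := Ex E p fun ω => |χ (Cl (ω ∪ H) w)| with hM
  set θ := 1 - (1 - p) ^ E.card with hθ
  have hM0 : 0 ≤ M := Ex_nonneg h0 h1.le fun _ _ => abs_nonneg _
  have hθ0 : 0 ≤ θ := sub_nonneg.2 (pow_le_one₀ (by linarith) (by linarith))
  have hθ1 : θ < 1 := by
    have : 0 < (1 - p) ^ E.card := pow_pos (by linarith) _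
    linarith
  have key : ∀ n : ℕ, ∀ φ, Mon H Y φ → -(θ ^ n * ((φ (ClS H Y)ᶜ - φ ∅) * M)) ≤
      Ex E p fun ω => ind (w ∉ ClS (ω ∪ H) Y) * φ (Cl (ω ∪ H) w) * χ (Cl (ω ∪ H) w) := by
    intro n
    induction n with
    | zero =>
      intro φ hφ
      have e : (Ex E p fun ω => ind (w ∉ ClS (ω ∪ H) Y) * φ (Cl (ω ∪ H) w) * χ (Cl (ω ∪ H) w)) =
          Ex E p fun ω => ind (w ∉ ClS (ω ∪ H) Y) * (φ (Cl (ω ∪ H) w) - φ ∅) *
            χ (Cl (ω ∪ H) w) := by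
        rw [← sub_zero (Ex E p fun ω => ind (w ∉ ClS (ω ∪ H) Y) * φ (Cl (ω ∪ H) w) * _),
          ← mul_zero (φ ∅), ← hχ, ← Ex_mul_left, ← Ex_sub]
        exact Ex_congr fun ω _ => by ring
      rw [e, pow_zero, one_mul, hM, ← Ex_mul_left, ← Ex_neg]
      refine Ex_mono h0 h1.le fun ω _ => ?_
      have t0 : φ ∅ ≤ φ (ClS H Y)ᶜ := hφ _ _ (Set.empty_subset _) disjoint_compl_left
      by_cases h : w ∈ ClS (ω ∪ H) Y
      · rw [ind_of_not (not_not.2 h)]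
        have := mul_nonneg (sub_nonneg.2 t0) (abs_nonneg (χ (Cl (ω ∪ H) w)))
        linarith
      · rw [ind_of h, one_mul]
        have hd : Disjoint (Cl (ω ∪ H) w) (ClS H Y) :=
          (disjoint_Cl_ClS h).mono_right (ClS_mono Set.subset_union_right le_rfl)
        have t1 : φ ∅ ≤ φ (Cl (ω ∪ H) w) := hφ _ _ (Set.empty_subset _) hd
        have t2 : φ (Cl (ω ∪ H) w) ≤ φ (ClS H Y)ᶜ :=
          hφ _ _ (Set.subset_compl_iff_disjoint_right.2 hd) disjoint_compl_left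
        have t3 := neg_abs_le (χ (Cl (ω ∪ H) w))
        have t4 := abs_nonneg (χ (Cl (ω ∪ H) w))
        nlinarith [mul_nonneg (sub_nonneg.2 t1) (sub_nonneg.2 t3),
          mul_nonneg (sub_nonneg.2 t2) t4]
    | succ n ih =>
      intro φ hφ
      have i1 := ih _ (Pf_mon (E := E) h0 h1.le hφ hw)
      have i2 := hm φ hφ
      have i3 := Pf_osc (E := E) h0 h1.le hφ hw
      have i4 := cond_Cl (E := E) (p := p) (H := H) Y w χ (fun ξ => Qf E p H w φ (ClS ξ Y))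
        (fun ξ h => by rw [ClS_sdiff_touch (disjoint_Cl_ClS h).symm])
      have e : (Ex E p fun ω => ind (w ∉ ClS (ω ∪ H) Y) * φ (Cl (ω ∪ H) w) * χ (Cl (ω ∪ H) w)) =
          (Ex E p fun ω => Zf E p H Y w φ (ω ∪ H) * χ (Cl (ω ∪ H) w)) +
          Ex E p fun ω => ind (w ∉ ClS (ω ∪ H) Y) * Pf E p H Y w φ (Cl (ω ∪ H) w) *
            χ (Cl (ω ∪ H) w) := by
        unfold Pf
        rw [← i4, ← Ex_add]
        exact Ex_congr fun ω _ => by unfold Zf; ring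
      rw [e]
      have := mul_le_mul_of_nonneg_left (mul_le_mul_of_nonneg_right i3 hM0) (pow_nonneg hθ0 n)
      rw [pow_succ]
      nlinarith
  have lim := ((tendsto_pow_atTop_nhds_zero_of_lt_one hθ0 hθ1).mul_const
    ((φ (ClS H Y)ᶜ - φ ∅) * M)).neg
  rw [zero_mul, neg_zero] at lim
  exact le_of_tendsto' lim fun n => key n φ hφ

lemma Gf_eq {Y K : Set V} {w : V} {φ : Set V → ℝ} :
    (Ex E p fun η => - Zf E p H Y w φ ((η ∪ H) \ touch K)) =
    Ex E p fun η => ind (w ∉ ClS ((η ∪ H) \ touch K) Y) *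
      (φ (Cl ((η ∪ H) \ touch (ClS ((η ∪ H) \ touch K) Y)) w) -
        φ (Cl ((η ∪ H) \ touch K) w)) := by
  have e := resample_ClS E p H (touch K) Y (fun S ξ => ind (w ∉ S) * φ (Cl ξ w))
  simp only [Ex_mul_left] at e
  simp only [mul_sub, Ex_sub, e]
  rw [← Ex_sub]
  exact Ex_congr fun ω _ => by unfold Zf Qf; ring

lemma Gf_mon (h0 : 0 ≤ p) (h1 : p ≤ 1) {Y : Set V} {w : V} {φ : Set V → ℝ} (hφ : Mon H Y φ) :
    Mon H Y fun K => Ex E p fun η => - Zf E p H Y w φ ((η ∪ H) \ touch K) := by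
  intro K K' hK hK'
  simp only [Gf_eq]
  refine Ex_mono h0 h1 fun η _ => ?_
  have hS : ClS ((η ∪ H) \ touch K') Y ⊆ ClS ((η ∪ H) \ touch K) Y :=
    ClS_mono (Set.sdiff_subset_sdiff_right (touch_mono hK)) le_rfl
  have hY' := subset_ClS_sdiff hK' η
  by_cases h' : w ∈ ClS ((η ∪ H) \ touch K') Y
  · rw [ind_of_not (not_not.2 h'), ind_of_not (not_not.2 (hS h'))]
    simp
  rw [ind_of h', one_mul]
  have d1 := (disjoint_Cl_sdiff_touch (ω := η ∪ H) h').mono_right hY'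
  by_cases h : w ∈ ClS ((η ∪ H) \ touch K) Y
  · rw [ind_of_not (not_not.2 h), zero_mul, sub_nonneg]
    refine hφ _ _ ?_ d1
    rw [← Cl_sdiff_touch (disjoint_Cl_ClS h')]
    exact Cl_mono (Set.sdiff_subset_sdiff_left Set.sdiff_subset)
  · rw [ind_of h, one_mul]
    have a1 := hφ _ _ (Cl_mono (Set.sdiff_subset_sdiff_right (touch_mono hS))) d1
    have a2 := hφ _ _ (Cl_mono (x := w) (Set.sdiff_subset_sdiff_right (touch_mono hK)))
      ((disjoint_Cl_ClS h).mono_right (hY'.trans hS))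
    linarith

lemma bet_mean (h0 : 0 ≤ p) (h1 : p < 1) (Y : Set V) (d : V) (l : List (V × ℝ)) :
    Ex E p (fun ω => ind (d ∉ ClS (ω ∪ H) Y) *
      (ev (fun _ => 1) l (Cl (ω ∪ H) d) - bet E p H Y d l)) = 0 := by
  by_cases hd : d ∈ ClS H Y
  · rw [Ex_congr (G := fun _ => 0), Ex_const]
    intro ω _
    rw [ind_of_not (not_not.2 (ClS_mono Set.subset_union_right le_rfl hd)), zero_mul]
  have h := Ex_ge_empty (E := E) h0 h1.le (F := fun ω => ind (d ∉ ClS (ω ∪ H) Y))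
    fun _ _ => ind_nonneg _
  simp only [Set.empty_union] at h
  rw [ind_of hd, mul_one] at h
  have h' := (pow_pos (by linarith : 0 < 1 - p) E.card).trans_le h
  simp only [mul_sub, Ex_sub, Ex_mul_right]
  unfold bet
  field_simp
  ring

lemma not_mem_ClS_union {ξ : Set (Sym2 V)} {Y U : Set V} {d : V} (hd : d ∉ ClS ξ Y) :
    d ∉ ClS (ξ \ touch (ClS ξ Y)) U ↔ d ∉ ClS ξ (Y ∪ U) := by
  rw [mem_ClS_iff_not_disjoint, mem_ClS_iff_not_disjoint, Cl_sdiff_touch (disjoint_Cl_ClS hd),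
    Set.disjoint_union_right]
  exact ⟨fun h => ⟨mem_ClS_iff_not_disjoint.1 hd, h⟩, fun h => h.2⟩

/-- the correlation inequality follows from the margin inequality -/
lemma csh_of_claim (h0 : 0 ≤ p) (h1 : p < 1) {Y : Set V} {w : V} (l : List (V × ℝ))
    (hm : ∀ φ, Mon H Y φ → 0 ≤ Ex E p fun ω => Zf E p H Y w φ (ω ∪ H) *
      ev (fun _ => 1) l (ClS ((ω ∪ H) \ touch (ClS (ω ∪ H) Y)) {w}))
    (φ : Set V → ℝ) (hφ : Mon H Y φ) :
    0 ≤ Ex E p fun ω => ind (w ∉ ClS (ω ∪ H) Y) * φ (Cl (ω ∪ H) w) *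
      (ev (fun _ => 1) l (Cl (ω ∪ H) w) - bet E p H Y w l) := by
  refine gibbs h0 h1 (fun K => ev (fun _ => 1) l K - bet E p H Y w l) (bet_mean h0 h1 Y w l)
    (fun φ hφ => ?_) φ hφ
  have i1 := hm φ hφ
  have i2 := Z_mean E p H Y w φ (fun _ => bet E p H Y w l)
  have i3 := sub_nonneg.2 (i2.trans_le i1)
  rw [← Ex_sub] at i3
  refine i3.trans_eq (Ex_congr fun ω _ => ?_)
  by_cases h : w ∈ ClS (ω ∪ H) Y
  · unfold Zf
    rw [ind_of_not (not_not.2 h)]; ring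
  · rw [ClS_singleton, Cl_sdiff_touch (disjoint_Cl_ClS h)]; ring

lemma claim (h0 : 0 ≤ p) (h1 : p < 1) (o : V) (L : List V) :
    ∀ (Y U : Set V) (w : V) (φ : Set V → ℝ), w ∈ U → Mon H Y φ →
      0 ≤ Ex E p fun ω => Zf E p H Y w φ (ω ∪ H) *
        ev (fun _ => 1) (coef E p H o L (Y ∪ U)) (ClS ((ω ∪ H) \ touch (ClS (ω ∪ H) Y)) U) := by
  induction L with
  | nil =>
    intro Y U w φ _ hφ
    rw [Z_mul E p H Y w φ (fun _ ξ => ev (fun _ => 1) (coef E p H o [] (Y ∪ U)) (ClS ξ U))]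
    refine Ex_nonneg h0 h1.le fun ω _ => ?_
    by_cases h : w ∈ ClS (ω ∪ H) Y
    · rw [ind_of_not (not_not.2 h), zero_mul]
    rw [ind_of h, one_mul]
    refine le_trans (le_of_eq ?_) (harris h0 h1.le ?_ ?_)
    · rw [Ex_sub, Ex_const]
      unfold Qf
      ring
    · intro ζ ζ' hζ
      refine sub_le_sub_right (hφ _ _ (Cl_mono (Set.sdiff_subset_sdiff_left
        (Set.union_subset_union_left _ hζ))) ?_) _
      exact (disjoint_Cl_sdiff_touch h).mono_right (ClS_mono Set.subset_union_right le_rfl)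
    · intro ζ ζ' hζ
      simp only [coef, ev, mul_one, one_mul, add_zero]
      exact ind_mono fun h' => ClS_mono (Set.sdiff_subset_sdiff_left
        (Set.union_subset_union_left _ hζ)) le_rfl h'
  | cons d L ih =>
    intro Y U w φ hw hφ
    set l := coef E p H o L (insert d (Y ∪ U)) with hl
    set β := bet E p H (Y ∪ U) d l with hβ
    have i1 := ih Y (insert d U) w φ (Or.inr hw) hφ
    rw [Set.union_insert, ← hl] at i1
    have i2 := Z_mean E p H Y w φ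
      (fun S => β + ind (d ∈ S) * ind (d ∉ U) * (ev (fun _ => 1) l {d} - β))
    have hG : Mon H (Y ∪ U) fun K => Ex E p fun η => - Zf E p H Y w φ ((η ∪ H) \ touch K) :=
      fun K K' hK hK' => Gf_mon h0 h1.le hφ K K' hK
        (hK'.mono_right (ClS_mono le_rfl Set.subset_union_left))
    have i3 := csh_of_claim h0 h1 l (fun φ hφ => by
      have := ih (Y ∪ U) {d} d φ rfl hφ
      rwa [Set.union_singleton, ← hl] at this) _ hG
    have i4 := cond_Cl (E := E) (p := p) (H := H) (Y ∪ U) d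
      (fun K => ev (fun _ => 1) l K - β) (fun ξ => - Zf E p H Y w φ ξ) (fun ξ h => by
        have hd := (disjoint_Cl_ClS h).symm
        unfold Zf
        rw [ClS_sdiff_touch (hd.mono_left (ClS_mono le_rfl Set.subset_union_left)),
          Cl_sdiff_touch (hd.mono_left (Cl_subset_ClS (subset_ClS (Set.mem_union_right _ hw))))])
    rw [← hβ, ← i4] at i3
    have i5 := add_nonneg (sub_nonneg.2 (i2.trans_le i1)) i3
    rw [← Ex_sub, ← Ex_add] at i5
    refine i5.trans_eq (Ex_congr fun ω _ => ?_)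
    simp only [coef, ev, ← hl, ← hβ, ClS_insert]
    set ξ := ω ∪ H
    by_cases hK : d ∈ ClS (ξ \ touch (ClS ξ Y)) U
    · rw [Set.union_eq_left.2 (Cl_subset_ClS hK), ind_of hK]
      by_cases hS : d ∈ ClS ξ Y
      · have hU : d ∈ U := by
          obtain ⟨x, hx, hc⟩ := hK
          have : x ∈ Cl (ξ \ touch (ClS ξ Y)) d := Conn.symm hc
          rw [Cl_sdiff_touch_of_mem hS] at this
          exact this ▸ hx
        rw [ind_of_not (not_not.2 hU),
          ind_of_not (not_not.2 (ClS_mono le_rfl Set.subset_union_left hS))]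
        ring
      · rw [ind_of_not hS, ind_of_not (mt (not_mem_ClS_union hS).2 (not_not.2 hK))]
        ring
    · rw [ev_union _ _ (disjoint_Cl_ClS hK).symm, ind_of_not hK]
      by_cases hS : d ∈ ClS ξ Y
      · rw [ind_of hS, ind_of (fun h => hK (subset_ClS h)), Cl_sdiff_touch_of_mem hS,
          ind_of_not (not_not.2 (ClS_mono le_rfl Set.subset_union_left hS))]
        ring
      · rw [ind_of_not hS, ind_of ((not_mem_ClS_union hS).1 hK),
          Cl_sdiff_touch (disjoint_Cl_ClS hS)]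
        ring

lemma csh (h0 : 0 ≤ p) (h1 : p < 1) (o : V) (L : List V) (Y : Set V) (d : V) (φ : Set V → ℝ)
    (hφ : Mon H Y φ) :
    0 ≤ Ex E p fun ω => ind (d ∉ ClS (ω ∪ H) Y) * φ (Cl (ω ∪ H) d) *
      (ev (fun _ => 1) (coef E p H o L (insert d Y)) (Cl (ω ∪ H) d) -
        bet E p H Y d (coef E p H o L (insert d Y))) :=
  csh_of_claim h0 h1 _ (fun φ hφ => by
    have := claim (E := E) h0 h1 o L Y {d} d φ rfl hφ
    rwa [Set.union_singleton] at this) φ hφ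

lemma bet_of_mem {Y : Set V} {d : V} (hd : d ∈ ClS H Y) (l : List (V × ℝ)) :
    bet E p H Y d l = 0 := by
  unfold bet
  rw [Ex_congr (F := fun ω => ind (d ∉ ClS (ω ∪ H) Y)) (G := fun _ => 0), Ex_const, div_zero]
  intro ω _
  exact ind_of_not (not_not.2 (ClS_mono Set.subset_union_right le_rfl hd))

lemma ev_coef_nonneg (o : V) (L : List V) {K : Set V} :
    ∀ Y : Set V, K ⊆ ClS H Y → 0 ≤ ev (fun _ => 1) (coef E p H o L Y) K := by
  induction L with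
  | nil => intro Y _; simpa [coef, ev] using ind_nonneg _
  | cons d L ih =>
    intro Y hY
    have := ih (insert d Y) (hY.trans (ClS_mono le_rfl (Set.subset_insert _ _)))
    simp only [coef, ev]
    by_cases hd : d ∈ K
    · rw [bet_of_mem (hY hd)]; linarith
    · rw [ind_of_not hd]; linarith

lemma bet_nonneg (h0 : 0 ≤ p) (h1 : p < 1) (o : V) (L : List V) (Y : Set V) (d : V) :
    0 ≤ bet E p H Y d (coef E p H o L (insert d Y)) := by
  by_cases hd : d ∈ ClS H Y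
  · rw [bet_of_mem hd]
  have i1 := csh (E := E) (H := H) h0 h1 o L Y d (fun K => - ind (K ⊆ Cl H d))
    (fun K K' hK _ => neg_le_neg (ind_mono hK.trans))
  have i2 := Ex_ge_empty (E := E) h0 h1.le
    (F := fun ω => ind (d ∉ ClS (ω ∪ H) Y) * ind (Cl (ω ∪ H) d ⊆ Cl H d))
    fun _ _ => mul_nonneg (ind_nonneg _) (ind_nonneg _)
  simp only [Set.empty_union] at i2
  rw [ind_of hd, ind_of le_rfl, mul_one, mul_one] at i2
  have i3 := (pow_pos (by linarith : 0 < 1 - p) E.card).trans_le i2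
  refine nonneg_of_mul_nonneg_right (i1.trans ?_) i3
  rw [← Ex_mul_right]
  refine Ex_mono h0 h1.le fun ω _ => ?_
  by_cases h : Cl (ω ∪ H) d ⊆ Cl H d
  · have := ev_coef_nonneg (E := E) (p := p) o L (insert d Y)
      (h.trans (Cl_subset_ClS (subset_ClS (Set.mem_insert _ _))))
    rw [ind_of h]
    nlinarith [mul_nonneg (ind_nonneg (d ∉ ClS (ω ∪ H) Y)) this]
  · rw [ind_of_not h]; simp

lemma glue_list (h0 : 0 ≤ p) (h1 : p < 1) (o : V) (g : Set V → ℝ) (hg : Antitone g)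
    (L : List V) (hL : ∀ a ∈ L, Ex E p (fun ω => g (Cl (ω ∪ H) a)) ≤ 0) :
    ∀ Y : Set V, Ex E p (fun ω => g (Cl (ω ∪ H) o) * ind (o ∈ ClS (ω ∪ H) (Y ∪ {a | a ∈ L}))) ≤
      Ex E p fun ω => ev (fun v => g (Cl (ω ∪ H) v)) (coef E p H o L Y) (ClS (ω ∪ H) Y) := by
  induction L with
  | nil => intro Y; simp [coef, ev]
  | cons d L ih =>
    intro Y
    have i1 := ih (fun a ha => hL a (List.mem_cons_of_mem _ ha)) (insert d Y)
    have e : Y ∪ {a | a ∈ d :: L} = insert d Y ∪ {a | a ∈ L} := by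
      ext a; simp only [List.mem_cons, Set.mem_union, Set.mem_ofPred_eq, Set.mem_insert_iff]; tauto
    have i2 := csh (E := E) (H := H) h0 h1 o L Y d (fun K => - g K)
      (fun K K' hK _ => neg_le_neg (hg hK))
    have i3 := mul_nonpos_of_nonneg_of_nonpos (bet_nonneg (E := E) (H := H) h0 h1 o L Y d)
      (hL d List.mem_cons_self)
    rw [e]
    refine i1.trans ((le_add_of_nonneg_right (sub_nonneg.2 (i3.trans i2))).trans_eq ?_)
    rw [← Ex_mul_left, ← Ex_sub, ← Ex_add]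
    refine Ex_congr fun ω _ => ?_
    simp only [coef, ev, ClS_insert]
    by_cases hd : d ∈ ClS (ω ∪ H) Y
    · rw [Set.union_eq_left.2 (Cl_subset_ClS hd), ind_of hd, ind_of_not (not_not.2 hd)]
      ring
    · rw [ev_union _ _ (disjoint_Cl_ClS hd).symm, ind_of hd, ind_of_not hd,
        ev_const _ _ (K := Cl (ω ∪ H) d) (γ := g (Cl (ω ∪ H) d))
          (fun v hv => by rw [Cl_eq_of_mem hv])]
      ring

/-- The gluing inequality. -/
theorem gluing (h0 : 0 ≤ p) (h1 : p < 1) (hH : H.Finite) (o : V) (A T : Set V) {η : ℝ}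
    (hη : 0 ≤ η) (hA : ∀ a ∈ A, Pr E p (fun ω => ¬ Link (ω ∪ H) {a} T) ≤ η) :
    Pr E p (fun ω => Link (ω ∪ H) {o} A ∧ ¬ Link (ω ∪ H) {o} T) ≤ η := by
  have hfin : (Cl ((E : Set (Sym2 V)) ∪ H) o).Finite := by
    have h2 : (⋃ e ∈ (E : Set (Sym2 V)) ∪ H, {v | v ∈ e}).Finite :=
      (E.finite_toSet.union hH).biUnion fun e _ => by
        induction e with
        | h a b => exact (Set.toFinite {a, b}).subset fun v hv => by simpa using hv
    refine (h2.insert o).subset fun y hy => ?_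
    induction hy with
    | refl => exact Or.inl rfl
    | tail _ h _ => exact Or.inr (Set.mem_biUnion h (Sym2.mem_mk_right _ _))
  have hiff : ∀ (ξ : Set (Sym2 V)) (a : V), Disjoint (Cl ξ a) T ↔ ¬ Link ξ {a} T := by
    intro ξ a
    rw [link_singleton, Set.disjoint_left]
    exact ⟨fun h ⟨y, hy, hc⟩ => h hc hy, fun h y hc hy => h ⟨y, hy, hc⟩⟩
  have h := glue_list (E := E) (H := H) h0 h1 o (fun K => ind (Disjoint K T) - η)
    (fun K K' hK => sub_le_sub_right (ind_mono fun h => h.mono_left hK) _)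
    (hfin.inter_of_right A).toFinset.toList (fun a ha => by
      simp only [Finset.mem_toList, Set.Finite.mem_toFinset] at ha
      simp only [hiff, Ex_sub, Ex_const]
      exact sub_nonpos.2 (hA a ha.1)) ∅
  simp only [ClS_empty, ev_empty, Ex_const, Set.empty_union, Finset.mem_toList,
    Set.Finite.mem_toFinset, hiff] at h
  have h' := add_le_add h (le_refl η)
  rw [zero_add, ← Ex_const (E := E) (p := p) η, ← Ex_add, Ex_const] at h'
  refine le_trans (Ex_mono h0 h1.le fun ω hω => ?_) h'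
  by_cases hc : Link (ω ∪ H) {o} A ∧ ¬ Link (ω ∪ H) {o} T
  · obtain ⟨a, ha, hoa⟩ := link_singleton.1 hc.1
    have : o ∈ ClS (ω ∪ H) {a | a ∈ A ∩ Cl ((E : Set (Sym2 V)) ∪ H) o} :=
      ⟨a, ⟨ha, hoa.mono (Set.union_subset_union_left _ hω)⟩, hoa.symm⟩
    rw [ind_of hc, ind_of hc.2, ind_of this]
    linarith
  · rw [ind_of_not hc]
    nlinarith [ind_nonneg (¬ Link (ω ∪ H) {o} T), ind_le_one (o ∈ ClS (ω ∪ H)
      {a | a ∈ A ∩ Cl ((E : Set (Sym2 V)) ∪ H) o}), ind_nonneg (o ∈ ClS (ω ∪ H)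
      {a | a ∈ A ∩ Cl ((E : Set (Sym2 V)) ∪ H) o})]

end Vale.Agent.P151
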