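import Vale.Agent.P151.ZeroOne

/-!
Two linearly independent likely moves (after Martineau and Tassion).
-/

namespace Vale.Agent.P151

variable {V : Type*} {G : SimpleGraph V} {Δ : ℕ} {p : ℝ} {E : Finset (Sym2 V)}
  {S W T W₁ T₁ W₂ T₂ : Set V}

/-- `S` is joined to `T` inside `W` except with probability `δ` -/
def Gd (E : Finset (Sym2 V)) (p : ℝ) (S W T : Set V) (δ : ℝ) : Prop :=
  Pr E p (fun ω => ¬ Link (ω ∩ inside W) S T) ≤ δ

lemma Link.inter_inside {ω : Set (Sym2 V)} (hS : S ⊆ W) (h : Link (ω ∩ inside W) S T) :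
    Link (ω ∩ inside W) S (T ∩ W) := by
  obtain ⟨x, hx, y, hy, hc⟩ := h
  exact ⟨x, hx, y, ⟨hy, hc.mem_of_inside (hS hx)⟩, hc⟩

lemma Link.stay_or_exit {ω : Set (Sym2 V)} (h : Link ω S T) :
    Link (ω ∩ inside W) S T ∨ Link ω S Wᶜ := by
  obtain ⟨x, hx, y, hy, hc⟩ := h
  by_cases h : Link ω S Wᶜ
  · exact Or.inr h
  · refine Or.inl ⟨x, hx, y, hy, hc.of_subset fun a b ha hb hab => ⟨hab, mem_inside_iff.2 ?_⟩⟩
    exact ⟨not_not.1 fun h' => h ⟨x, hx, a, h', ha⟩, not_not.1 fun h' => h ⟨x, hx, b, h', hb⟩⟩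

lemma Gd.mono (h0 : 0 ≤ p) (h1 : p ≤ 1) {δ δ' : ℝ} (h : Gd E p S W T δ) (hS : S ⊆ W)
    (hW : W ⊆ W₁) (hT : ∀ v ∈ W, v ∈ T → v ∈ T₁) (hδ : δ ≤ δ') : Gd E p S W₁ T₁ δ' :=
  le_trans (Pr_mono h0 h1 fun _ _ hn h' => hn ((Link.inter_inside hS h').mono
    (Set.inter_subset_inter_right _ (inside_mono hW)) le_rfl fun v hv => hT v hv.2 hv.1))
    (le_trans h hδ)

lemma Gd.or (h0 : 0 ≤ p) (h1 : p ≤ 1) {a b : ℝ} (ha : 0 ≤ a) (hb : 0 ≤ b)
    (h : Gd E p S W T (a * b)) (hi : ∀ ω : Set (Sym2 V), ω ⊆ E → Link (ω ∩ inside W) S T →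
      Link (ω ∩ inside W₁) S T₁ ∨ Link (ω ∩ inside W₂) S T₂) :
    Gd E p S W₁ T₁ a ∨ Gd E p S W₂ T₂ b := by
  by_contra hc
  unfold Gd at hc h
  push Not at hc
  have i1 := Pr_harris_not (E := E) h0 h1 (A := fun ω => Link (ω ∩ inside W₁) S T₁)
    (B := fun ω => Link (ω ∩ inside W₂) S T₂)
    (fun _ _ h h' => h'.mono (Set.inter_subset_inter_left _ h) le_rfl le_rfl)
    (fun _ _ h h' => h'.mono (Set.inter_subset_inter_left _ h) le_rfl le_rfl)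
  have i2 := i1.trans ((Pr_mono h0 h1 fun ω hω hn h' => (hi ω hω h').elim hn.1 hn.2).trans h)
  linarith [mul_lt_mul'' hc.1 hc.2 ha hb]

lemma Gd.or' (h0 : 0 ≤ p) (h1 : p ≤ 1) {a b : ℝ} (ha : 0 ≤ a) (hb : 0 ≤ b)
    (h : Gd E p S W T (a * b)) (hT : T ⊆ T₁ ∪ T₂) : Gd E p S W T₁ a ∨ Gd E p S W T₂ b :=
  h.or h0 h1 ha hb fun _ _ h' => link_union_right.1 (h'.mono le_rfl le_rfl hT)

lemma Gd.split (h0 : 0 ≤ p) (h1 : p ≤ 1) {δ : ℝ} (hδ : 0 < δ) (h : Gd E p S W T (δ ^ 1001))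
    (hS : S ⊆ W) (f : V → ℝ) (hf : ∀ v ∈ W, v ∈ T → -(1 / 1000) ≤ f v ∧ f v ≤ 1) :
    ∃ x : ℝ, 0 ≤ x ∧ x ≤ 1 ∧ Gd E p S W (T ∩ {v | |f v - x| ≤ 1 / 1000}) δ := by
  obtain ⟨i, hi, h⟩ := root_trick (E := E) h0 h1 (Finset.range 1001) (by simp)
    (fun i ω => Link (ω ∩ inside W) S (T ∩ {v | |f v - i / 1000| ≤ 1 / 1000}))
    (fun _ _ _ h h' => h'.mono (Set.inter_subset_inter_left _ h) le_rfl le_rfl) hδ (by
      rw [Finset.card_range]
      refine le_trans (Pr_mono h0 h1 ?_) h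
      intro ω _ hn h'
      apply hn
      obtain ⟨x, hx, y, hy, hc⟩ := h'.inter_inside hS
      obtain ⟨a1, a2⟩ := hf y hy.2 hy.1
      refine ⟨⌊f y * 1000⌋₊, ?_, x, hx, y, ⟨hy.1, ?_⟩, hc⟩
      · rw [Finset.mem_range, Nat.floor_lt' (by norm_num)]
        push_cast; linarith
      · rw [Set.mem_ofPred_eq, abs_le]
        by_cases hy0 : 0 ≤ f y
        · have b1 := Nat.floor_le (show 0 ≤ f y * 1000 by positivity)
          have b2 := Nat.lt_floor_add_one (f y * 1000)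
          constructor <;> linarith
        · rw [Nat.floor_of_nonpos (by linarith), Nat.cast_zero]
          constructor <;> linarith)
  refine ⟨i / 1000, by positivity, ?_, h⟩
  have : (i : ℝ) ≤ 1000 := by exact_mod_cast Nat.lt_succ_iff.1 (Finset.mem_range.1 hi)
  linarith

/-- linear combination of `X` and `Y` -/
def Lin (X Y f : V → ℝ) : Prop := ∃ a b : ℝ, ∀ v, f v = a * X v + b * Y v

lemma Lin.trans {X Y x y f : V → ℝ} (hx : Lin X Y x) (hy : Lin X Y y) (hf : Lin x y f) :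
    Lin X Y f := by
  obtain ⟨a, b, hx⟩ := hx
  obtain ⟨c, d, hy⟩ := hy
  obtain ⟨e, g, hf⟩ := hf
  exact ⟨e * a + g * c, e * b + g * d, fun v => by rw [hf, hx, hy]; ring⟩

lemma Lip.comb {x y : V → ℝ} {κ : ℝ} (hx : Lip G κ x) (hy : Lip G κ y) (a b : ℝ) {c : ℝ}
    (hc : (|a| + |b|) * κ ≤ c) : Lip G c fun v => a * x v + b * y v := by
  intro u v h
  have e : a * x v + b * y v - (a * x u + b * y u) = a * (x v - x u) + b * (y v - y u) := by ring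
  rw [e]
  refine (abs_add_le _ _).trans ?_
  rw [abs_mul, abs_mul]
  linarith [mul_le_mul_of_nonneg_left (hx u v h) (abs_nonneg a),
    mul_le_mul_of_nonneg_left (hy u v h) (abs_nonneg b)]

/-- the two moves from the origin -/
def Two (G : SimpleGraph V) (E : Finset (Sym2 V)) (p : ℝ) (S : Set V) (δ κ : ℝ)
    (X Y : V → ℝ) : Prop :=
  ∃ α β : V → ℝ, Lin X Y α ∧ Lin X Y β ∧ Lip G κ α ∧ Lip G κ β ∧
    Gd E p S {v | |α v| ≤ 2 ∧ |β v| ≤ 2} {v | |α v - 1| ≤ 1 / 200 ∧ |β v| ≤ 1 / 200} δ ∧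
    Gd E p S {v | |β v| ≤ 2 ∧ |α v| ≤ 2} {v | |β v - 1| ≤ 1 / 200 ∧ |α v| ≤ 1 / 200} δ

lemma Two.trans {δ κ : ℝ} {X Y x y : V → ℝ} (hx : Lin X Y x) (hy : Lin X Y y)
    (h : Two G E p S δ κ x y) : Two G E p S δ κ X Y := by
  obtain ⟨α, β, a1, a2, h⟩ := h
  exact ⟨α, β, hx.trans hy a1, hx.trans hy a2, h⟩

lemma abs_comb {d u v s c : ℝ} (hd : 1 ≤ d) (hs : |s| ≤ 1) (hu : |u| ≤ c) (hv : |v| ≤ c) :
    |(u - s * v) / d| ≤ 2 * c := by
  rw [abs_div, abs_of_pos (by linarith : 0 < d), div_le_iff₀ (by linarith)]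
  have h1 := abs_sub u (s * v)
  rw [abs_mul] at h1
  have hc : 0 ≤ c := (abs_nonneg u).trans hu
  nlinarith [mul_le_mul hs hv (abs_nonneg v) zero_le_one]

lemma stage4 (h0 : 0 ≤ p) (h1 : p ≤ 1) {δ κ : ℝ} {x y : V → ℝ} (hκ : 0 ≤ κ) (hx : Lip G κ x)
    (hy : Lip G κ y) (hS : S ⊆ {v | |x v| ≤ 1 ∧ |y v| ≤ 1}) {a b : ℝ} (ha : |a| ≤ 1)
    (hb : |b| ≤ 1) (hab : a * b ≤ 0)
    (g1 : Gd E p S {v | |x v| ≤ 1 ∧ |y v| ≤ 1} {v | |x v - 1| ≤ 1 / 400 ∧ |y v - b| ≤ 1 / 400} δ)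
    (g2 : Gd E p S {v | |x v| ≤ 1 ∧ |y v| ≤ 1} {v | |x v - a| ≤ 1 / 400 ∧ |y v - 1| ≤ 1 / 400} δ) :
    Two G E p S δ (2 * κ) x y := by
  set d := 1 - a * b with hd
  have hd1 : 1 ≤ d := by linarith
  have hd0 : d ≠ 0 := by positivity
  have hl : ∀ s : ℝ, |s| ≤ 1 → (|1 / d| + |-s / d|) * κ ≤ 2 * κ := by
    intro s hs
    refine mul_le_mul_of_nonneg_right ?_ hκ
    rw [abs_div, abs_div, abs_neg, abs_one, abs_of_pos (by linarith : 0 < d), ← add_div,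
      div_le_iff₀ (by linarith)]
    linarith
  have e1 : ∀ v, 1 / d * x v + -a / d * y v = (x v - a * y v) / d := fun v => by ring
  have e2 : ∀ v, 1 / d * y v + -b / d * x v = (y v - b * x v) / d := fun v => by ring
  refine ⟨fun v => 1 / d * x v + -a / d * y v, fun v => 1 / d * y v + -b / d * x v,
    ⟨_, _, fun _ => rfl⟩, ⟨_, _, fun _ => add_comm _ _⟩, hx.comb hy _ _ (hl a ha),
    hy.comb hx _ _ (hl b hb), g1.mono h0 h1 hS (fun v hv => ?_) (fun v _ hv => ?_) le_rfl,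
    g2.mono h0 h1 hS (fun v hv => ?_) (fun v _ hv => ?_) le_rfl⟩ <;>
    simp only [Set.mem_ofPred_eq, e1, e2]
  · exact ⟨by simpa using abs_comb hd1 ha hv.1 hv.2, by simpa using abs_comb hd1 hb hv.2 hv.1⟩
  · have c1 : (x v - a * y v) / d - 1 = (x v - 1 - a * (y v - b)) / d := by
      field_simp; rw [hd]; ring
    have c2 : y v - b * x v = y v - b - b * (x v - 1) := by ring
    rw [c1, c2]
    exact ⟨(abs_comb hd1 ha hv.1 hv.2).trans (by norm_num),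
      (abs_comb hd1 hb hv.2 hv.1).trans (by norm_num)⟩
  · exact ⟨by simpa using abs_comb hd1 hb hv.2 hv.1, by simpa using abs_comb hd1 ha hv.1 hv.2⟩
  · have c1 : (y v - b * x v) / d - 1 = (y v - 1 - b * (x v - a)) / d := by
      field_simp; rw [hd]; ring
    have c2 : x v - a * y v = x v - a - a * (y v - 1) := by ring
    rw [c1, c2]
    exact ⟨(abs_comb hd1 hb hv.2 hv.1).trans (by norm_num),
      (abs_comb hd1 ha hv.1 hv.2).trans (by norm_num)⟩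

lemma stage3 (h0 : 0 ≤ p) (h1 : p ≤ 1) {δ κ : ℝ} (hδ : 0 < δ) {x y : V → ℝ} (hκ : 0 ≤ κ)
    (hx : Lip G κ x) (hy : Lip G κ y) (hS : S ⊆ {v | |x v| ≤ 1 ∧ |y v| ≤ 1})
    (gL : Gd E p S {v | |x v| ≤ 1 ∧ |y v| ≤ 1} {v | 999 / 1000 ≤ y v ∧ x v ≤ 1 / 1000}
      (δ ^ 1001))
    (gR : Gd E p S {v | |x v| ≤ 1 ∧ |y v| ≤ 1} {v | 999 / 1000 ≤ y v ∧ -x v ≤ 1 / 1000}
      (δ ^ 1001))
    (gS : Gd E p S {v | |x v| ≤ 1 ∧ |y v| ≤ 1} {v | 999 / 1000 ≤ x v} (δ ^ 1001)) :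
    Two G E p S δ (2 * κ) x y := by
  obtain ⟨b, b0, b1, g1⟩ := gS.split h0 h1 hδ hS (fun v => (y v + 1) / 2) fun v hv _ => by
    have := abs_le.1 hv.2
    constructor <;> linarith
  have g1' : Gd E p S {v | |x v| ≤ 1 ∧ |y v| ≤ 1}
      {v | |x v - 1| ≤ 1 / 400 ∧ |y v - (2 * b - 1)| ≤ 1 / 400} δ := by
    refine g1.mono h0 h1 hS le_rfl (fun v hv hv' => ?_) le_rfl
    have c1 := abs_le.1 hv.1
    have c2 : 999 / 1000 ≤ x v := hv'.1
    have c3 := abs_le.1 (show |(y v + 1) / 2 - b| ≤ 1 / 1000 from hv'.2)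
    exact ⟨abs_le.2 ⟨by linarith, by linarith⟩, abs_le.2 ⟨by linarith, by linarith⟩⟩
  have hb : |2 * b - 1| ≤ 1 := abs_le.2 ⟨by linarith, by linarith⟩
  by_cases hs : 0 ≤ 2 * b - 1
  · obtain ⟨a, a0, a1, g2⟩ := gL.split h0 h1 hδ hS (fun v => -x v) fun v hv hv' => by
      have := abs_le.1 hv.1
      have := hv'.2
      constructor <;> linarith
    refine stage4 h0 h1 hκ hx hy hS (a := -a) (abs_le.2 ⟨by linarith, by linarith⟩) hb
      (by nlinarith) g1' (g2.mono h0 h1 hS le_rfl (fun v hv hv' => ?_) le_rfl)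
    have c1 := abs_le.1 hv.2
    have c2 := hv'.1.1
    have c3 := abs_le.1 (show |-x v - a| ≤ 1 / 1000 from hv'.2)
    exact ⟨abs_le.2 ⟨by linarith, by linarith⟩, abs_le.2 ⟨by linarith, by linarith⟩⟩
  · obtain ⟨a, a0, a1, g2⟩ := gR.split h0 h1 hδ hS x fun v hv hv' => by
      have := abs_le.1 hv.1
      have := hv'.2
      constructor <;> linarith
    refine stage4 h0 h1 hκ hx hy hS (a := a) (abs_le.2 ⟨by linarith, by linarith⟩) hb
      (by nlinarith) g1' (g2.mono h0 h1 hS le_rfl (fun v hv hv' => ?_) le_rfl)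
    have c1 := abs_le.1 hv.2
    have c2 := hv'.1.1
    have c3 := abs_le.1 (show |x v - a| ≤ 1 / 1000 from hv'.2)
    exact ⟨abs_le.2 ⟨by linarith, by linarith⟩, abs_le.2 ⟨by linarith, by linarith⟩⟩

lemma stage3' (h0 : 0 ≤ p) (h1 : p ≤ 1) {δ κ : ℝ} (hδ : 0 < δ) {x y : V → ℝ} (hκ : 0 ≤ κ)
    (hx : Lip G κ x) (hy : Lip G κ y) (hS : S ⊆ {v | |x v| ≤ 1 ∧ |y v| ≤ 1})
    (gL : Gd E p S {v | |x v| ≤ 1 ∧ |y v| ≤ 1} {v | 999 / 1000 ≤ y v ∧ x v ≤ 1 / 1000}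
      (δ ^ 1001))
    (gR : Gd E p S {v | |x v| ≤ 1 ∧ |y v| ≤ 1} {v | 999 / 1000 ≤ y v ∧ -x v ≤ 1 / 1000}
      (δ ^ 1001))
    (gS : Gd E p S {v | |x v| ≤ 1 ∧ |y v| ≤ 1} {v | 999 / 1000 ≤ |x v|} (δ ^ 1001 * δ ^ 1001)) :
    Two G E p S δ (2 * κ) x y := by
  rcases gS.or' h0 h1 (by positivity) (by positivity) (T₁ := {v | 999 / 1000 ≤ x v})
    (T₂ := {v | 999 / 1000 ≤ -x v}) (fun v (hv : 999 / 1000 ≤ |x v|) => le_abs.1 hv) with g | g
  · exact stage3 h0 h1 hδ hκ hx hy hS gL gR g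
  · refine Two.trans (x := fun v => -x v) (y := y) ⟨-1, 0, fun v => by ring⟩
      ⟨0, 1, fun v => by ring⟩ (stage3 h0 h1 hδ hκ (fun a b h => ?_) hy ?_ ?_ ?_ ?_)
    · rw [← abs_neg]; convert hx a b h using 2; ring
    all_goals simp only [abs_neg, neg_neg]; assumption

lemma exists_far_point {D : ℕ} {f : V → ℝ} {g c L : ℝ} (hg : c ≤ |g|) {N : ℕ} (hN : 2 * L < N * c)
    (h : ∀ a, ∃ b ∈ Nb G D {a}, f b = f a + g) (a : V) :
    ∃ b ∈ {v | L < |f v|}, b ∈ Nb G (N * D) {a} := by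
  by_cases ha : L < |f a|
  · exact ⟨a, ha, subset_Nb rfl⟩
  obtain ⟨b, hb, hf⟩ := exists_iter h N a
  refine ⟨b, ?_, hb⟩
  have h1 := abs_sub_abs_le_abs_sub (N * g) (-f a)
  rw [abs_mul, abs_neg, Nat.abs_cast, sub_neg_eq_add, add_comm, ← hf] at h1
  have := mul_le_mul_of_nonneg_left hg (Nat.cast_nonneg (α := ℝ) N)
  change L < |f b|
  linarith

lemma lip_abs {f : V → ℝ} (hf : Lip G 1 f) {L : ℝ} :
    ∀ a ∈ {v | |f v| ≤ L - 1}, a ∈ {v | |f v| ≤ L} ∧ ∀ b, G.Adj a b → b ∈ {v | |f v| ≤ L} := by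
  intro a (ha : |f a| ≤ L - 1)
  refine ⟨show |f a| ≤ L by linarith, fun b hb => show |f b| ≤ L from ?_⟩
  linarith [hf a b hb, abs_sub_abs_le_abs_sub (f b) (f a)]

lemma abs_le_of_mem {f : V → ℝ} (hf : Lip G 1 f) {o v : V} (ho : f o = 0) {n : ℕ}
    (hv : v ∈ Nb G n {o}) : |f v| ≤ n := by
  simpa [ho] using abs_sub_le_of_mem_Nb zero_le_one hf hv

lemma stage2 (hG : DegLe G Δ) (h0 : 0 < p) (h1 : p ≤ 1) {δ : ℝ} (hδ : 0 < δ) (hδ1 : δ ≤ 1 / 2)
    {o : V} {τ Y : V → ℝ} (hτ : Lip G 1 τ) (hY : Lip G 1 Y) (hτo : τ o = 0) (hYo : Y o = 0)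
    {r K h D m R : ℕ} (hK : 1000 ≤ K) (hrK : r + 1 ≤ K) (hKh : K ≤ h) (hrR : r ≤ R)
    (hm : 0 < m) (hm' : 1 / m ≤ p ^ ((Δ + 1) ^ D * Δ) * ((δ ^ 1001) ^ 2 / 2))
    (hh : r + (2 * D + 1) * m + 1 ≤ h) (hD : ∀ a, ∃ b ∈ {v | (K : ℝ) - 1 < |τ v|}, b ∈ Nb G D {a})
    (gL : Gd (EB G (R + D) o) p (Nb G r {o}) ({v | |Y v| ≤ h} ∩ Nb G R {o})
      {v | (h : ℝ) - 1 < Y v ∧ τ v ≤ 1} ((δ ^ 1001) ^ 3))
    (gR : Gd (EB G (R + D) o) p (Nb G r {o}) ({v | |Y v| ≤ h} ∩ Nb G R {o})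
      {v | (h : ℝ) - 1 < Y v ∧ -τ v ≤ 1} ((δ ^ 1001) ^ 3)) :
    Two G (EB G (R + D) o) p (Nb G r {o}) δ (2 * (1 / K)) τ Y := by
  classical
  set γ := δ ^ 1001 with hγ
  have hγ0 : 0 < γ := by positivity
  have hγ1 : γ ≤ 1 / 2 := (pow_le_of_le_one hδ.le (by linarith) (by norm_num)).trans hδ1
  have hγ3 : γ ^ 3 ≤ γ := pow_le_of_le_one hγ0.le (by linarith) (by norm_num)
  set E := EB G (R + D) o with hE
  have hEG : (E : Set (Sym2 V)) ⊆ G.edgeSet := EB_subset_edgeSet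
  set S := Nb G r {o} with hS
  set W := {v | |Y v| ≤ h} ∩ Nb G R {o} with hW
  have hK' : (1000 : ℝ) ≤ K := by exact_mod_cast hK
  have hrK' : (r : ℝ) + 1 ≤ K := by exact_mod_cast hrK
  have hKh' : (K : ℝ) ≤ h := by exact_mod_cast hKh
  have hSτ : ∀ v ∈ S, |τ v| ≤ r := fun v hv => abs_le_of_mem hτ hτo hv
  have hSY : ∀ v ∈ S, |Y v| ≤ r := fun v hv => abs_le_of_mem hY hYo hv
  have hSW : S ⊆ W := fun v hv => ⟨show |Y v| ≤ h by linarith [hSY v hv], Nb_mono_left hrR hv⟩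
  have hex : ∃ j : ℕ, Gd E p S (W ∩ {v | |τ v| ≤ K + j}) {v | (h : ℝ) - 1 < Y v ∧ τ v ≤ 1} γ ∧
      Gd E p S (W ∩ {v | |τ v| ≤ K + j}) {v | (h : ℝ) - 1 < Y v ∧ -τ v ≤ 1} γ := by
    have : W ⊆ W ∩ {v | |τ v| ≤ K + R} := fun v hv =>
      ⟨hv, show |τ v| ≤ K + R by linarith [abs_le_of_mem hτ hτo hv.2]⟩
    exact ⟨R, gL.mono h0.le h1 hSW this (fun _ _ h => h) hγ3,
      gR.mono h0.le h1 hSW this (fun _ _ h => h) hγ3⟩
  obtain ⟨j, ⟨g1, g2⟩, hj⟩ : ∃ j : ℕ,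
      (Gd E p S (W ∩ {v | |τ v| ≤ K + j}) {v | (h : ℝ) - 1 < Y v ∧ τ v ≤ 1} γ ∧
      Gd E p S (W ∩ {v | |τ v| ≤ K + j}) {v | (h : ℝ) - 1 < Y v ∧ -τ v ≤ 1} γ) ∧
      ∀ i < j, ¬ (Gd E p S (W ∩ {v | |τ v| ≤ K + i}) {v | (h : ℝ) - 1 < Y v ∧ τ v ≤ 1} γ ∧
      Gd E p S (W ∩ {v | |τ v| ≤ K + i}) {v | (h : ℝ) - 1 < Y v ∧ -τ v ≤ 1} γ) :=
    ⟨Nat.find hex, Nat.find_spec hex, fun i hi => Nat.find_min hex hi⟩
  have hj0 : (0 : ℝ) ≤ j := Nat.cast_nonneg j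
  have hexit : ∀ ω : Set (Sym2 V), ω ⊆ E →
      Link (ω ∩ inside {v | |Y v| ≤ h}) S {v | |τ v| ≤ K + j - 1}ᶜ →
      Link (ω ∩ inside ({v | |Y v| ≤ h} ∩ {v | |τ v| ≤ K + j})) S
        {v | (K : ℝ) + j - 1 < |τ v|} := by
    intro ω hω hl
    have := hl.exit (Set.inter_subset_left.trans (hω.trans hEG)) disjoint_compl_left
      (fun v hv => show |τ v| ≤ K + j - 1 by linarith [hSτ v hv]) (lip_abs hτ)
    rw [inside_inter, ← Set.inter_assoc]
    exact this.mono le_rfl le_rfl fun v hv => not_le.1 (show ¬ |τ v| ≤ _ from hv.2)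
  have g3 : Gd E p S ({v | |Y v| ≤ h} ∩ {v | |τ v| ≤ K + j}) {v | (K : ℝ) + j - 1 < |τ v|}
      (γ * γ) := by
    cases j with
    | zero =>
      have hh' : (r : ℝ) + (2 * D + 1) * m + 1 ≤ h := by exact_mod_cast hh
      have hD0 : (0 : ℝ) ≤ D := Nat.cast_nonneg D
      have hlev : ∀ i < m, (0 : ℝ) ≤ (2 * D + 1) * i ∧
          (r : ℝ) + ((2 * D + 1) * i + (2 * D + 1)) + 1 ≤ h := by
        intro i hi
        have : (i : ℝ) + 1 ≤ m := by exact_mod_cast hi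
        exact ⟨by positivity, by nlinarith⟩
      have hnb : ∀ (i : ℕ) (v : V), v ∈ Nb G D (W ∩ ({v | Y v ≤ r + (2 * D + 1) * i + D + 1} \
          {v | Y v ≤ r + (2 * D + 1) * i + D})) → (r + (2 * D + 1) * i < Y v ∧
          Y v ≤ r + ((2 * D + 1) * i + (2 * D + 1))) ∧ v ∈ Nb G (R + D) {o} := by
        intro i v hv
        obtain ⟨a, ⟨a1, a2, a3⟩, ha⟩ := mem_Nb_iff.1 hv
        have a4 := abs_le.1 (abs_sub_le_of_mem_Nb zero_le_one hY ha)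
        simp only [Set.mem_ofPred_eq, not_le] at a2 a3
        exact ⟨⟨by linarith, by linarith⟩, Nb_trans a1.2 ha⟩
      have esc := escape (E := E) hG h0.le h1 S {v | (K : ℝ) - 1 < |τ v|} {v | |Y v| ≤ h}
        (fun ω => Link (ω ∩ inside W) S {v | (h : ℝ) - 1 < Y v ∧ τ v ≤ 1}) D hm
        (fun i => {v | |Y v| ≤ h} ∩ {v | Y v ≤ r + (2 * D + 1) * i})
        (fun i => W ∩ ({v | Y v ≤ r + (2 * D + 1) * i + D + 1} \
          {v | Y v ≤ r + (2 * D + 1) * i + D}))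
        (fun i _ v hv => ⟨hv.1, by
          have := hv.2
          simp only [Set.mem_ofPred_eq] at this ⊢
          push_cast; linarith⟩)
        (fun i _ => Set.inter_subset_left)
        (fun i hi v hv => by
          obtain ⟨⟨a1, a2⟩, -⟩ := hnb i v hv
          obtain ⟨a3, a4⟩ := hlev i hi
          simp only [Set.mem_inter_iff, Set.mem_ofPred_eq]
          push_cast
          exact ⟨abs_le.2 ⟨by linarith [Nat.cast_nonneg (α := ℝ) r], by linarith⟩, by linarith⟩)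
        (fun i _ => Set.disjoint_left.2 fun v hv hv' => absurd hv'.2 (not_le.2 (hnb i v hv).1.1))
        (fun i _ => by
          rw [hE, hG.coe_EB]
          exact Set.inter_subset_inter_right _ (inside_mono fun v hv => (hnb i v hv).2))
        hD
        (fun i hi ω hω hl => by
          obtain ⟨a3, a4⟩ := hlev i hi
          have b1 := hl.exit (W := {v | Y v ≤ r + (2 * D + 1) * i + D})
            (W' := {v | Y v ≤ r + (2 * D + 1) * i + D + 1})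
            (Set.inter_subset_left.trans (hω.trans hEG))
            (Set.disjoint_left.2 fun v hv hv' => by
              have := hv.1
              simp only [Set.mem_ofPred_eq] at hv'
              linarith)
            (fun v hv => show Y v ≤ _ by linarith [(abs_le.1 (hSY v hv)).2])
            (fun a (ha : Y a ≤ _) => ⟨show Y a ≤ _ by linarith, fun b hb =>
              show Y b ≤ _ by linarith [(abs_le.1 (hY a b hb)).2]⟩)
          rw [Set.inter_right_comm] at b1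
          refine (b1.inter_inside hSW).mono (fun e he => ⟨he.1.1, fun v hv =>
            ⟨(he.2 v hv).1, ?_⟩⟩) le_rfl fun v hv => ⟨hv.2, hv.1⟩
          have := he.1.2 v hv
          simp only [Set.mem_ofPred_eq] at this ⊢
          push_cast; linarith)
      have esc' := le_of_mul_le_mul_left (esc.trans hm') (by positivity)
      refine (Pr_le_add h0.le h1 fun ω hω hn => ?_).trans
        ((add_le_add gL esc').trans (by nlinarith [mul_pos hγ0 hγ0]))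
      by_cases hc : Link (ω ∩ inside W) S {v | (h : ℝ) - 1 < Y v ∧ τ v ≤ 1}
      · refine Or.inr ⟨hc, fun h' => hn (hexit ω hω (h'.mono le_rfl le_rfl fun v hv => ?_))⟩
        simpa using hv
      · exact Or.inl hc
    | succ j =>
      have key : ∀ T : Set V, Gd E p S W T (γ ^ 3) → Gd E p S (W ∩ {v | |τ v| ≤ K + j}) T γ ∨
          Gd E p S ({v | |Y v| ≤ h} ∩ {v | |τ v| ≤ K + (j + 1 : ℕ)})
            {v | (K : ℝ) + (j + 1 : ℕ) - 1 < |τ v|} (γ * γ) := by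
        intro T g
        refine Gd.or h0.le h1 hγ0.le (by positivity) (g.trans_eq (by ring)) fun ω hω hl => ?_
        rcases hl.stay_or_exit (W := {v | |τ v| ≤ K + j}) with h' | h'
        · exact Or.inl (by rwa [inside_inter, ← Set.inter_assoc])
        · refine Or.inr (hexit ω hω (h'.mono (Set.inter_subset_inter_right _
            (inside_mono Set.inter_subset_left)) le_rfl fun v hv => ?_))
          simp only [Set.mem_compl_iff, Set.mem_ofPred_eq, not_le] at hv ⊢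
          push_cast; linarith
      rcases key _ gL with c1 | c1
      · rcases key _ gR with c2 | c2
        exacts [absurd ⟨c1, c2⟩ (hj j (Nat.lt_succ_self j)), c2]
      · exact c1
  set n : ℝ := K + j with hn
  have hn0 : 0 < n := by linarith
  have hh0 : (0 : ℝ) < h := by linarith
  have hlip : ∀ (f : V → ℝ) (s : ℝ), Lip G 1 f → K ≤ s → Lip G (1 / K) fun v => f v / s := by
    intro f s hf hs a b hab
    rw [← sub_div, abs_div, abs_of_pos (by linarith : 0 < s)]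
    exact div_le_div₀ zero_le_one (hf a b hab) (by linarith) hs
  have hbox : ∀ v, |Y v| ≤ h → |τ v| ≤ n → |τ v / n| ≤ 1 ∧ |Y v / h| ≤ 1 := by
    intro v a1 a2
    rw [abs_div, abs_div, abs_of_pos hn0, abs_of_pos hh0, div_le_one hn0, div_le_one hh0]
    exact ⟨a2, a1⟩
  have hSn : ∀ v ∈ S, |τ v| ≤ n := fun v hv => by linarith [hSτ v hv]
  refine Two.trans (x := fun v => τ v / n) (y := fun v => Y v / h) ⟨1 / n, 0, fun v => by ring⟩
    ⟨0, 1 / h, fun v => by ring⟩ (stage3' h0.le h1 hδ (by positivity)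
      (hlip τ n hτ (by linarith)) (hlip Y h hY hKh') (fun v hv => hbox v (hSW hv).1 (hSn v hv))
      (g1.mono h0.le h1 (fun v hv => ⟨hSW hv, hSn v hv⟩) (fun v hv => hbox v hv.1.1 hv.2)
        (fun v _ hv => ?_) le_rfl)
      (g2.mono h0.le h1 (fun v hv => ⟨hSW hv, hSn v hv⟩) (fun v hv => hbox v hv.1.1 hv.2)
        (fun v _ hv => ?_) le_rfl)
      (g3.mono h0.le h1 (fun v hv => ⟨(hSW hv).1, hSn v hv⟩) (fun v hv => hbox v hv.1 hv.2)
        (fun v _ hv => ?_) le_rfl))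
  · simp only [Set.mem_ofPred_eq] at hv ⊢
    rw [le_div_iff₀ hh0, div_le_iff₀ hn0]
    constructor <;> linarith
  · simp only [Set.mem_ofPred_eq] at hv ⊢
    rw [le_div_iff₀ hh0, ← neg_div, div_le_iff₀ hn0]
    constructor <;> linarith
  · simp only [Set.mem_ofPred_eq] at hv ⊢
    rw [abs_div, abs_of_pos hn0, le_div_iff₀ hn0]
    linarith

lemma stage1 (hG : DegLe G Δ) (h0 : 0 < p) (h1 : p ≤ 1) {δ : ℝ} (hδ : 0 < δ) (hδ1 : δ ≤ 1 / 2)
    {o : V} {X Y : V → ℝ} (hX : Lip G 1 X) (hY : Lip G 1 Y) (hXo : X o = 0) (hYo : Y o = 0)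
    {r K h D N m R : ℕ} {c c' : ℝ} (hc : 0 < c) (hc' : |c'| = c)
    (hM : ∀ a, (∃ b ∈ Nb G D {a}, X b = X a + c ∧ Y b = Y a) ∧
      (∃ b ∈ Nb G D {a}, X b = X a ∧ Y b = Y a + c'))
    (hN : 2 * ((K : ℝ) - 1) < N * (c / 2))
    (hK : 1000 ≤ K) (hrK : r + 1 ≤ K) (hKh : K ≤ h) (hrR : r ≤ R)
    (hm : 0 < m) (hm' : 1 / m ≤ p ^ ((Δ + 1) ^ (N * D) * Δ) * ((δ ^ 1001) ^ 2 / 2))
    (hh : r + (2 * (N * D) + 1) * m + 1 ≤ h)
    (gT : Gd (EB G R o) p (Nb G r {o}) {v | |Y v| ≤ h} {v | (h : ℝ) - 1 < Y v}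
      ((δ ^ 1001) ^ 3 * (δ ^ 1001) ^ 3)) :
    Two G (EB G (R + N * D) o) p (Nb G r {o}) δ (2 * (1 / K)) X Y := by
  classical
  set γ := (δ ^ 1001) ^ 3 with hγ
  have hγ0 : 0 < γ := by positivity
  have hγ1 : γ ≤ 1 := pow_le_one₀ (by positivity) (pow_le_one₀ hδ.le (by linarith))
  set E := EB G (R + N * D) o with hE
  set S := Nb G r {o} with hS
  set W := {v | |Y v| ≤ h} ∩ Nb G R {o} with hW
  have hK' : (1000 : ℝ) ≤ K := by exact_mod_cast hK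
  have hrK' : (r : ℝ) + 1 ≤ K := by exact_mod_cast hrK
  have hKh' : (K : ℝ) ≤ h := by exact_mod_cast hKh
  have hh0 : (0 : ℝ) < h := by linarith
  have hSW : S ⊆ W := fun v hv => ⟨show |Y v| ≤ h by linarith [abs_le_of_mem hY hYo hv],
    Nb_mono_left hrR hv⟩
  have g0 : Gd E p S W {v | (h : ℝ) - 1 < Y v} (γ * γ) := by
    refine le_trans (Pr_couple h0.le h1 fun ω hn h' => hn (Link.mono ?_ le_rfl le_rfl h')) gT
    rintro e ⟨⟨a1, a2⟩, a3⟩
    refine ⟨⟨a1, EB_mono hG (Nb_mono_left (by omega)) a2⟩, ?_⟩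
    rw [hG.coe_EB] at a2
    rw [hW, inside_inter]
    exact ⟨a3, a2.2⟩
  have g0' : Gd E p S W {v | (h : ℝ) - 1 < Y v} γ := g0.trans (by nlinarith)
  have hex : ∃ k : ℕ, Gd E p S W ({v | (h : ℝ) - 1 < Y v} ∩ {v | X v ≤ k - R}) γ :=
    ⟨2 * R, g0'.mono h0.le h1 hSW le_rfl (fun v hv hv' => ⟨hv', by
      have := abs_le.1 (abs_le_of_mem hX hXo hv.2)
      simp only [Set.mem_ofPred_eq]
      push_cast; linarith⟩) le_rfl⟩
  obtain ⟨x, g1, g2⟩ : ∃ x : ℝ, Gd E p S W ({v | (h : ℝ) - 1 < Y v} ∩ {v | X v ≤ x}) γ ∧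
      Gd E p S W ({v | (h : ℝ) - 1 < Y v} ∩ {v | x - 1 ≤ X v}) γ := by
    refine ⟨_, Nat.find_spec hex, ?_⟩
    have hmin := fun k => Nat.find_min hex (m := k)
    generalize Nat.find hex = k at hmin
    cases k with
    | zero =>
      exact g0'.mono h0.le h1 hSW le_rfl (fun v hv hv' => ⟨hv', by
        have := abs_le.1 (abs_le_of_mem hX hXo hv.2)
        simp only [Set.mem_ofPred_eq]
        push_cast; linarith⟩) le_rfl
    | succ k =>
      refine (g0.or' h0.le h1 hγ0.le hγ0.le fun v hv => ?_).resolve_left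
        (hmin k (Nat.lt_succ_self k))
      by_cases hv' : X v ≤ k - R
      · exact Or.inl ⟨hv, hv'⟩
      · refine Or.inr ⟨hv, ?_⟩
        simp only [Set.mem_ofPred_eq]
        push_cast; linarith
  set σ := x / h with hσ
  have hx : x = σ * h := by rw [hσ]; field_simp
  set l := 1 + |σ| with hl
  have hσ0 := abs_nonneg σ
  have hl0 : 0 < l := by linarith
  have e1 : ∀ v, 1 / l * X v + -σ / l * Y v = (X v - σ * Y v) / l := fun v => by ring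
  have hσY : ∀ v ∈ W, (h : ℝ) - 1 < Y v → |σ * (h - Y v)| ≤ |σ| := by
    intro v hv hv'
    have := abs_le.1 (show |Y v| ≤ h from hv.1)
    rw [abs_mul]
    exact mul_le_of_le_one_right hσ0 (abs_le.2 ⟨by linarith, by linarith⟩)
  refine Two.trans (x := fun v => 1 / l * X v + -σ / l * Y v) (y := Y) ⟨_, _, fun _ => rfl⟩
    ⟨0, 1, fun v => by ring⟩ (stage2 hG h0 h1 hδ hδ1 (hX.comb hY _ _ ?_) hY (by simp [hXo, hYo])
      hYo hK hrK hKh hrR hm hm' hh ?_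
      (g1.mono h0.le h1 hSW le_rfl (fun v hv hv' => ⟨hv'.1, ?_⟩) le_rfl)
      (g2.mono h0.le h1 hSW le_rfl (fun v hv hv' => ⟨hv'.1, ?_⟩) le_rfl))
  · rw [abs_div, abs_div, abs_neg, abs_one, abs_of_pos hl0, ← add_div, div_self hl0.ne', mul_one]
  · by_cases hs : |σ| ≤ 1
    · refine exists_far_point (g := c / l) (c := c / 2) ?_ hN fun a => ?_
      · rw [abs_of_pos (by positivity)]
        exact div_le_div_of_nonneg_left hc.le hl0 (by linarith)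
      · obtain ⟨b, hb, b1, b2⟩ := (hM a).1
        exact ⟨b, hb, by rw [b1, b2]; ring⟩
    · refine exists_far_point (g := -σ / l * c') (c := c / 2) ?_ hN fun a => ?_
      · rw [abs_mul, abs_div, abs_neg, abs_of_pos hl0, hc', div_mul_eq_mul_div,
          div_le_div_iff₀ (by norm_num) hl0]
        nlinarith
      · obtain ⟨b, hb, b1, b2⟩ := (hM a).2
        exact ⟨b, hb, by rw [b1, b2]; ring⟩
  · have a1 := abs_le.1 (hσY v hv hv'.1)
    have a2 : X v ≤ x := hv'.2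
    rw [e1, div_le_one hl0]
    linarith
  · have a1 := abs_le.1 (hσY v hv hv'.1)
    have a2 : x - 1 ≤ X v := hv'.2
    rw [e1, ← neg_div, div_le_one hl0]
    linarith

lemma exists_inv_le {a : ℝ} (ha : 0 < a) : ∃ m : ℕ, 0 < m ∧ (1 / m : ℝ) ≤ a := by
  obtain ⟨m, hm⟩ := exists_nat_one_div_lt ha
  exact ⟨m + 1, Nat.succ_pos m, by exact_mod_cast hm.le⟩

theorem moves (hG : DegLe G Δ) (h0 : 0 < p) (h1 : p ≤ 1) {δ : ℝ} (hδ : 0 < δ) (hδ1 : δ ≤ 1 / 2)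
    {o : V} {X Y : V → ℝ} (hX : Lip G 1 X) (hY : Lip G 1 Y) (hXo : X o = 0) (hYo : Y o = 0)
    {D : ℕ} {c : ℝ} (hc : 0 < c) (hM : Mobile G D c X Y) {r : ℕ}
    (hr : ∀ R, Pr (EB G (R + 1) o) p (fun ω => ¬ Link ω (Nb G r {o}) (Nb G R {o})ᶜ) ≤
      (δ ^ 1001) ^ 12 / 2) (K0 : ℕ) :
    ∃ R K : ℕ, r ≤ R ∧ K0 ≤ K ∧ Two G (EB G R o) p (Nb G r {o}) δ (2 * (1 / K)) X Y := by
  set K := K0 + r + 1000 with hK
  obtain ⟨N, hN⟩ := exists_nat_gt (2 * ((K : ℝ) - 1) / (c / 2))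
  rw [div_lt_iff₀ (by positivity)] at hN
  obtain ⟨m, hm, hm'⟩ := exists_inv_le
    (show 0 < p ^ ((Δ + 1) ^ (N * D) * Δ) * ((δ ^ 1001) ^ 2 / 2) by positivity)
  set h := K + (r + (2 * (N * D) + 1) * m + 1) with hh
  obtain ⟨N', hN'⟩ := exists_nat_gt (2 * ((h : ℝ) - 1) / c)
  rw [div_lt_iff₀ hc] at hN'
  set D' := N' * D with hD'
  obtain ⟨m', hn, hn'⟩ := exists_inv_le
    (show 0 < p ^ ((Δ + 1) ^ D' * Δ) * ((δ ^ 1001) ^ 12 / 2) by positivity)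
  set R := r + (2 * D' + 1) * m' with hR
  have hEG : (EB G (R + 1) o : Set (Sym2 V)) ⊆ G.edgeSet := EB_subset_edgeSet
  have hlev : ∀ i < m', r + (2 * D' + 1) * (i + 1) ≤ R := fun i hi => by
    rw [hR]; gcongr; omega
  have hnb : ∀ i, Nb G D' (Nb G (r + (2 * D' + 1) * i + D' + 1) {o} \
      Nb G (r + (2 * D' + 1) * i + D') {o}) ⊆ Nb G (r + (2 * D' + 1) * (i + 1)) {o} := by
    intro i
    refine (Nb_mono Set.sdiff_subset).trans ?_
    rw [Nb_Nb]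
    exact Nb_mono_left (le_of_eq (by ring))
  have esc := escape (E := EB G (R + 1) o) hG h0.le h1 (Nb G r {o})
    {v | (h : ℝ) - 1 < |Y v|} Set.univ (fun ω => Link ω (Nb G r {o}) (Nb G R {o})ᶜ) D' hn
    (fun i => Nb G (r + (2 * D' + 1) * i) {o})
    (fun i => Nb G (r + (2 * D' + 1) * i + D' + 1) {o} \ Nb G (r + (2 * D' + 1) * i + D') {o})
    (fun i _ => Nb_mono_left (by gcongr; omega)) (fun _ _ => Set.subset_univ _)
    (fun i _ => hnb i)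
    (fun i _ => Set.disjoint_left.2 fun v hv hv' => by
      obtain ⟨a, ha, hva⟩ := mem_Nb_iff.1 hv
      exact ha.2 (Nb_trans hv' (Nb_symm hva)))
    (fun i hi => by
      rw [hG.coe_EB]
      exact Set.inter_subset_inter_right _ (inside_mono ((hnb i).trans
        (Nb_mono_left ((hlev i hi).trans (Nat.le_succ R))))))
    (exists_far_point (g := c) (c := c) (le_abs_self c) hN'
      fun a => ((hM a).2).imp fun b hb => ⟨hb.1, hb.2.2⟩)
    (fun i hi ω hω hl => by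
      have a1 := hlev i hi
      rw [mul_add_one] at a1
      refine (hl.exit (W := Nb G (r + (2 * D' + 1) * i + D') {o})
        (W' := Nb G (r + (2 * D' + 1) * i + D' + 1) {o}) (hω.trans hEG)
        (disjoint_compl_left.mono_right (Nb_mono_left (by omega))) (Nb_mono_left (by omega))
        fun a ha => ⟨Nb_subset_succ ha, fun b hb => mem_Nb_of_adj ha hb⟩).mono
        (Set.inter_subset_inter_right _ (inside_mono (Nb_mono_left ?_))) le_rfl le_rfl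
      rw [mul_add_one]; omega)
  have esc' := le_of_mul_le_mul_left (esc.trans hn') (by positivity)
  have hrh : (r : ℝ) + 1 ≤ h := by exact_mod_cast (by omega : r + 1 ≤ h)
  have g0 : Gd (EB G (R + 1) o) p (Nb G r {o}) {v | |Y v| ≤ h} {v | (h : ℝ) - 1 < |Y v|}
      ((δ ^ 1001) ^ 3 * (δ ^ 1001) ^ 3 * ((δ ^ 1001) ^ 3 * (δ ^ 1001) ^ 3)) := by
    refine (Pr_le_add h0.le h1 fun ω hω hn => ?_).trans
      ((add_le_add (hr R) esc').trans_eq (by ring))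
    by_cases hc : Link ω (Nb G r {o}) (Nb G R {o})ᶜ
    · refine Or.inr ⟨hc, fun h' => hn ?_⟩
      rw [inside_univ, Set.inter_univ] at h'
      refine (h'.exit (hω.trans hEG) (W := {v | |Y v| ≤ h - 1})
        (Set.disjoint_left.2 fun v (hv : (h : ℝ) - 1 < |Y v|) hv' => not_le.2 hv hv')
        (fun v hv => show |Y v| ≤ h - 1 by linarith [abs_le_of_mem hY hYo hv])
        (lip_abs hY)).mono le_rfl le_rfl fun v hv => not_le.1 (show ¬ |Y v| ≤ _ from hv.2)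
    · exact Or.inl hc
  refine ⟨R + 1 + N * D, K, by omega, by omega, ?_⟩
  rcases g0.or' h0.le h1 (by positivity) (by positivity) (T₁ := {v | (h : ℝ) - 1 < Y v})
    (T₂ := {v | (h : ℝ) - 1 < -Y v}) (fun v (hv : (h : ℝ) - 1 < |Y v|) => lt_abs.1 hv) with g | g
  · exact stage1 hG h0 h1 hδ hδ1 hX hY hXo hYo hc (abs_of_pos hc) hM hN (by omega) (by omega)
      (by omega) (by omega) hm hm' (by omega) g
  · refine Two.trans (x := X) (y := fun v => -Y v) ⟨1, 0, fun v => by ring⟩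
      ⟨0, -1, fun v => by ring⟩ (stage1 (h := h) (c' := -c) hG h0 h1 hδ hδ1 hX (fun a b h => ?_) hXo
        (by simp [hYo]) hc (by rw [abs_neg, abs_of_pos hc]) (fun a => ?_) hN (by omega) (by omega)
        (by omega) (by omega) hm hm' (by omega) (by simpa only [abs_neg] using g))
    · rw [← abs_neg]; convert hY a b h using 2; ring
    · obtain ⟨⟨b, b1, b2, b3⟩, b', b4, b5, b6⟩ := hM a
      exact ⟨⟨b, b1, b2, by rw [b3]⟩, b', b4, b5, by rw [b6]; ring⟩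

end Vale.Agent.P151
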