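import Vale.Agent.P151.Gluing

/-!
From balls to points: the seed lemma.
-/

namespace Vale.Agent.P151

section general
variable {ι : Type*} {E : Finset ι} {p : ℝ}

lemma Pr_and_not {A B : Set ι → Prop} (h : ∀ ω : Set ι, ω ⊆ E → B ω → A ω) :
    Pr E p (fun ω => A ω ∧ ¬ B ω) = Pr E p A - Pr E p B := by
  unfold Pr
  rw [← Ex_sub]
  refine Ex_congr fun ω hω => ?_
  by_cases hB : B ω
  · rw [ind_of hB, ind_of (h ω hω hB), ind_of_not (fun h => h.2 hB)]; ring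
  · rw [ind_of_not hB, sub_zero]
    exact ind_congr (by simp [hB])

/-- one of `m` nested increments has probability at most `1/m` -/
lemma exists_level (h0 : 0 ≤ p) (h1 : p ≤ 1) (A : ℕ → Set ι → Prop) {m : ℕ} (hm : 0 < m)
    (hA : ∀ j < m, ∀ ω : Set ι, ω ⊆ E → A j ω → A (j + 1) ω) :
    ∃ j < m, Pr E p (fun ω => A (j + 1) ω ∧ ¬ A j ω) ≤ 1 / m := by
  by_contra hc
  push Not at hc
  have h2 : ∑ j ∈ Finset.range m, (1 / m : ℝ) <
      ∑ j ∈ Finset.range m, (Pr E p (A (j + 1)) - Pr E p (A j)) :=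
    Finset.sum_lt_sum_of_nonempty (by simpa using hm.ne') fun j hj => by
      rw [← Pr_and_not (hA j (Finset.mem_range.1 hj))]
      exact hc j (Finset.mem_range.1 hj)
  rw [Finset.sum_range_sub (fun j => Pr E p (A j)), Finset.sum_const, Finset.card_range,
    nsmul_eq_mul, mul_one_div_cancel (by exact_mod_cast hm.ne')] at h2
  linarith [Pr_le_one (E := E) h0 h1 (A m), Pr_nonneg (E := E) h0 h1 (A 0)]

/-- second moment bound for disjoint seeds -/
lemma seeds (h0 : 0 ≤ p) (h1 : p ≤ 1) {κ : Type*} (Y : Finset κ) (D : κ → Finset ι)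
    (hD : ∀ y ∈ Y, D y ⊆ E) (hd : ∀ y ∈ Y, ∀ z ∈ Y, y ≠ z → Disjoint (D y) (D z))
    (B : Set ι → Prop) {θ c : ℝ} (hc : 0 < c)
    (hB : ∀ y ∈ Y, Pr E p (fun ω => B ω ∧ (D y : Set ι) ⊆ ω) ≤ θ * p ^ (D y).card) :
    (∑ y ∈ Y, p ^ (D y).card) * Pr E p B ≤
      θ * (∑ y ∈ Y, p ^ (D y).card) + (∑ y ∈ Y, p ^ (D y).card) / (4 * c) + c := by
  classical
  set l := ∑ y ∈ Y, p ^ (D y).card with hl
  set N : Set ι → ℝ := fun ω => ∑ y ∈ Y, ind ((D y : Set ι) ⊆ ω) with hN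
  have e1 : Ex E p N = l := by
    rw [hN, Ex_sum]
    exact Finset.sum_congr rfl fun y hy => Pr_all_open (hD y hy)
  have e2 : Ex E p (fun ω => N ω * N ω) ≤ l + l * l := by
    simp only [hN, hl, Finset.sum_mul_sum, Ex_sum]
    rw [← Finset.sum_add_distrib]
    refine Finset.sum_le_sum fun y hy => ?_
    have : p ^ (D y).card = ∑ z ∈ Y, if z = y then p ^ (D y).card else 0 := by simp [hy]
    rw [this, ← Finset.sum_add_distrib, ← this]
    refine Finset.sum_le_sum fun z hz => ?_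
    simp only [← ind_and, ← Set.union_subset_iff, ← Finset.coe_union]
    have e := Pr_all_open (p := p) (Finset.union_subset (hD y hy) (hD z hz))
    unfold Pr at e
    rw [e]
    split_ifs with h
    · rw [h, Finset.union_self]
      exact le_add_of_nonneg_right (by positivity)
    · rw [Finset.card_union_of_disjoint (hd y hy z hz (Ne.symm h)), pow_add, zero_add]
  have e3 : Ex E p (fun ω => N ω * ind (B ω)) ≤ θ * l := by
    simp only [hN, hl, Finset.sum_mul, Ex_sum, Finset.mul_sum]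
    refine Finset.sum_le_sum fun y hy => le_trans (le_of_eq ?_) (hB y hy)
    exact Ex_congr fun ω _ => by rw [ind_and, mul_comm]
  have e4 : Ex E p (fun ω => l * ind (B ω)) ≤ Ex E p (fun ω => N ω * ind (B ω) +
      ((N ω * N ω - 2 * l * N ω + l * l) * (1 / (4 * c)) + c)) := by
    refine Ex_mono h0 h1 fun ω _ => ?_
    have k : ∀ u : ℝ, u ≤ u * u * (1 / (4 * c)) + c := by
      intro u
      have : u * u * (1 / (4 * c)) + c - u = (u - 2 * c) ^ 2 / (4 * c) := by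
        field_simp; ring
      have h2 : 0 ≤ (u - 2 * c) ^ 2 / (4 * c) := by positivity
      linarith
    by_cases hb : B ω
    · rw [ind_of hb]
      have := k (l - N ω)
      nlinarith
    · rw [ind_of_not hb]
      have : 0 ≤ (l - N ω) * (l - N ω) * (1 / (4 * c)) :=
        mul_nonneg (mul_self_nonneg _) (by positivity)
      nlinarith
  simp only [Ex_add, Ex_mul_left, Ex_mul_right, Ex_sub, Ex_const, e1] at e4
  have : (Ex E p (fun ω => N ω * N ω) - 2 * l * l + l * l) * (1 / (4 * c)) ≤ l / (4 * c) := by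
    rw [← mul_one_div l]
    exact mul_le_mul_of_nonneg_right (by linarith) (by positivity)
  unfold Pr
  linarith

end general

variable {V : Type*} {G : SimpleGraph V} {Δ : ℕ} {E : Finset (Sym2 V)} {p : ℝ}
  {H : Set (Sym2 V)}

/-- a set which is not small contains many points with disjoint seeds -/
lemma exists_far (hG : DegLe G Δ) (r : ℕ) (X : Set V) (a : V → V)
    (ha : ∀ x ∈ X, x ∈ Nb G r {a x}) (k : ℕ)
    (hX : ¬ ∃ s : Finset V, s.card ≤ k * (Δ + 1) ^ (3 * r) ∧ X ⊆ s) :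
    ∃ Y : Finset V, Y.card = k ∧ (∀ y ∈ Y, y ∈ X) ∧
      ∀ y ∈ Y, ∀ z ∈ Y, y ≠ z → Disjoint (Nb G r {a y}) (Nb G r {a z}) := by
  classical
  induction k with
  | zero => exact ⟨∅, by simp⟩
  | succ k ih =>
    obtain ⟨Y, hY, hYX, hd⟩ := ih fun ⟨s, hs, h⟩ =>
      hX ⟨s, hs.trans (Nat.mul_le_mul_right _ (Nat.le_succ k)), h⟩
    obtain ⟨s, hs, hsub⟩ := hG.exists_Nb (Y.image a) (3 * r)
    have : ¬ X ⊆ s := fun h => hX ⟨s, hs.trans (Nat.mul_le_mul_right _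
      (Finset.card_image_le.trans (by omega))), h⟩
    obtain ⟨x, hx, hxs⟩ := Set.not_subset.1 this
    have key : ∀ y ∈ Y, Disjoint (Nb G r {a x}) (Nb G r {a y}) := by
      intro y hy
      rw [Set.disjoint_left]
      intro v h1 h2
      apply hxs
      have := Nb_trans (Nb_trans h2 (Nb_symm h1)) (ha x hx)
      rw [show r + r + r = 3 * r by ring] at this
      exact hsub (Nb_mono (by simpa using ⟨y, hy, rfl⟩) this)
    have hxY : x ∉ Y := fun h => Set.disjoint_left.1 (key x h) (ha x hx) (ha x hx)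
    refine ⟨insert x Y, by rw [Finset.card_insert_of_notMem hxY, hY], ?_, ?_⟩
    · intro y hy
      rcases Finset.mem_insert.1 hy with rfl | hy
      exacts [hx, hYX y hy]
    · intro y hy z hz hyz
      rcases Finset.mem_insert.1 hy with rfl | hy' <;> rcases Finset.mem_insert.1 hz with rfl | hz'
      exacts [absurd rfl hyz, key z hz', (key y hy').symm, hd y hy' z hz' hyz]

/-- few contacts at some level can be closed off -/
lemma level_small (hG : DegLe G Δ) (h0 : 0 ≤ p) (h1 : p ≤ 1) {F E' : Finset (Sym2 V)}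
    [DecidableEq (Sym2 V)] (hFE : Disjoint F E') {N N' : Set V} {o : V}
    (hF : (F : Set (Sym2 V)) ⊆ G.edgeSet ∩ inside N) (hE' : (E' : Set (Sym2 V)) ∪ H ⊆ G.edgeSet)
    (hE'' : Disjoint ((E' : Set (Sym2 V)) ∪ H) (inside N)) (ho : o ∉ N')
    (hN : ∀ x ∈ N', x ∈ N ∧ ∀ y, G.Adj x y → y ∈ N) (L : ℕ) :
    (1 - p) ^ (L * Δ) * Pr E' p (fun ζ => Link (ζ ∪ H) {o} N ∧
        ∃ s : Finset V, s.card ≤ L ∧ N ∩ Cl (ζ ∪ H) o ⊆ s) ≤
      Pr (F ∪ E') p fun ω => Link (ω ∪ H) {o} N ∧ ¬ Link (ω ∪ H) {o} N' := by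
  unfold Pr
  rw [Ex_union hFE, Ex_comm, ← Ex_mul_left]
  refine Ex_mono h0 h1 fun ζ hζ => ?_
  by_cases hs : Link (ζ ∪ H) {o} N ∧ ∃ s : Finset V, s.card ≤ L ∧ N ∩ Cl (ζ ∪ H) o ⊆ s
  swap
  · rw [ind_of_not hs, mul_zero]
    exact Ex_nonneg h0 h1 fun _ _ => ind_nonneg _
  rw [ind_of hs, mul_one]
  obtain ⟨hl, s, hsL, hs⟩ := hs
  obtain ⟨D, hD, hD'⟩ := hG.exists_touch s
  refine le_trans (pow_le_pow_of_le_one (by linarith) (by linarith)
    (hD.trans (Nat.mul_le_mul_right _ hsL))) ((Pr_all_closed (E := F) h0 h1 D).trans ?_)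
  refine Pr_mono h0 h1 fun ξ hξ hd => ⟨hl.mono (Set.union_subset_union_left _
    Set.subset_union_right) le_rfl le_rfl, ?_⟩
  rw [link_singleton]
  rintro ⟨y, hy, hc⟩
  have hsub : ζ ∪ H ⊆ (E' : Set (Sym2 V)) ∪ H := Set.union_subset_union_left _ hζ
  have : Conn (ζ ∪ H) o y ∧ y ∉ N' := by
    clear hy
    induction hc with
    | refl => exact ⟨Conn.refl _ _, ho⟩
    | @tail b c _ h2 ih =>
      have h3 : s(b, c) ∈ ζ ∪ H := by
        rcases h2 with (h2 | h2) | h2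
        · refine absurd h2 (Set.disjoint_left.1 hd (hD' ⟨(hF (hξ h2)).1, ?_⟩))
          exact mem_touch_iff.2 (Or.inl (hs ⟨(mem_inside_iff.1 (hF (hξ h2)).2).1, ih.1⟩))
        exacts [Or.inl h2, Or.inr h2]
      refine ⟨ih.1.tail h3, fun hc => Set.disjoint_left.1 hE'' (hsub h3) ?_⟩
      exact mem_inside_iff.2 ⟨(hN c hc).2 b (G.mem_edgeSet.1 (hE' (hsub h3))).symm, (hN c hc).1⟩
  exact this.2 hy

/-- many contacts: one of them is good -/
lemma level_big (hG : DegLe G Δ) (h0 : 0 ≤ p) (h1 : p ≤ 1) {F E' : Finset (Sym2 V)}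
    [DecidableEq (Sym2 V)] (hFE : Disjoint F E') (r : ℕ) (X T : Set V) (a : V → V)
    (ha : ∀ x ∈ X, x ∈ Nb G r {a x}) (hF : ∀ x ∈ X, EB G r (a x) ⊆ F) {δ η p0 c : ℝ}
    (hp0 : 0 < p0) (hp : p0 ≤ p) (hη : 0 < η) (hc : 0 < c)
    (hT : ∀ x ∈ X, Pr (F ∪ E') p (fun ω => ¬ Link (ω ∪ H) (Nb G r {a x}) T) ≤ δ) {k : ℕ}
    (hk : 0 < k) (hX : ¬ ∃ s : Finset V, s.card ≤ k * (Δ + 1) ^ (3 * r) ∧ X ⊆ s) :
    Pr F p (fun ξ => ∀ x ∈ X, η < Pr E' p fun ζ => ¬ Link (ζ ∪ (ξ ∪ H)) {x} T) ≤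
      δ / η + c + 1 / (4 * c * (k * p0 ^ ((Δ + 1) ^ r * Δ))) := by
  obtain ⟨Y, hY, hYX, hd⟩ := exists_far hG r X a ha k hX
  set l := ∑ y ∈ Y, p ^ (EB G r (a y)).card with hl
  have hl0 : k * p0 ^ ((Δ + 1) ^ r * Δ) ≤ l := by
    rw [← hY, ← nsmul_eq_mul]
    exact Finset.card_nsmul_le_sum _ _ _ fun y _ =>
      (pow_le_pow_of_le_one hp0.le (hp.trans h1) (hG.card_EB r _)).trans
        (pow_le_pow_left₀ hp0.le hp _)
  have hk0 : 0 < k * p0 ^ ((Δ + 1) ^ r * Δ) := by positivity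
  have hl1 : 0 < l := hk0.trans_le hl0
  have h := seeds h0 h1 Y (fun y => EB G r (a y)) (fun y hy => hF y (hYX y hy))
    (fun y hy z hz hyz => by
      rw [← Finset.disjoint_coe, hG.coe_EB, hG.coe_EB, Set.disjoint_left]
      rintro e ⟨-, h1⟩ ⟨-, h2⟩
      induction e with
      | h u v => exact Set.disjoint_left.1 (hd y hy z hz hyz) (mem_inside_iff.1 h1).1
                   (mem_inside_iff.1 h2).1)
    (fun ξ => ∀ x ∈ X, η < Pr E' p fun ζ => ¬ Link (ζ ∪ (ξ ∪ H)) {x} T) (θ := δ / η)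
    (mul_pos hc hl1) (fun y hy => by
      have hy' := hYX y hy
      have i1 := Pr_harris_mixed (E := F ∪ E') h0 h1
        (A := fun ω => (EB G r (a y) : Set (Sym2 V)) ⊆ ω)
        (B := fun ω => Link (ω ∪ H) (Nb G r {a y}) T) (fun _ _ h h' => h'.trans h)
        (fun _ _ h h' => h'.mono (Set.union_subset_union_left _ h) le_rfl le_rfl)
      rw [Pr_all_open ((hF y hy').trans Finset.subset_union_left)] at i1
      have i2 := i1.trans (mul_le_mul_of_nonneg_left (hT y hy') (pow_nonneg h0 _))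
      rw [div_mul_eq_mul_div, le_div_iff₀ hη, mul_comm δ, mul_comm]
      refine le_trans ?_ i2
      conv_rhs => unfold Pr
      rw [Ex_union hFE]
      refine Pr_markov h0 h1 (fun _ _ => Ex_nonneg h0 h1 fun _ _ => ind_nonneg _)
        fun ξ _ hξ => (hξ.1 y hy').le.trans (Pr_mono h0 h1 fun ζ _ hn => ?_)
      refine ⟨hξ.2.trans Set.subset_union_left, fun ⟨u, hu, v, hv, huv⟩ => hn ?_⟩
      have hs : G.edgeSet ∩ inside (Nb G r {a y}) ⊆ ζ ∪ (ξ ∪ H) := by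
        rw [← hG.coe_EB]
        exact hξ.2.trans (Set.subset_union_left.trans Set.subset_union_right)
      refine ⟨y, rfl, v, hv, ((conn_of_mem_Nb (ha y hy') hs).symm.trans
        (conn_of_mem_Nb hu hs)).trans (huv.mono (le_of_eq ?_))⟩
      rw [Set.union_comm ξ, Set.union_assoc])
  rw [← hl] at h
  have e : l / (4 * (c * l)) = l * (1 / (4 * c * l)) := by field_simp
  have i3 : 1 / (4 * c * l) ≤ 1 / (4 * c * (k * p0 ^ ((Δ + 1) ^ r * Δ))) :=
    one_div_le_one_div_of_le (by positivity) (mul_le_mul_of_nonneg_left hl0 (by positivity))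
  rw [e] at h
  refine le_of_mul_le_mul_left ?_ hl1
  nlinarith [mul_le_mul_of_nonneg_left i3 hl1.le]

theorem seed_lemma (hG : DegLe G Δ) {ε : ℝ} (hε : 0 < ε) (r : ℕ) {p0 p1 : ℝ} (hp0 : 0 < p0)
    (hp1 : p1 < 1) : ∃ t : ℕ, ∀ p, p0 ≤ p → p ≤ p1 →
    ∀ (E : Finset (Sym2 V)) (H : Set (Sym2 V)) (o : V) (M T : Set V), H.Finite →
      (E : Set (Sym2 V)) ∪ H ⊆ G.edgeSet → G.edgeSet ∩ inside (Nb G t M) ⊆ E →
      Disjoint H (inside (Nb G t M)) → o ∉ Nb G t M →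
      (∀ a ∈ Nb G t M, Pr E p (fun ω => ¬ Link (ω ∪ H) (Nb G r {a}) T) ≤ ε ^ 2 / 25) →
      Pr E p (fun ω => Link (ω ∪ H) {o} M ∧ ¬ Link (ω ∪ H) {o} T) ≤ ε := by
  classical
  set σ := p0 ^ ((Δ + 1) ^ r * Δ) with hσ
  have hσ0 : 0 < σ := by positivity
  obtain ⟨k, hk⟩ := exists_nat_gt (25 / (4 * ε ^ 2 * σ))
  have hk0 : 0 < k := by
    have : (0 : ℝ) < k := lt_trans (by positivity) hk
    exact_mod_cast this
  set L := k * (Δ + 1) ^ (3 * r) with hL
  have hq : 0 < (1 - p1) ^ (L * Δ) := pow_pos (by linarith) _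
  obtain ⟨m, hm⟩ := exists_nat_gt (5 / (ε * (1 - p1) ^ (L * Δ)))
  have hm0 : 0 < m := by
    have : (0 : ℝ) < m := lt_trans (by positivity) hm
    exact_mod_cast this
  refine ⟨r + m, fun p hp hp' E H o M T hH hEH hE hd ho hT => ?_⟩
  have h0 : 0 ≤ p := hp0.le.trans hp
  have h1 : p < 1 := hp'.trans_lt hp1
  obtain ⟨j, hj, hlev⟩ := exists_level (E := E) h0 h1.le
    (fun j ω => Link (ω ∪ H) {o} (Nb G (r + j) M)) hm0
    (fun j _ ω _ h => h.mono le_rfl le_rfl Nb_subset_succ)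
  set N := Nb G (r + (j + 1)) M with hN
  have hNt : N ⊆ Nb G (r + m) M := Nb_mono_left (by omega)
  set F := E.filter (· ∈ inside N) with hF
  set E' := E.filter (· ∉ inside N) with hE'
  have hFE : Disjoint F E' := Finset.disjoint_filter_filter_not _ _ _
  have hU : E = F ∪ E' := (Finset.filter_union_filter_not_eq _ _).symm
  have hE'E : (E' : Set (Sym2 V)) ⊆ E := Finset.coe_subset.2 (Finset.filter_subset _ _)
  have hE'' : Disjoint ((E' : Set (Sym2 V)) ∪ H) (inside N) := by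
    refine Set.disjoint_union_left.2 ⟨Set.disjoint_left.2 fun e he => ?_,
      hd.mono_right (inside_mono hNt)⟩
    exact (Finset.mem_filter.1 he).2
  have i1 := level_small hG h0 h1.le (H := H) hFE (N := N) (N' := Nb G (r + j) M) (o := o)
    (fun e he => ⟨hEH (Or.inl (Finset.mem_filter.1 he).1), (Finset.mem_filter.1 he).2⟩)
    ((Set.union_subset_union_left _ hE'E).trans hEH) hE''
    (fun h => ho (Nb_mono_left (by omega) h))
    (fun x hx => ⟨Nb_subset_succ hx, fun y hy => mem_Nb_of_adj hx hy⟩) L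
  rw [← hU] at i1
  have i2 : Pr E' p (fun ζ => Link (ζ ∪ H) {o} N ∧
      ∃ s : Finset V, s.card ≤ L ∧ N ∩ Cl (ζ ∪ H) o ⊆ s) ≤ ε / 5 := by
    have a1 : (1 - p1) ^ (L * Δ) ≤ (1 - p) ^ (L * Δ) :=
      pow_le_pow_left₀ (by linarith) (by linarith) _
    have a2 := (mul_le_mul_of_nonneg_right a1 (Pr_nonneg h0 h1.le _)).trans (i1.trans hlev)
    rw [div_lt_iff₀ (by positivity)] at hm
    rw [le_div_iff₀ (by positivity)] at a2
    refine le_of_mul_le_mul_left ?_ (mul_pos hq (by positivity : (0 : ℝ) < m))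
    nlinarith
  have hex : ∀ x, ∃ a, x ∈ N → a ∈ Nb G (j + 1) M ∧ x ∈ Nb G r {a} := by
    intro x
    by_cases hx : x ∈ N
    · rw [hN, add_comm] at hx
      obtain ⟨a, ha⟩ := mem_Nb_add hx
      exact ⟨a, fun _ => ha⟩
    · exact ⟨x, fun h => absurd h hx⟩
  choose a ha using hex
  have i3 : ∀ ζ, ¬ (∃ s : Finset V, s.card ≤ L ∧ N ∩ Cl (ζ ∪ H) o ⊆ s) →
      Pr F p (fun ξ => ∀ x ∈ N ∩ Cl (ζ ∪ H) o,
        ε / 5 < Pr E' p fun ζ => ¬ Link (ζ ∪ (ξ ∪ H)) {x} T) ≤ 3 * (ε / 5) := by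
    intro ζ hX
    refine (level_big hG h0 h1.le hFE r _ T a (fun x hx => (ha x hx.1).2) (fun x hx e he => ?_)
      hp0 hp (by positivity) (c := ε / 5) (by positivity) (δ := ε ^ 2 / 25)
      (fun x hx => ?_) hk0 hX).trans ?_
    · have h2 : e ∈ (EB G r (a x) : Set (Sym2 V)) := he
      rw [hG.coe_EB] at h2
      have h3 : Nb G r {a x} ⊆ N := by
        rw [hN, add_comm, ← Nb_Nb]
        exact Nb_mono (Set.singleton_subset_iff.2 (ha x hx.1).1)
      have h4 := inside_mono h3 h2.2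
      exact Finset.mem_filter.2 ⟨hE ⟨h2.1, inside_mono hNt h4⟩, h4⟩
    · rw [← hU]
      exact hT _ (Nb_mono_left (by omega) (ha x hx.1).1)
    · rw [← hσ]
      have e : ε ^ 2 / 25 / (ε / 5) = ε / 5 := by field_simp; norm_num
      have : 1 / (4 * (ε / 5) * (k * σ)) ≤ ε / 5 := by
        rw [div_lt_iff₀ (by positivity)] at hk
        rw [div_le_iff₀ (by positivity)]
        nlinarith
      linarith
  have i4 : ∀ ξ : Set (Sym2 V), ξ ⊆ F → Pr E' p (fun ζ => Link (ζ ∪ (ξ ∪ H)) {o}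
      {x | Pr E' p (fun ζ => ¬ Link (ζ ∪ (ξ ∪ H)) {x} T) ≤ ε / 5} ∧
      ¬ Link (ζ ∪ (ξ ∪ H)) {o} T) ≤ ε / 5 := fun ξ hξ =>
    gluing h0 h1 ((F.finite_toSet.subset hξ).union hH) o _ T (by positivity) fun _ h => h
  have i5 := Ex_le_const h0 h1.le i4
  have i6 : Ex E' p (fun ζ => Ex F p fun ξ =>
      ind (¬ (∃ s : Finset V, s.card ≤ L ∧ N ∩ Cl (ζ ∪ H) o ⊆ s)) * ind (∀ x ∈ N ∩ Cl (ζ ∪ H) o,
        ε / 5 < Pr E' p fun ζ => ¬ Link (ζ ∪ (ξ ∪ H)) {x} T)) ≤ 3 * (ε / 5) := by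
    refine Ex_le_const h0 h1.le fun ζ _ => ?_
    rw [Ex_mul_left]
    by_cases hX : ∃ s : Finset V, s.card ≤ L ∧ N ∩ Cl (ζ ∪ H) o ⊆ s
    · rw [ind_of_not (not_not.2 hX), zero_mul]; positivity
    · rw [ind_of hX, one_mul]; exact i3 ζ hX
  rw [Ex_comm] at i6
  rw [← Ex_const (E := F) (p := p) (Pr E' p _)] at i2
  have i7 := add_le_add (add_le_add i2 i6) i5
  unfold Pr at i7 ⊢
  rw [← Ex_add, ← Ex_add] at i7
  rw [hU, Ex_union hFE]
  refine le_trans (Ex_mono h0 h1.le fun ξ hξ => ?_) (i7.trans_eq (by ring))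
  rw [← Ex_add, ← Ex_add]
  refine Ex_mono h0 h1.le fun ζ hζ => ?_
  rw [← ind_and]
  refine le_trans (ind_mono ?_) ((ind_or_le _ _).trans (add_le_add_left (ind_or_le _ _) _))
  rintro ⟨hM, hn⟩
  have e : ζ ∪ (ξ ∪ H) = ξ ∪ ζ ∪ H := by rw [← Set.union_assoc, Set.union_comm ζ]
  have hl : Link (ζ ∪ H) {o} N := by
    obtain ⟨y, hy, hc⟩ := link_singleton.1 hM
    have : Conn (ζ ∪ H) o y ∨ Link (ζ ∪ H) {o} N := by
      clear hy
      induction hc with
      | refl => exact Or.inl (Conn.refl _ _)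
      | @tail b c _ h2 ih =>
        rcases ih with ih | ih
        · rcases h2 with (h2 | h2) | h2
          · exact Or.inr ⟨o, rfl, b, (mem_inside_iff.1 (Finset.mem_filter.1 (hξ h2)).2).1, ih⟩
          exacts [Or.inl (ih.tail (Or.inl h2)), Or.inl (ih.tail (Or.inr h2))]
        · exact Or.inr ih
    rcases this with h | h
    exacts [⟨o, rfl, y, subset_Nb hy, h⟩, h]
  by_cases hX : ∃ s : Finset V, s.card ≤ L ∧ N ∩ Cl (ζ ∪ H) o ⊆ s
  · exact Or.inl (Or.inl ⟨hl, hX⟩)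
  by_cases hb : ∀ x ∈ N ∩ Cl (ζ ∪ H) o,
    ε / 5 < Ex E' p fun ζ => ind (¬ Link (ζ ∪ (ξ ∪ H)) {x} T)
  · exact Or.inl (Or.inr ⟨hX, hb⟩)
  push Not at hb
  obtain ⟨x, hx, hx'⟩ := hb
  refine Or.inr ⟨⟨o, rfl, x, hx', Conn.mono ?_ hx.2⟩, e ▸ hn⟩
  exact Set.union_subset_union_right _ Set.subset_union_right

end Vale.Agent.P151
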