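import Vale.Agent.P151.Conn

namespace Vale.Agent.P151

variable {V : Type*}

/-- `f` changes by at most `c` along edges -/
def Lip (G : SimpleGraph V) (c : ℝ) (f : V → ℝ) : Prop := ∀ a b, G.Adj a b → |f b - f a| ≤ c

/-- every vertex is within distance `D` of the image of `o` under an automorphism which
translates both `X` and `Y` -/
def Homog (G : SimpleGraph V) (o : V) (D : ℕ) (X Y : V → ℝ) : Prop :=
  ∀ a, ∃ φ : G ≃g G, φ o ∈ Nb G D {a} ∧
    (∀ y, X (φ y) - X (φ o) = X y - X o) ∧ (∀ y, Y (φ y) - Y (φ o) = Y y - Y o)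

/-- from every vertex one can move by `(c, 0)` and by `(0, c)` within distance `D` -/
def Mobile (G : SimpleGraph V) (D : ℕ) (c : ℝ) (X Y : V → ℝ) : Prop :=
  ∀ a, (∃ b ∈ Nb G D {a}, X b = X a + c ∧ Y b = Y a) ∧
    (∃ b ∈ Nb G D {a}, X b = X a ∧ Y b = Y a + c)

/-- the cluster of `x` leaves every ball with probability bounded below -/
def Perc (G : SimpleGraph V) (p : ℝ) (x : V) : Prop :=
  ∃ c : ℝ, 0 < c ∧ ∀ R : ℕ, c ≤ Pr (EB G (R + 1) x) p fun ω => Link ω {x} (Nb G R {x})ᶜ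

/-- children in the oriented quarter plane -/
def child (v : ℕ × ℕ) (b : Bool) : ℕ × ℕ := if b then (v.1 + 1, v.2) else (v.1, v.2 + 1)

end Vale.Agent.P151
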