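import Vale.Agent.P151.Seed
import Vale.Agent.P151.Setting

/-!
Coupling, independence, the square-root trick, transport by automorphisms, escape.
-/

namespace Vale.Agent.P151

section general
variable {ι : Type*} {E : Finset ι} {p : ℝ}

lemma Pr_couple (h0 : 0 ≤ p) (h1 : p ≤ 1) {E₁ E₂ : Finset ι} {A B : Set ι → Prop}
    (h : ∀ ω : Set ι, A (ω ∩ E₁) → B (ω ∩ E₂)) : Pr E₁ p A ≤ Pr E₂ p B := by
  classical
  refine (Pr_le_of_subset h0 h1 (E := E₁ ∪ E₂) Finset.subset_union_left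
    (B := fun ω => A (ω ∩ E₁)) fun _ _ h => h).trans
    (Pr_ge_of_subset h0 h1 Finset.subset_union_right fun ω _ h' => h ω h')

lemma Pr_indep {E₁ E₂ : Finset ι} (hd : Disjoint E₁ E₂) (h₁ : E₁ ⊆ E) (h₂ : E₂ ⊆ E)
    (A B : Set ι → Prop) :
    Pr E p (fun ω => A (ω ∩ E₁) ∧ B (ω ∩ E₂)) = Pr E₁ p A * Pr E₂ p B := by
  classical
  rw [Pr_restrict (Finset.union_subset h₁ h₂) _ (fun ω _ => by
    rw [Set.inter_assoc, Set.inter_assoc, Finset.coe_union, Set.union_inter_cancel_left,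
      Set.union_inter_cancel_right])]
  unfold Pr
  rw [Ex_union hd, ← Ex_mul_right]
  refine Ex_congr fun ξ hξ => ?_
  rw [← Ex_mul_left]
  refine Ex_congr fun ζ hζ => ?_
  have hd' : Disjoint (E₁ : Set ι) E₂ := Finset.disjoint_coe.2 hd
  rw [ind_and, Set.union_inter_distrib_right, Set.union_inter_distrib_right,
    Set.inter_eq_left.2 hξ, Set.inter_eq_left.2 hζ, (hd'.symm.mono_left hζ).inter_eq,
    (hd'.mono_left hξ).inter_eq, Set.union_empty, Set.empty_union]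

/-- the square-root trick -/
lemma root_trick (h0 : 0 ≤ p) (h1 : p ≤ 1) {κ : Type*} (s : Finset κ) (hs : s.Nonempty)
    (A : κ → Set ι → Prop) (hA : ∀ i ω ω', ω ⊆ ω' → A i ω → A i ω') {δ : ℝ} (hδ : 0 < δ)
    (h : Pr E p (fun ω => ¬ ∃ i ∈ s, A i ω) ≤ δ ^ s.card) :
    ∃ i ∈ s, Pr E p (fun ω => ¬ A i ω) ≤ δ := by
  classical
  have key : ∀ s : Finset κ, ∏ i ∈ s, Pr E p (fun ω => ¬ A i ω) ≤
      Pr E p (fun ω => ¬ ∃ i ∈ s, A i ω) := by
    intro s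
    induction s using Finset.induction_on with
    | empty => simp [Pr, ind]
    | insert a s ha ih =>
      rw [Finset.prod_insert ha]
      refine (mul_le_mul_of_nonneg_left ih (Pr_nonneg h0 h1 _)).trans
        ((Pr_harris_not h0 h1 (hA a) fun ω ω' h ⟨i, hi, h'⟩ => ⟨i, hi, hA i _ _ h h'⟩).trans
          (Pr_mono h0 h1 ?_))
      rintro ω - ⟨h2, h3⟩ ⟨i, hi, h4⟩
      rcases Finset.mem_insert.1 hi with rfl | hi
      exacts [h2 h4, h3 ⟨i, hi, h4⟩]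
  by_contra hc
  push Not at hc
  have := Finset.prod_lt_prod_of_nonempty (f := fun _ => δ) (fun _ _ => hδ) hc hs
  rw [Finset.prod_const] at this
  linarith [key s]

end general

variable {V : Type*} {G : SimpleGraph V} {Δ : ℕ} {E : Finset (Sym2 V)} {p : ℝ}

lemma Conn.first_entry {ω : Set (Sym2 V)} {x y : V} {N : Set V} (h : Conn ω x y) (hy : y ∈ N) :
    ∃ z ∈ N, Conn (ω \ inside N) x z := by
  have : Conn (ω \ inside N) x y ∨ ∃ z ∈ N, Conn (ω \ inside N) x z := by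
    clear hy
    induction h with
    | refl => exact Or.inl (Conn.refl _ _)
    | @tail b c _ h2 ih =>
      rcases ih with ih | ih
      · by_cases h3 : s(b, c) ∈ inside N
        · exact Or.inr ⟨b, (mem_inside_iff.1 h3).1, ih⟩
        · exact Or.inl (ih.tail ⟨h2, h3⟩)
      · exact Or.inr ih
  rcases this with h | h
  exacts [⟨y, hy, h⟩, h]

/-- first exit, including the exit edge -/
lemma Link.exit {ω : Set (Sym2 V)} {S T W W' : Set V} (h : Link ω S T) (hω : ω ⊆ G.edgeSet)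
    (hT : Disjoint T W) (hS : S ⊆ W) (hW : ∀ a ∈ W, a ∈ W' ∧ ∀ b, G.Adj a b → b ∈ W') :
    Link (ω ∩ inside W') S (W' \ W) := by
  obtain ⟨x, hx, y, hy, hc⟩ := h
  obtain ⟨a, ha, b, hb, hab, hc⟩ := hc.first_exit (hS hx) (Set.disjoint_left.1 hT hy)
  have hb' := (hW a ha).2 b (hω hab)
  exact ⟨x, hx, b, ⟨hb', hb⟩, (hc.mono (Set.inter_subset_inter_right _
    (inside_mono fun v hv => (hW v hv).1))).tail ⟨hab, mem_inside_iff.2 ⟨(hW a ha).1, hb'⟩⟩⟩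

lemma link_exit_ball (hG : DegLe G Δ) {ω : Set (Sym2 V)} {S : Set V} {a : V} {R : ℕ}
    (hω : ω ⊆ G.edgeSet) (h : Link ω S (Nb G R {a})ᶜ) :
    Link (ω ∩ EB G (R + 1) a) S (Nb G R {a})ᶜ := by
  obtain ⟨x, hx, y, hy, hc⟩ := h
  by_cases hxR : x ∈ Nb G R {a}
  · have := Link.exit (S := {x}) (W := Nb G R {a}) (W' := Nb G (R + 1) {a})
      ⟨x, rfl, y, hy, hc⟩ hω
      disjoint_compl_left (Set.singleton_subset_iff.2 hxR)
      fun v hv => ⟨Nb_subset_succ hv, fun b hb => mem_Nb_of_adj hv hb⟩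
    refine this.mono (fun e he => ⟨he.1, ?_⟩) (Set.singleton_subset_iff.2 hx) fun v hv => hv.2
    rw [hG.coe_EB]
    exact ⟨hω he.1, he.2⟩
  · exact ⟨x, hx, x, hxR, Conn.refl _ _⟩

lemma EB_subset_edgeSet {R : ℕ} {a : V} : (EB G R a : Set (Sym2 V)) ⊆ G.edgeSet :=
  EI_subset.trans Set.inter_subset_left

lemma EB_mono (hG : DegLe G Δ) {R R' : ℕ} {a a' : V} (h : Nb G R {a} ⊆ Nb G R' {a'}) :
    EB G R a ⊆ EB G R' a' := by
  rw [← Finset.coe_subset, hG.coe_EB, hG.coe_EB]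
  exact Set.inter_subset_inter_right _ (inside_mono h)

lemma Pr_exit_ball (hG : DegLe G Δ) {S : Set V} {a : V} {R : ℕ}
    (hE : (E : Set (Sym2 V)) ⊆ G.edgeSet) (hE' : EB G (R + 1) a ⊆ E) :
    Pr E p (fun ω => ¬ Link ω S (Nb G R {a})ᶜ) =
      Pr (EB G (R + 1) a) p (fun ω => ¬ Link ω S (Nb G R {a})ᶜ) :=
  Pr_restrict hE' _ fun _ hω => not_congr ⟨link_exit_ball hG (hω.trans hE),
    fun h => h.mono Set.inter_subset_left le_rfl le_rfl⟩

lemma map_mem_Nb (φ : G ≃g G) {j : ℕ} {a v : V} (h : v ∈ Nb G j {a}) : φ v ∈ Nb G j {φ a} := by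
  induction j generalizing v with
  | zero => rw [Set.mem_singleton_iff.1 h]; rfl
  | succ j ih =>
    rcases h with h | ⟨y, hy, h⟩
    exacts [Or.inl (ih h), Or.inr ⟨φ y, ih hy, φ.map_adj_iff.2 h⟩]

lemma map_mem_Nb_iff (φ : G ≃g G) {j : ℕ} {a v : V} : φ v ∈ Nb G j {φ a} ↔ v ∈ Nb G j {a} :=
  ⟨fun h => by simpa using map_mem_Nb φ.symm h, map_mem_Nb φ⟩

lemma EB_map (hG : DegLe G Δ) (φ : G ≃g G) (R : ℕ) (a : V) :
    EB G R (φ a) = (EB G R a).map ⟨Sym2.map φ, Sym2.map.injective φ.injective⟩ := by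
  apply Finset.coe_injective
  rw [Finset.coe_map, hG.coe_EB, hG.coe_EB]
  ext e
  constructor
  · rintro ⟨h1, h2⟩
    induction e with
    | h u v =>
      obtain ⟨u, rfl⟩ := φ.surjective u
      obtain ⟨v, rfl⟩ := φ.surjective v
      rw [mem_inside_iff, map_mem_Nb_iff, map_mem_Nb_iff] at h2
      exact ⟨s(u, v), ⟨φ.map_adj_iff.1 h1, mem_inside_iff.2 h2⟩, rfl⟩
  · rintro ⟨e, ⟨h1, h2⟩, rfl⟩
    induction e with
    | h u v =>
      rw [mem_inside_iff] at h2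
      exact ⟨φ.map_adj_iff.2 h1, mem_inside_iff.2 ⟨map_mem_Nb φ h2.1, map_mem_Nb φ h2.2⟩⟩

/-- transport by an automorphism -/
lemma transport (hG : DegLe G Δ) (h0 : 0 ≤ p) (h1 : p ≤ 1) (φ : G ≃g G) (R : ℕ) (a : V)
    {W S T W' S' T' : Set V} (hW : ∀ v ∈ W, φ v ∈ W') (hS : ∀ v ∈ S, φ v ∈ S')
    (hT : ∀ v ∈ T, φ v ∈ T') :
    Pr (EB G R (φ a)) p (fun ω => ¬ Link (ω ∩ inside W') S' T') ≤
      Pr (EB G R a) p (fun ω => ¬ Link (ω ∩ inside W) S T) := by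
  unfold Pr
  rw [EB_map hG, Ex_map]
  refine Ex_mono h0 h1 fun ω _ => ind_mono fun h ⟨x, hx, y, hy, hc⟩ =>
    h ⟨φ x, hS x hx, φ y, hT y hy, (hc.map φ).mono ?_⟩
  rintro _ ⟨e, ⟨h1, h2⟩, rfl⟩
  refine ⟨⟨e, h1, rfl⟩, ?_⟩
  induction e with
  | h u v =>
    rw [mem_inside_iff] at h2
    exact mem_inside_iff.2 ⟨hW _ h2.1, hW _ h2.2⟩

lemma inside_univ : inside (Set.univ : Set V) = Set.univ := by
  ext e; simp [inside]

lemma transport' (hG : DegLe G Δ) (h0 : 0 ≤ p) (h1 : p ≤ 1) (φ : G ≃g G) (R : ℕ) (a : V)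
    {S T S' T' : Set V} (hS : ∀ v ∈ S, φ v ∈ S') (hT : ∀ v ∈ T, φ v ∈ T') :
    Pr (EB G R (φ a)) p (fun ω => ¬ Link ω S' T') ≤ Pr (EB G R a) p (fun ω => ¬ Link ω S T) := by
  simpa only [inside_univ, Set.inter_univ] using
    transport hG h0 h1 φ R a (W := Set.univ) (W' := Set.univ) (fun _ h => h) hS hT

/-- Escape: a cluster crossing many levels reaches a relatively dense set. -/
lemma escape (hG : DegLe G Δ) (h0 : 0 ≤ p) (h1 : p ≤ 1) (S T W : Set V)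
    (A : Set (Sym2 V) → Prop) (D : ℕ) {m : ℕ} (hm : 0 < m) (U M : ℕ → Set V)
    (hU : ∀ i < m, U i ⊆ U (i + 1)) (hW : ∀ i < m, U i ⊆ W)
    (hM1 : ∀ i < m, Nb G D (M i) ⊆ U (i + 1)) (hM2 : ∀ i < m, Disjoint (Nb G D (M i)) (U i))
    (hE : ∀ i < m, G.edgeSet ∩ inside (Nb G D (M i)) ⊆ E) (hT : ∀ x, ∃ y ∈ T, y ∈ Nb G D {x})
    (hA : ∀ i < m, ∀ ω : Set (Sym2 V), ω ⊆ E → A ω → Link (ω ∩ inside (U (i + 1))) S (M i)) :
    p ^ ((Δ + 1) ^ D * Δ) * Pr E p (fun ω => A ω ∧ ¬ Link (ω ∩ inside W) S T) ≤ 1 / m := by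
  classical
  obtain ⟨i, hi, hlev⟩ := exists_level (E := E) h0 h1
    (fun i ω => Link (ω ∩ inside (U i)) S T) hm (fun i hi ω _ h =>
      h.mono (Set.inter_subset_inter_right _ (inside_mono (hU i hi))) le_rfl le_rfl)
  refine le_trans ?_ hlev
  set N := Nb G D (M i) with hN
  set F := E.filter (· ∈ inside N) with hF
  set E' := E.filter (· ∉ inside N) with hE'
  have hFE : Disjoint F E' := Finset.disjoint_filter_filter_not _ _ _
  have hU' : E = F ∪ E' := (Finset.filter_union_filter_not_eq _ _).symm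
  have i1 : Pr E p (fun ω => A ω ∧ ¬ Link (ω ∩ inside W) S T) ≤
      Pr E' p (fun ζ => Link (ζ ∩ inside (U (i + 1))) S N ∧ ¬ Link (ζ ∩ inside (U i)) S T) := by
    refine Pr_ge_of_subset h0 h1 (Finset.filter_subset _ _) fun ω hω h => ⟨?_, fun h' => h.2 ?_⟩
    · obtain ⟨x, hx, y, hy, hc⟩ := hA i hi ω hω h.1
      obtain ⟨z, hz, hc⟩ := hc.first_entry (N := N) (subset_Nb hy)
      exact ⟨x, hx, z, hz, hc.mono fun e he =>
        ⟨⟨he.1.1, Finset.mem_filter.2 ⟨hω he.1.1, he.2⟩⟩, he.1.2⟩⟩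
    · exact h'.mono (Set.inter_subset_inter Set.inter_subset_left (inside_mono (hW i hi)))
        le_rfl le_rfl
  refine (mul_le_mul_of_nonneg_left i1 (pow_nonneg h0 _)).trans ?_
  unfold Pr
  rw [hU', Ex_union hFE, Ex_comm, ← Ex_mul_left]
  refine Ex_mono h0 h1 fun ζ hζ => ?_
  by_cases hs : Link (ζ ∩ inside (U (i + 1))) S N ∧ ¬ Link (ζ ∩ inside (U i)) S T
  swap
  · rw [ind_of_not hs, mul_zero]
    exact Ex_nonneg h0 h1 fun _ _ => ind_nonneg _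
  rw [ind_of hs, mul_one]
  obtain ⟨⟨x, hx, z, hz, hc⟩, hn⟩ := hs
  obtain ⟨a, ha, hza⟩ := mem_Nb_iff.1 hz
  have haN : Nb G D {a} ⊆ N := Nb_mono (Set.singleton_subset_iff.2 ha)
  have hsub : EB G D a ⊆ F := by
    intro e he
    have h2 : e ∈ (EB G D a : Set (Sym2 V)) := he
    rw [hG.coe_EB] at h2
    exact Finset.mem_filter.2 ⟨hE i hi ⟨h2.1, inside_mono haN h2.2⟩, inside_mono haN h2.2⟩
  refine (pow_le_pow_of_le_one h0 h1 (hG.card_EB D a)).trans ?_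
  rw [← Pr_all_open (p := p) hsub]
  refine Pr_mono h0 h1 fun ξ hξ hop => ⟨?_, fun h => hn (h.mono ?_ le_rfl le_rfl)⟩
  · obtain ⟨y, hy, hya⟩ := hT a
    have hs : G.edgeSet ∩ inside (Nb G D {a}) ⊆ (ξ ∪ ζ) ∩ inside (U (i + 1)) := fun e he =>
      ⟨Or.inl (hop (by rwa [hG.coe_EB])), inside_mono (haN.trans (hM1 i hi)) he.2⟩
    exact ⟨x, hx, y, hy, (hc.mono (Set.inter_subset_inter_left _ Set.subset_union_right)).trans
      ((conn_of_mem_Nb hza hs).symm.trans (conn_of_mem_Nb hya hs))⟩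
  · rintro e ⟨he | he, he'⟩
    · have := (Finset.mem_filter.1 (hξ he)).2
      induction e with
      | h u v => exact absurd (mem_inside_iff.1 he').1
                   (Set.disjoint_left.1 (hM2 i hi) (mem_inside_iff.1 this).1)
    · exact ⟨he, he'⟩

end Vale.Agent.P151
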