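import Vale.Agent.P151.Tools

/-!
Large balls are joined to infinity with probability close to one.
-/

namespace Vale.Agent.P151

variable {V : Type*} {G : SimpleGraph V} {Δ : ℕ} {p : ℝ}

lemma exists_iter {D : ℕ} {f : V → ℝ} {γ : ℝ} (h : ∀ a, ∃ b ∈ Nb G D {a}, f b = f a + γ)
    (n : ℕ) (a : V) : ∃ b ∈ Nb G (n * D) {a}, f b = f a + n * γ := by
  induction n with
  | zero => exact ⟨a, by simp [Nb_zero], by simp⟩
  | succ n ih =>
    obtain ⟨b, hb, hf⟩ := ih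
    obtain ⟨c, hc, hf'⟩ := h b
    exact ⟨c, by rw [Nat.succ_mul]; exact Nb_trans hb hc, by rw [hf', hf]; push_cast; ring⟩

lemma square_step (hG : DegLe G Δ) (h0 : 0 ≤ p) (h1 : p ≤ 1) (o : V)
    (hfar : ∀ R, ∃ φ : G ≃g G, ∃ d, φ o ∈ Nb G d {o} ∧ φ o ∉ Nb G R {o}) {q ε : ℝ} (hε : 0 < ε)
    (r : ℕ) (hr : ∀ R, Pr (EB G (R + 1) o) p (fun ω => ¬ Link ω (Nb G r {o}) (Nb G R {o})ᶜ) ≤ q) :
    ∃ r', ∀ R, Pr (EB G (R + 1) o) p (fun ω => ¬ Link ω (Nb G r' {o}) (Nb G R {o})ᶜ) ≤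
      q * q + 2 * ε := by
  set u : ℕ → ℝ := fun R =>
    Pr (EB G (R + 1) o) p (fun ω => ¬ Link ω (Nb G r {o}) (Nb G R {o})ᶜ) with hu
  have hb : BddAbove (Set.range u) := ⟨q, by rintro _ ⟨R, rfl⟩; exact hr R⟩
  obtain ⟨R, hR⟩ := exists_lt_of_lt_ciSup (sub_lt_self (iSup u) hε)
  have hs : ∀ R', u R' - u R ≤ ε := fun R' => by linarith [le_ciSup hb R']
  obtain ⟨φ, d, hd, hφ⟩ := hfar (R + 1 + (R + 1))
  have hu' : ∀ R, Pr (EB G (R + 1) (φ o)) p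
      (fun ω => ¬ Link ω (Nb G r {φ o}) (Nb G R {φ o})ᶜ) = u R := fun R => le_antisymm
    (transport' hG h0 h1 φ _ o (fun v hv => map_mem_Nb φ hv)
      fun v hv h => hv ((map_mem_Nb_iff φ).1 h))
    (by
      have := transport' hG h0 h1 φ.symm (R + 1) (φ o) (S := Nb G r {φ o})
        (T := (Nb G R {φ o})ᶜ) (S' := Nb G r {o}) (T' := (Nb G R {o})ᶜ)
        (fun v hv => by simpa using map_mem_Nb φ.symm hv)
        (fun v hv h => hv (by simpa using map_mem_Nb φ h))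
      simpa using this)
  refine ⟨d + r, fun R' => ?_⟩
  set R'' := d + R' + R with hR''
  set E := EB G (d + (R'' + 1)) o with hE
  have hEG : (E : Set (Sym2 V)) ⊆ G.edgeSet := EB_subset_edgeSet
  have s1 : ∀ j ≤ R'', EB G (j + 1) o ⊆ E := fun j hj => EB_mono hG (Nb_mono_left (by omega))
  have s2 : ∀ j ≤ R'', EB G (j + 1) (φ o) ⊆ E := fun j hj =>
    EB_mono hG fun v hv => Nb_mono_left (by omega) (Nb_trans hd hv)
  have hdis : Disjoint (EB G (R + 1) o) (EB G (R + 1) (φ o)) := by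
    rw [← Finset.disjoint_coe, hG.coe_EB, hG.coe_EB, Set.disjoint_left]
    rintro e ⟨-, h1⟩ ⟨-, h2⟩
    induction e with
    | h a b => exact hφ (Nb_trans (mem_inside_iff.1 h1).1 (Nb_symm (mem_inside_iff.1 h2).1))
  have i1 := Pr_indep (p := p) hdis (s1 R (by omega)) (s2 R (by omega))
    (fun ω => ¬ Link ω (Nb G r {o}) (Nb G R {o})ᶜ)
    (fun ω => ¬ Link ω (Nb G r {φ o}) (Nb G R {φ o})ᶜ)
  rw [hu'] at i1
  have key : ∀ a : V, EB G (R + 1) a ⊆ E → EB G (R'' + 1) a ⊆ E →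
      Pr E p (fun ω => ¬ Link ω (Nb G r {a}) (Nb G R'' {a})ᶜ ∧
        ¬ ¬ Link ω (Nb G r {a}) (Nb G R {a})ᶜ) =
      Pr (EB G (R'' + 1) a) p (fun ω => ¬ Link ω (Nb G r {a}) (Nb G R'' {a})ᶜ) -
        Pr (EB G (R + 1) a) p (fun ω => ¬ Link ω (Nb G r {a}) (Nb G R {a})ᶜ) := by
    intro a a1 a2
    rw [Pr_and_not, Pr_exit_ball hG hEG a1, Pr_exit_ball hG hEG a2]
    exact fun ω _ h h' => h (h'.mono le_rfl le_rfl
      (Set.compl_subset_compl.2 (Nb_mono_left (by omega))))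
  have i2 := key o (s1 R (by omega)) (s1 R'' le_rfl)
  have i3 := key (φ o) (s2 R (by omega)) (s2 R'' le_rfl)
  rw [hu', hu'] at i3
  rw [← Pr_exit_ball hG hEG (s1 R' (by omega))]
  have i4 : u R * u R ≤ q * q := mul_self_le_mul_self (Pr_nonneg h0 h1 _) (hr R)
  refine (Pr_le_add h0 h1 (B := fun ω => ¬ Link (ω ∩ EB G (R + 1) o) (Nb G r {o}) (Nb G R {o})ᶜ ∧
    ¬ Link (ω ∩ EB G (R + 1) (φ o)) (Nb G r {φ o}) (Nb G R {φ o})ᶜ)
    (C := fun ω => (¬ Link ω (Nb G r {o}) (Nb G R'' {o})ᶜ ∧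
        ¬ ¬ Link ω (Nb G r {o}) (Nb G R {o})ᶜ) ∨ (¬ Link ω (Nb G r {φ o}) (Nb G R'' {φ o})ᶜ ∧
        ¬ ¬ Link ω (Nb G r {φ o}) (Nb G R {φ o})ᶜ)) fun ω _ h => ?_).trans ?_
  · have b1 : ¬ Link ω (Nb G r {o}) (Nb G R'' {o})ᶜ := fun h' => h (h'.mono le_rfl
      (Nb_mono_left (by omega)) (Set.compl_subset_compl.2 (Nb_mono_left (by omega))))
    have b2 : ¬ Link ω (Nb G r {φ o}) (Nb G R'' {φ o})ᶜ := fun h' => h (h'.mono le_rfl
      (fun v hv => Nb_trans hd hv) (Set.compl_subset_compl.2 fun v hv =>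
        Nb_mono_left (by omega) (Nb_trans (Nb_symm hd) hv)))
    by_cases c1 : Link ω (Nb G r {o}) (Nb G R {o})ᶜ
    · exact Or.inr (Or.inl ⟨b1, not_not.2 c1⟩)
    by_cases c2 : Link ω (Nb G r {φ o}) (Nb G R {φ o})ᶜ
    · exact Or.inr (Or.inr ⟨b2, not_not.2 c2⟩)
    exact Or.inl ⟨fun h => c1 (h.mono Set.inter_subset_left le_rfl le_rfl),
      fun h => c2 (h.mono Set.inter_subset_left le_rfl le_rfl)⟩
  · have i5 := Pr_or_le (E := E) h0 h1 (fun ω => ¬ Link ω (Nb G r {o}) (Nb G R'' {o})ᶜ ∧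
        ¬ ¬ Link ω (Nb G r {o}) (Nb G R {o})ᶜ)
      (fun ω => ¬ Link ω (Nb G r {φ o}) (Nb G R'' {φ o})ᶜ ∧
        ¬ ¬ Link ω (Nb G r {φ o}) (Nb G R {φ o})ᶜ)
    rw [i1]
    have := hs R''
    change _ = u R'' - u R at i2
    change u R * u R + _ ≤ _
    linarith

theorem zero_one (hG : DegLe G Δ) (h0 : 0 ≤ p) (h1 : p ≤ 1) {o : V} {D : ℕ} {c : ℝ} (hc : 0 < c)
    {X Y : V → ℝ} (hX : Lip G 1 X) (hH : Homog G o D X Y) (hM : Mobile G D c X Y) {x : V}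
    (hp : Perc G p x) {δ : ℝ} (hδ : 0 < δ) :
    ∃ r, ∀ R, Pr (EB G (R + 1) o) p (fun ω => ¬ Link ω (Nb G r {o}) (Nb G R {o})ᶜ) ≤ δ := by
  have hfar : ∀ R, ∃ φ : G ≃g G, ∃ d, φ o ∈ Nb G d {o} ∧ φ o ∉ Nb G R {o} := by
    intro R
    obtain ⟨n, hn⟩ := exists_nat_gt ((R + D : ℝ) / c)
    obtain ⟨a, ha, hXa⟩ := exists_iter (f := X) (γ := c)
      (fun a => ((hM a).1).imp fun b hb => ⟨hb.1, hb.2.1⟩) n o
    obtain ⟨φ, hφ, -⟩ := hH a
    refine ⟨φ, _, Nb_trans ha hφ, fun h => ?_⟩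
    have := abs_sub_le_of_mem_Nb zero_le_one hX (Nb_trans h (Nb_symm hφ))
    rw [div_lt_iff₀ hc] at hn
    rw [hXa, add_sub_cancel_left, abs_of_nonneg (by positivity)] at this
    push_cast at this
    linarith
  obtain ⟨c', hc', hp⟩ := hp
  have hc1 : c' ≤ 1 := (hp 0).trans (Pr_le_one h0 h1 _)
  have key : ∀ n : ℕ, ∃ r, ∀ R, Pr (EB G (R + 1) o) p
      (fun ω => ¬ Link ω (Nb G r {o}) (Nb G R {o})ᶜ) ≤ (1 - c' / 2) * (1 - c' / 4) ^ n := by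
    intro n
    induction n with
    | zero =>
      obtain ⟨φ, hφ, -⟩ := hH x
      refine ⟨D, fun R => ?_⟩
      have i1 := transport' hG h0 h1 φ.symm (R + 1) (φ o) (S := {x})
        (T := (Nb G R {φ o})ᶜ) (S' := Nb G D {o}) (T' := (Nb G R {o})ᶜ)
        (fun v hv => by rw [hv]; simpa using map_mem_Nb φ.symm (Nb_symm hφ))
        (fun v hv h => hv (by simpa using map_mem_Nb φ h))
      simp only [RelIso.symm_apply_apply] at i1
      have i2 := hp (D + R)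
      have i3 : Pr (EB G (D + R + 1) x) p (fun ω => ¬ Link ω {x} (Nb G R {φ o})ᶜ) ≤
          Pr (EB G (D + R + 1) x) p (fun ω => ¬ Link ω {x} (Nb G (D + R) {x})ᶜ) :=
        Pr_mono h0 h1 fun ω _ h h' => h (h'.mono le_rfl le_rfl (Set.compl_subset_compl.2
          fun v hv => Nb_trans hφ hv))
      have i4 : EB G (R + 1) (φ o) ⊆ EB G (D + R + 1) x :=
        EB_mono hG fun v hv => Nb_trans (j := R + 1) hφ hv
      rw [Pr_exit_ball hG EB_subset_edgeSet i4,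
        Pr_not (fun ω => Link ω {x} (Nb G (D + R) {x})ᶜ)] at i3
      rw [pow_zero, mul_one]
      linarith
    | succ n ih =>
      obtain ⟨r, hr⟩ := ih
      have hq : 0 < (1 - c' / 2) * (1 - c' / 4) ^ n :=
        mul_pos (by linarith) (pow_pos (by linarith) _)
      have hq1 : (1 - c' / 2) * (1 - c' / 4) ^ n ≤ 1 - c' / 2 :=
        mul_le_of_le_one_right (by linarith) (pow_le_one₀ (by linarith) (by linarith))
      obtain ⟨r', hr'⟩ := square_step hG h0 h1 o hfar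
        (ε := (1 - c' / 2) * (1 - c' / 4) ^ n * c' / 8) (by positivity) r hr
      refine ⟨r', fun R => (hr' R).trans ?_⟩
      rw [pow_succ, ← mul_assoc]
      nlinarith [mul_le_mul_of_nonneg_left hq1 hq.le]
  obtain ⟨n, hn⟩ := exists_pow_lt_of_lt_one hδ (show 1 - c' / 4 < 1 by linarith)
  obtain ⟨r, hr⟩ := key n
  refine ⟨r, fun R => (hr R).trans (le_trans ?_ hn.le)⟩
  exact mul_le_of_le_one_left (pow_nonneg (by linarith) _) (by linarith)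

end Vale.Agent.P151
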